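import Vale.Agent.P002G.Bord
import Vale.Agent.P002.Krylov

/-!
# Cyclic vectors and bordering
-/

namespace Vale.Agent.P002G

open Matrix Polynomial
open Vale.Agent.P002 (kry mul_kry kry_mulVec_single)

variable {n : ℕ} {S T : Type*} [CommRing S] [CommRing T]

/-- `v` is a cyclic vector of `Z` (over the ring `S`). -/
def Cyc (Z : Matrix (Fin n) (Fin n) S) (v : Fin n → S) : Prop :=
  ∀ M : Submodule S (Fin n → S), v ∈ M → (∀ y ∈ M, Z *ᵥ y ∈ M) → M = ⊤

theorem pow_mem_of_stable {Z : Matrix (Fin n) (Fin n) S} {M : Submodule S (Fin n → S)}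
    (hZ : ∀ y ∈ M, Z *ᵥ y ∈ M) {v : Fin n → S} (hv : v ∈ M) (j : ℕ) : (Z ^ j) *ᵥ v ∈ M := by
  induction j with
  | zero => simpa using hv
  | succ j ih => rw [pow_succ', ← mulVec_mulVec]; exact hZ _ ih

theorem kry_mulVec (Z : Matrix (Fin n) (Fin n) S) (v y : Fin n → S) :
    kry Z v *ᵥ y = ∑ j, y j • ((Z ^ (j : ℕ)) *ᵥ v) := by
  ext i
  simp [kry, mulVec, dotProduct, mul_comm]

theorem cyc_iff (Z : Matrix (Fin n) (Fin n) S) (v : Fin n → S) :
    Cyc Z v ↔ IsUnit (kry Z v) := by
  rw [← Matrix.mulVec_surjective_iff_isUnit]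
  constructor
  · intro h x
    rcases n with _ | n
    · exact ⟨0, Subsingleton.elim _ _⟩
    obtain ⟨M, hM⟩ : ∃ M, M = LinearMap.range (kry Z v).mulVecLin := ⟨_, rfl⟩
    have hpow : ∀ j : ℕ, j < n + 1 → (Z ^ j) *ᵥ v ∈ M := by
      intro j hj
      rw [hM]
      exact ⟨Pi.single ⟨j, hj⟩ 1, kry_mulVec_single Z v ⟨j, hj⟩⟩
    have htop : (Z ^ (n + 1)) *ᵥ v ∈ M := by
      nontriviality S
      have h1 := Matrix.aeval_self_charpoly Z
      have h2 : Z.charpoly.natDegree = n + 1 := by
        rw [Matrix.charpoly_natDegree_eq_dim, Fintype.card_fin]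
      rw [Polynomial.aeval_eq_sum_range, h2, Finset.sum_range_succ] at h1
      have h3 : Z.charpoly.coeff (n + 1) = 1 := by
        have := Z.charpoly_monic
        rwa [Polynomial.Monic, Polynomial.leadingCoeff, h2] at this
      rw [h3, one_smul] at h1
      have h4 : Z ^ (n + 1) = -∑ i ∈ Finset.range (n + 1), Z.charpoly.coeff i • Z ^ i :=
        eq_neg_of_add_eq_zero_right h1
      rw [h4, Matrix.neg_mulVec, Matrix.sum_mulVec]
      apply M.neg_mem
      apply M.sum_mem
      intro i hi
      rw [smul_mulVec]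
      exact M.smul_mem _ (hpow i (Finset.mem_range.1 hi))
    have hall : M = ⊤ := by
      apply h M
      · simpa using hpow 0 (Nat.succ_pos n)
      · intro y hy
        rw [hM] at hy
        obtain ⟨z, rfl⟩ := hy
        rw [Matrix.mulVecLin_apply, kry_mulVec, Matrix.mulVec_sum]
        apply M.sum_mem
        intro j _
        rw [mulVec_smul, mulVec_mulVec, ← pow_succ']
        apply M.smul_mem
        rcases Nat.lt_or_ge ((j : ℕ) + 1) (n + 1) with h1 | h1
        · exact hpow _ h1
        · have h2 : (j : ℕ) + 1 = n + 1 := by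
            have := j.2
            omega
          rw [h2]
          exact htop
    have hx : x ∈ M := by rw [hall]; trivial
    rw [hM] at hx
    obtain ⟨y, hy⟩ := hx
    exact ⟨y, hy⟩
  · intro h M hv hZ
    rw [eq_top_iff]
    intro x _
    obtain ⟨y, rfl⟩ := h x
    rw [kry_mulVec]
    exact M.sum_mem fun j _ => M.smul_mem _ (pow_mem_of_stable hZ hv j)

/-- Cyclic vectors in terms of polynomials. -/
theorem Cyc.exists_poly {Z : Matrix (Fin n) (Fin n) S} {v : Fin n → S} (h : Cyc Z v)
    (x : Fin n → S) : ∃ p : S[X], aeval Z p *ᵥ v = x := by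
  have h1 := (Matrix.mulVec_surjective_iff_isUnit (A := kry Z v)).2 ((cyc_iff Z v).1 h)
  obtain ⟨y, hy⟩ := h1 x
  refine ⟨∑ j : Fin n, C (y j) * X ^ (j : ℕ), ?_⟩
  rw [← hy]
  rw [kry_mulVec, map_sum, Matrix.sum_mulVec]
  refine Finset.sum_congr rfl fun j _ => ?_
  rw [map_mul, map_pow, aeval_X, aeval_C, ← Algebra.smul_def, smul_mulVec]

theorem Cyc.map {Z : Matrix (Fin n) (Fin n) S} {v : Fin n → S} (h : Cyc Z v) (φ : S →+* T) :
    Cyc (Z.map φ) fun i => φ (v i) := by
  rw [cyc_iff] at h ⊢
  have h1 : kry (Z.map φ) (fun i => φ (v i)) = φ.mapMatrix (kry Z v) := by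
    ext i j
    simp only [kry, Matrix.of_apply, RingHom.mapMatrix_apply, Matrix.map_apply]
    have h2 : (Z.map φ) ^ (j : ℕ) = (Z ^ (j : ℕ)).map φ := by
      have := map_pow φ.mapMatrix Z (j : ℕ)
      exact this.symm
    rw [h2, RingHom.map_mulVec]
    rfl
  rw [h1]
  exact h.map φ.mapMatrix

theorem Cyc.of_comm {Z P : Matrix (Fin n) (Fin n) S} {v : Fin n → S} (h : Cyc Z v)
    (hP : P * Z = Z * P) (hu : IsUnit P) : Cyc Z (P *ᵥ v) := by
  rw [cyc_iff] at h ⊢
  rw [← mul_kry P Z v Z hP]
  exact hu.mul h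

theorem cyc_conj {Z : Matrix (Fin n) (Fin n) S} {v : Fin n → S} (P : (Matrix (Fin n) (Fin n) S)ˣ)
    (h : Cyc Z v) : Cyc ((P : Matrix (Fin n) (Fin n) S) * Z * ((P⁻¹ : (Matrix (Fin n) (Fin n) S)ˣ) :
      Matrix (Fin n) (Fin n) S)) ((P : Matrix (Fin n) (Fin n) S) *ᵥ v) := by
  rw [cyc_iff] at h ⊢
  rw [← mul_kry (P : Matrix (Fin n) (Fin n) S) Z v _ (by
    rw [mul_assoc _ ((P⁻¹ : (Matrix (Fin n) (Fin n) S)ˣ) : Matrix (Fin n) (Fin n) S), Units.inv_mul,
      mul_one])]
  exact P.isUnit.mul h

/-- The first basis vector. -/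
def e0 (n : ℕ) (S : Type*) [CommRing S] : Fin (n + 1) → S := Fin.cons 1 0

theorem brd_mulVec (q : S) (N : Matrix (Fin n) (Fin n) S) (b a : Fin n → S) (x₀ : S)
    (y : Fin n → S) : brd q N b a *ᵥ (Fin.cons x₀ y) =
      Fin.cons ((q + a ⬝ᵥ b) * x₀ + (a ᵥ* N) ⬝ᵥ y) (x₀ • b + N *ᵥ y) := by
  ext i
  refine Fin.cases ?_ (fun i => ?_) i
  · simp [brd, mulVec, dotProduct, Fin.sum_univ_succ]
  · simp [brd, mulVec, dotProduct, Fin.sum_univ_succ, mul_comm]

theorem cyc_brd (q : S) (N : Matrix (Fin n) (Fin n) S) (b a : Fin n → S) :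
    Cyc (brd q N b a) (e0 n S) ↔ Cyc N b := by
  constructor
  · intro h M hb hN
    obtain ⟨M', hM'⟩ : ∃ M' : Submodule S (Fin (n + 1) → S), ∀ x, x ∈ M' ↔ Fin.tail x ∈ M :=
      ⟨{ carrier := {x | Fin.tail x ∈ M}
         add_mem' := fun {x y} hx hy => M.add_mem hx hy
         zero_mem' := M.zero_mem
         smul_mem' := fun c x hx => M.smul_mem c hx }, fun x => Iff.rfl⟩
    have h1 : M' = ⊤ := by
      apply h M'
      · rw [hM', e0, Fin.tail_cons]
        exact M.zero_mem
      · intro y hy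
        rw [hM'] at hy
        rw [← Fin.cons_self_tail y, brd_mulVec, hM', Fin.tail_cons]
        exact M.add_mem (M.smul_mem _ hb) (hN _ hy)
    rw [eq_top_iff]
    intro x _
    have h2 : (Fin.cons 0 x : Fin (n + 1) → S) ∈ M' := by rw [h1]; trivial
    rw [hM', Fin.tail_cons] at h2
    exact h2
  · intro h M he hZ
    have key : ∀ y : Fin n → S, (Fin.cons 0 y : Fin (n + 1) → S) ∈ M := by
      obtain ⟨M', hM'⟩ : ∃ M' : Submodule S (Fin n → S), ∀ x, x ∈ M' ↔
          (Fin.cons 0 x : Fin (n + 1) → S) ∈ M := by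
        have ha : ∀ x y : Fin n → S, (Fin.cons 0 (x + y) : Fin (n + 1) → S) =
            Fin.cons 0 x + Fin.cons 0 y := by
          intro x y
          ext i
          refine Fin.cases ?_ (fun i => ?_) i <;> simp
        have hc : ∀ (c : S) (x : Fin n → S), (Fin.cons 0 (c • x) : Fin (n + 1) → S) =
            c • Fin.cons 0 x := by
          intro c x
          ext i
          refine Fin.cases ?_ (fun i => ?_) i <;> simp
        have h0 : (Fin.cons 0 (0 : Fin n → S) : Fin (n + 1) → S) = 0 := by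
          ext i
          refine Fin.cases ?_ (fun i => ?_) i <;> simp
        exact ⟨{ carrier := {x | (Fin.cons 0 x : Fin (n + 1) → S) ∈ M}
                 add_mem' := fun {x y} hx hy => by
                  rw [Set.mem_ofPred_eq, ha]; exact M.add_mem hx hy
                 zero_mem' := by rw [Set.mem_ofPred_eq, h0]; exact M.zero_mem
                 smul_mem' := fun c x hx => by
                  rw [Set.mem_ofPred_eq, hc]; exact M.smul_mem c hx }, fun x => Iff.rfl⟩
      have hstep : ∀ (c x₀ : S) (z : Fin n → S), (Fin.cons x₀ z : Fin (n + 1) → S) ∈ M →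
          (Fin.cons 0 z : Fin (n + 1) → S) ∈ M := by
        intro c x₀ z hz
        have h1 := M.sub_mem hz (M.smul_mem x₀ he)
        have h2 : (Fin.cons x₀ z : Fin (n + 1) → S) - x₀ • e0 n S = Fin.cons 0 z := by
          ext i
          refine Fin.cases ?_ (fun i => ?_) i <;> simp [e0]
        rwa [h2] at h1
      have h1 : M' = ⊤ := by
        apply h M'
        · rw [hM']
          have h2 := hZ _ he
          rw [e0, brd_mulVec] at h2
          have h3 := hstep 0 _ _ h2
          rw [one_smul, mulVec_zero, add_zero] at h3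
          exact h3
        · intro y hy
          rw [hM'] at hy ⊢
          have h2 := hZ _ hy
          rw [brd_mulVec] at h2
          have h3 := hstep 0 _ _ h2
          rw [zero_smul, zero_add] at h3
          exact h3
      intro y
      rw [← hM', h1]
      trivial
    rw [eq_top_iff]
    intro x _
    have h1 := M.add_mem (M.smul_mem (x 0) he) (key (Fin.tail x))
    have h2 : x 0 • e0 n S + (Fin.cons 0 (Fin.tail x) : Fin (n + 1) → S) = x := by
      ext i
      refine Fin.cases ?_ (fun i => ?_) i <;> simp [e0, Fin.tail]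
    rwa [h2] at h1

/-! ### The linear system for the first row -/

/-- The matrix of the linear system. -/
noncomputable def WW (N : Matrix (Fin n) (Fin n) S) (b : Fin n → S) : Matrix (Fin n) (Fin n) S :=
  Matrix.of fun j k => (wp N b k).coeff j

/-- The antitriangular matrix of the coefficients of the characteristic polynomial. -/
noncomputable def TT (N : Matrix (Fin n) (Fin n) S) : Matrix (Fin n) (Fin n) S :=
  Matrix.of fun m j => N.charpoly.coeff (m + j + 1)

theorem wp_coeff (N : Matrix (Fin n) (Fin n) S) (b : Fin n → S) (k : Fin n) (j : ℕ) :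
    (wp N b k).coeff j = ∑ m ∈ Finset.range n, N.charpoly.coeff (m + j + 1) * ((N ^ m) *ᵥ b) k := by
  unfold wp
  rw [Polynomial.finsetSum_coeff]
  have h1 : ∀ i ∈ Finset.range (n + 1), (∑ j ∈ Finset.range i,
      C (N.charpoly.coeff i * ((N ^ (i - 1 - j)) *ᵥ b) k) * X ^ j).coeff j =
      if j < i then N.charpoly.coeff i * ((N ^ (i - 1 - j)) *ᵥ b) k else 0 := by
    intro i _
    rw [Polynomial.finsetSum_coeff]
    simp only [Polynomial.coeff_C_mul, Polynomial.coeff_X_pow, mul_ite, mul_one, mul_zero]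
    by_cases h : j < i
    · rw [if_pos h, Finset.sum_ite_eq, if_pos (Finset.mem_range.2 h)]
    · rw [if_neg h, Finset.sum_ite_eq, if_neg (by rw [Finset.mem_range]; exact h)]
  rw [Finset.sum_congr rfl h1, ← Finset.sum_filter]
  have h2 : ∀ m, n ≤ m + j → N.charpoly.coeff (m + j + 1) * ((N ^ m) *ᵥ b) k = 0 := by
    intro m hm
    nontriviality S
    rw [Polynomial.coeff_eq_zero_of_natDegree_lt, zero_mul]
    rw [Matrix.charpoly_natDegree_eq_dim, Fintype.card_fin]
    omega
  have h3 : ∑ m ∈ Finset.range n, N.charpoly.coeff (m + j + 1) * ((N ^ m) *ᵥ b) k =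
      ∑ m ∈ (Finset.range n).filter (fun m => m + j < n),
        N.charpoly.coeff (m + j + 1) * ((N ^ m) *ᵥ b) k := by
    rw [Finset.sum_filter]
    refine Finset.sum_congr rfl fun m _ => ?_
    by_cases h : m + j < n
    · rw [if_pos h]
    · rw [if_neg h, h2 m (by omega)]
  rw [h3]
  refine Finset.sum_bij' (fun i _ => i - 1 - j) (fun m _ => m + j + 1) ?_ ?_ ?_ ?_ ?_
  · intro i hi
    rw [Finset.mem_filter, Finset.mem_range] at hi ⊢
    omega
  · intro m hm
    rw [Finset.mem_filter, Finset.mem_range] at hm ⊢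
    omega
  · intro i hi
    rw [Finset.mem_filter, Finset.mem_range] at hi
    omega
  · intro m hm
    omega
  · intro i hi
    rw [Finset.mem_filter, Finset.mem_range] at hi
    have h4 : i - 1 - j + j + 1 = i := by omega
    rw [h4]

theorem WW_eq (N : Matrix (Fin n) (Fin n) S) (b : Fin n → S) : (WW N b)ᵀ = kry N b * TT N := by
  ext k j
  rw [Matrix.transpose_apply, WW, Matrix.of_apply, wp_coeff, Matrix.mul_apply,
    ← Fin.sum_univ_eq_sum_range (fun m => N.charpoly.coeff (m + j + 1) * ((N ^ m) *ᵥ b) k)]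
  refine Finset.sum_congr rfl fun m _ => ?_
  rw [TT, Matrix.of_apply, kry, Matrix.of_apply, mul_comm]

theorem isUnit_TT (N : Matrix (Fin n) (Fin n) S) : IsUnit (TT N) := by
  nontriviality S
  rw [Matrix.isUnit_iff_isUnit_det]
  have h1 : ((TT N).submatrix id Fin.revPerm).det = 1 := by
    rw [Matrix.det_of_isUpperTriangular]
    · apply Finset.prod_eq_one
      intro i _
      rw [Matrix.submatrix_apply, TT, Matrix.of_apply, id, Fin.revPerm_apply, Fin.val_rev]
      have h2 : (i : ℕ) + (n - (i + 1)) + 1 = n := by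
        have := i.2
        omega
      rw [h2]
      have h3 := N.charpoly_monic
      rw [Polynomial.Monic, Polynomial.leadingCoeff, Matrix.charpoly_natDegree_eq_dim,
        Fintype.card_fin] at h3
      exact h3
    · intro i j hij
      change j < i at hij
      rw [Matrix.submatrix_apply, TT, Matrix.of_apply, id, Fin.revPerm_apply, Fin.val_rev]
      apply Polynomial.coeff_eq_zero_of_natDegree_lt
      rw [Matrix.charpoly_natDegree_eq_dim, Fintype.card_fin]
      have h1 := i.2
      have h2 : (j : ℕ) < i := hij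
      omega
  rw [Matrix.det_permute'] at h1
  exact isUnit_iff_exists_inv'.2 ⟨_, h1⟩

theorem isUnit_WW (N : Matrix (Fin n) (Fin n) S) (b : Fin n → S) :
    IsUnit (WW N b) ↔ Cyc N b := by
  rw [cyc_iff, ← Matrix.isUnit_transpose, WW_eq]
  constructor
  · intro h
    have := h.mul (isUnit_TT N).unit⁻¹.isUnit
    rwa [mul_assoc, IsUnit.mul_val_inv, mul_one] at this
  · intro h
    exact h.mul (isUnit_TT N)

end Vale.Agent.P002G
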