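import Mathlib

/-!
# Bordered matrices and their characteristic polynomials
-/

namespace Vale.Agent.P002G

open Matrix Polynomial

variable {n : ℕ} {S : Type*} [CommRing S]

/-- Upper unitriangular bordering. -/
def ucons (x : Fin n → S) (U : Matrix (Fin n) (Fin n) S) : Matrix (Fin (n + 1)) (Fin (n + 1)) S :=
  Matrix.of (Fin.cons (Fin.cons 1 x) fun i => Fin.cons 0 (U i))

/-- Lower triangular bordering. -/
def lcons (q : S) (l : Fin n → S) (L : Matrix (Fin n) (Fin n) S) :
    Matrix (Fin (n + 1)) (Fin (n + 1)) S :=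
  Matrix.of (Fin.cons (Fin.cons q 0) fun i => Fin.cons (l i) (L i))

/-- Bordering. -/
def brd (q : S) (N : Matrix (Fin n) (Fin n) S) (b a : Fin n → S) :
    Matrix (Fin (n + 1)) (Fin (n + 1)) S :=
  Matrix.of (Fin.cons (Fin.cons (q + a ⬝ᵥ b) (a ᵥ* N)) fun i => Fin.cons (b i) (N i))

theorem ucons_mul_lcons (a : Fin n → S) (U : Matrix (Fin n) (Fin n) S) (q : S) (l : Fin n → S)
    (L : Matrix (Fin n) (Fin n) S) :
    ucons (a ᵥ* U) U * lcons q l L = brd q (U * L) (U *ᵥ l) a := by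
  ext i j
  refine Fin.cases ?_ (fun i => ?_) i <;> refine Fin.cases ?_ (fun j => ?_) j
  · have h : (a ᵥ* U) ⬝ᵥ l = a ⬝ᵥ (U *ᵥ l) := (dotProduct_mulVec a U l).symm
    simp only [dotProduct] at h
    simp [ucons, lcons, brd, Matrix.mul_apply, Fin.sum_univ_succ, dotProduct, h]
  · simp [ucons, lcons, brd, Matrix.mul_apply, Fin.sum_univ_succ, ← vecMul_vecMul, vecMul,
      dotProduct]
  · simp [ucons, lcons, brd, Matrix.mul_apply, Fin.sum_univ_succ, mulVec, dotProduct]
  · simp [ucons, lcons, brd, Matrix.mul_apply, Fin.sum_univ_succ]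

/-- The divided difference of the characteristic polynomial, applied to `b`. -/
noncomputable def wp (N : Matrix (Fin n) (Fin n) S) (b : Fin n → S) (k : Fin n) : S[X] :=
  ∑ i ∈ Finset.range (n + 1), ∑ j ∈ Finset.range i,
    C (N.charpoly.coeff i * ((N ^ (i - 1 - j)) *ᵥ b) k) * X ^ j

theorem charmatrix_mulVec_wp (N : Matrix (Fin n) (Fin n) S) (b : Fin n → S) :
    N.charmatrix *ᵥ wp N b = fun k => N.charpoly * C (b k) := by
  nontriviality S
  obtain ⟨x, hx⟩ : ∃ x : Matrix (Fin n) (Fin n) S[X], x = Matrix.scalar (Fin n) (X : S[X]) :=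
    ⟨_, rfl⟩
  obtain ⟨y, hy⟩ : ∃ y : Matrix (Fin n) (Fin n) S[X], y = (C : S →+* S[X]).mapMatrix N :=
    ⟨_, rfl⟩
  have hcm : N.charmatrix = x - y := by rw [hx, hy]; rfl
  have hcomm : Commute x y := by rw [hx]; exact Matrix.scalar_commute _ (Commute.all X) _
  -- powers
  have hxp : ∀ (j : ℕ) (v : Fin n → S[X]), x ^ j *ᵥ v = fun k => X ^ j * v k := by
    intro j v
    rw [hx, ← map_pow]
    ext k
    rw [Matrix.scalar_apply, Matrix.mulVec_diagonal]
  have hyp : ∀ (j : ℕ) (v : Fin n → S), y ^ j *ᵥ (fun k => C (v k)) =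
      fun k => C (((N ^ j) *ᵥ v) k) := by
    intro j v
    rw [hy, ← map_pow]
    ext1 k
    exact (RingHom.map_mulVec C (N ^ j) v k).symm
  obtain ⟨Cb, hCb⟩ : ∃ Cb : Fin n → S[X], Cb = fun k => C (b k) := ⟨_, rfl⟩
  have h1 : wp N b = (∑ i ∈ Finset.range (n + 1), C (N.charpoly.coeff i) •
      ∑ j ∈ Finset.range i, x ^ j * y ^ (i - 1 - j)) *ᵥ Cb := by
    rw [Matrix.sum_mulVec]
    ext1 k
    rw [Finset.sum_apply]
    unfold wp
    apply Finset.sum_congr rfl
    intro i _
    rw [smul_mulVec, Matrix.sum_mulVec, Pi.smul_apply, Finset.sum_apply, Finset.smul_sum]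
    apply Finset.sum_congr rfl
    intro j _
    rw [← mulVec_mulVec, hCb, hyp, hxp, smul_eq_mul, C_mul]
    ring
  have h2 : N.charmatrix * (∑ i ∈ Finset.range (n + 1), C (N.charpoly.coeff i) •
      ∑ j ∈ Finset.range i, x ^ j * y ^ (i - 1 - j)) =
      Matrix.scalar (Fin n) N.charpoly := by
    rw [Finset.mul_sum]
    have h3 : ∀ i ∈ Finset.range (n + 1), N.charmatrix * (C (N.charpoly.coeff i) •
        ∑ j ∈ Finset.range i, x ^ j * y ^ (i - 1 - j)) =
        C (N.charpoly.coeff i) • x ^ i - C (N.charpoly.coeff i) • y ^ i := by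
      intro i _
      rw [mul_smul_comm, hcm, hcomm.mul_geom_sum₂, smul_sub]
    rw [Finset.sum_congr rfl h3, Finset.sum_sub_distrib]
    have hdeg : N.charpoly.natDegree < n + 1 := by
      rw [Matrix.charpoly_natDegree_eq_dim, Fintype.card_fin]
      exact Nat.lt_succ_self n
    have h4 : ∑ i ∈ Finset.range (n + 1), C (N.charpoly.coeff i) • y ^ i = 0 := by
      have h5 := Matrix.aeval_self_charpoly N
      rw [Polynomial.aeval_eq_sum_range' hdeg] at h5
      have h6 := congrArg (C : S →+* S[X]).mapMatrix h5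
      rw [map_sum, map_zero] at h6
      rw [← h6]
      apply Finset.sum_congr rfl
      intro i _
      rw [hy, ← map_pow]
      ext1 a c
      simp [Matrix.map_apply]
    have h7 : ∑ i ∈ Finset.range (n + 1), C (N.charpoly.coeff i) • x ^ i =
        Matrix.scalar (Fin n) N.charpoly := by
      conv_rhs => rw [N.charpoly.as_sum_range' _ hdeg]
      rw [map_sum]
      apply Finset.sum_congr rfl
      intro i _
      rw [hx, ← map_pow, ← C_mul_X_pow_eq_monomial, map_mul, ← smul_eq_mul]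
      ext1 a c
      rw [Matrix.smul_apply, smul_eq_mul, smul_eq_mul]
      simp [Matrix.scalar_apply, Matrix.diagonal_apply, Matrix.mul_apply]
    rw [h4, h7, sub_zero]
  rw [h1, mulVec_mulVec, h2]
  ext1 k
  rw [Matrix.scalar_apply, Matrix.mulVec_diagonal, hCb]

theorem sum_mul_wp (N : Matrix (Fin n) (Fin n) S) (b : Fin n → S) (k : Fin n) :
    ∑ j, C (N k j) * wp N b j = X * wp N b k - N.charpoly * C (b k) := by
  have h4 := congrFun (charmatrix_mulVec_wp N b) k
  simp only [mulVec, dotProduct] at h4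
  have h5 : ∀ j, N.charmatrix k j * wp N b j =
      (if k = j then X * wp N b j else 0) - C (N k j) * wp N b j := by
    intro j
    by_cases h : k = j
    · subst h
      rw [Matrix.charmatrix_apply_eq, if_pos rfl]; ring
    · rw [Matrix.charmatrix_apply_ne _ _ _ h, if_neg h]; ring
  rw [Finset.sum_congr rfl fun j _ => h5 j, Finset.sum_sub_distrib,
    Finset.sum_ite_eq, if_pos (Finset.mem_univ k)] at h4
  rw [← h4]; ring

theorem vecMul_wp (N : Matrix (Fin n) (Fin n) S) (b a : Fin n → S) :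
    ∑ k, C ((a ᵥ* N) k) * wp N b k = X * ∑ k, C (a k) * wp N b k -
      C (a ⬝ᵥ b) * N.charpoly := by
  obtain ⟨w, hw⟩ : ∃ w, w = wp N b := ⟨_, rfl⟩
  obtain ⟨P, hP⟩ : ∃ P, P = N.charpoly := ⟨_, rfl⟩
  have h3 : ∀ k, ∑ j, C (N k j) * w j = X * w k - P * C (b k) := by
    rw [hw, hP]; exact sum_mul_wp N b
  rw [← hw, ← hP]
  clear hw hP
  have h6 : ∑ k, C ((a ᵥ* N) k) * w k = ∑ k, C (a k) * ∑ j, C (N k j) * w j := by
    simp only [vecMul, dotProduct, map_sum, Finset.sum_mul, Finset.mul_sum, C_mul]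
    rw [Finset.sum_comm]
    exact Finset.sum_congr rfl fun k _ => Finset.sum_congr rfl fun j _ => by ring
  have h7 : ∀ k, C (a k) * ∑ j, C (N k j) * w j =
      X * (C (a k) * w k) - C (a k * b k) * P := by
    intro k
    rw [h3 k, C_mul]
    ring
  rw [h6, Finset.sum_congr rfl fun k _ => h7 k, Finset.sum_sub_distrib, ← Finset.mul_sum,
    ← Finset.sum_mul, ← map_sum]
  rfl

theorem charpoly_brd_aux (q : S) (N : Matrix (Fin n) (Fin n) S) (b a : Fin n → S) :
    (brd q N b a).charpoly * N.charpoly = ((X - C (q + a ⬝ᵥ b)) * N.charpoly -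
      ∑ k, C ((a ᵥ* N) k) * wp N b k) * N.charpoly := by
  nontriviality S
  obtain ⟨w, hw⟩ : ∃ w, w = wp N b := ⟨_, rfl⟩
  obtain ⟨Q, hQ⟩ : ∃ Q, Q = N.charpoly := ⟨_, rfl⟩
  have hcm : N.charmatrix *ᵥ w = fun k => Q * C (b k) := by
    rw [hw, hQ]; exact charmatrix_mulVec_wp N b
  obtain ⟨P, hP⟩ : ∃ P : Matrix (Fin (n + 1)) (Fin (n + 1)) S[X], P =
      Matrix.of (Fin.cons (Fin.cons Q 0) fun i => Fin.cons (w i)
        ((1 : Matrix (Fin n) (Fin n) S[X]) i)) := ⟨_, rfl⟩
  have p00 : P 0 0 = Q := by rw [hP]; rfl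
  have p0s : ∀ j : Fin n, P 0 j.succ = 0 := fun j => by rw [hP]; rfl
  have ps0 : ∀ j : Fin n, P j.succ 0 = w j := fun j => by rw [hP]; rfl
  have pss : ∀ i j : Fin n, P i.succ j.succ = (1 : Matrix (Fin n) (Fin n) S[X]) i j := fun i j => by
    rw [hP]; rfl
  clear hP
  obtain ⟨M, hM⟩ : ∃ M, M = (brd q N b a).charmatrix := ⟨_, rfl⟩
  have e00 : M 0 0 = X - C (q + a ⬝ᵥ b) := by
    rw [hM, Matrix.charmatrix_apply_eq]; rfl
  have e0s : ∀ j : Fin n, M 0 j.succ = -C ((a ᵥ* N) j) := by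
    intro j
    rw [hM, Matrix.charmatrix_apply_ne _ _ _ (Fin.succ_ne_zero j).symm]; rfl
  have es0 : ∀ i : Fin n, M i.succ 0 = -C (b i) := by
    intro i
    rw [hM, Matrix.charmatrix_apply_ne _ _ _ (Fin.succ_ne_zero i)]; rfl
  have ess : ∀ i j : Fin n, M i.succ j.succ = N.charmatrix i j := by
    intro i j
    by_cases h : i = j
    · subst h
      rw [hM, Matrix.charmatrix_apply_eq, Matrix.charmatrix_apply_eq]; rfl
    · rw [hM, Matrix.charmatrix_apply_ne _ _ _ h, Matrix.charmatrix_apply_ne _ _ _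
        (fun h' => h (Fin.succ_injective _ h'))]; rfl
  have hMc : (brd q N b a).charpoly = M.det := by rw [hM]; rfl
  rw [hMc]
  clear hM hMc
  have hdetP : P.det = Q := by
    rw [Matrix.det_succ_row_zero, Fin.sum_univ_succ]
    have h1 : P.submatrix Fin.succ (Fin.succAbove 0) = 1 := by
      ext1 i j
      rw [Matrix.submatrix_apply, Fin.succAbove_zero, pss]
    rw [h1, p00]
    simp [p0s]
  have hcol : ∀ i : Fin n, (M * P) i.succ 0 = 0 := by
    intro i
    rw [Matrix.mul_apply, Fin.sum_univ_succ]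
    simp only [ps0, p00, es0, ess]
    have h4 := congrFun hcm i
    simp only [mulVec, dotProduct] at h4
    rw [h4]
    ring
  have htop' : (M * P) 0 0 = (X - C (q + a ⬝ᵥ b)) * Q - ∑ k, C ((a ᵥ* N) k) * w k := by
    rw [Matrix.mul_apply, Fin.sum_univ_succ]
    simp only [ps0, p00, e00, e0s, neg_mul, Finset.sum_neg_distrib]
    ring
  have hsub : (M * P).submatrix (Fin.succAbove 0) Fin.succ = N.charmatrix := by
    ext1 i j
    rw [Matrix.submatrix_apply, Fin.succAbove_zero, Matrix.mul_apply, Fin.sum_univ_succ]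
    simp only [p0s, pss, ess, mul_zero, zero_add]
    rw [← Matrix.mul_apply, Matrix.mul_one]
  have h1 : (M * P).det = ((X - C (q + a ⬝ᵥ b)) * Q - ∑ k, C ((a ᵥ* N) k) * w k) * Q := by
    rw [Matrix.det_succ_column_zero, Fin.sum_univ_succ, htop', hsub, hQ]
    simp [hcol, Matrix.charpoly]
  rw [← hw, ← hQ, ← h1, Matrix.det_mul, hdetP]

theorem charpoly_brd (q : S) (N : Matrix (Fin n) (Fin n) S) (b a : Fin n → S) :
    (brd q N b a).charpoly = N.charpoly * (X - C q) - X * ∑ k, C (a k) * wp N b k := by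
  have hreg : IsRightRegular N.charpoly := N.charpoly_monic.isRegular.right
  have h1 := hreg (charpoly_brd_aux q N b a)
  rw [h1, vecMul_wp, C_add]
  ring

end Vale.Agent.P002G
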