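import Vale.Agent.P002G.Cyc

/-!
# Coordinates of the cells `U L` and the first row of a bordered matrix
-/

namespace Vale.Agent.P002G

open Matrix Polynomial
open Vale.Agent.P002 (kry mul_kry kry_mulVec_single)

variable {n : ℕ} {S T : Type*} [CommRing S] [CommRing T]

/-- The upper unitriangular matrix with the strict upper entries of `X`. -/
def uU (X : Matrix (Fin n) (Fin n) S) : Matrix (Fin n) (Fin n) S :=
  Matrix.of fun i j => if i = j then 1 else if i < j then X i j else 0

/-- The lower triangular part of `X`, with the diagonal. -/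
def lL (X : Matrix (Fin n) (Fin n) S) : Matrix (Fin n) (Fin n) S :=
  Matrix.of fun i j => if j ≤ i then X i j else 0

/-- The element of the cell with the coordinates `X`. -/
def zZ (X : Matrix (Fin n) (Fin n) S) : Matrix (Fin n) (Fin n) S := uU X * lL X

/-- The matrix `[[q, u], [l, X]]`. -/
def bcons (q : S) (u l : Fin n → S) (X : Matrix (Fin n) (Fin n) S) :
    Matrix (Fin (n + 1)) (Fin (n + 1)) S :=
  Matrix.of (Fin.cons (Fin.cons q u) fun i => Fin.cons (l i) (X i))

omit [CommRing S] in
theorem bcons_zero_zero (q : S) (u l : Fin n → S) (X : Matrix (Fin n) (Fin n) S) :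
    bcons q u l X 0 0 = q := rfl

omit [CommRing S] in
theorem bcons_zero_succ (q : S) (u l : Fin n → S) (X : Matrix (Fin n) (Fin n) S) (j : Fin n) :
    bcons q u l X 0 j.succ = u j := rfl

omit [CommRing S] in
theorem bcons_succ_zero (q : S) (u l : Fin n → S) (X : Matrix (Fin n) (Fin n) S) (i : Fin n) :
    bcons q u l X i.succ 0 = l i := rfl

omit [CommRing S] in
theorem bcons_succ_succ (q : S) (u l : Fin n → S) (X : Matrix (Fin n) (Fin n) S) (i j : Fin n) :
    bcons q u l X i.succ j.succ = X i j := rfl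

omit [CommRing S] in
/-- Every matrix is of this form. -/
theorem bcons_eta (Y : Matrix (Fin (n + 1)) (Fin (n + 1)) S) :
    bcons (Y 0 0) (fun j => Y 0 j.succ) (fun i => Y i.succ 0)
      (Matrix.of fun i j => Y i.succ j.succ) = Y := by
  ext i j
  refine Fin.cases ?_ (fun i => ?_) i <;> refine Fin.cases ?_ (fun j => ?_) j <;> rfl

theorem uU_bcons (q : S) (u l : Fin n → S) (X : Matrix (Fin n) (Fin n) S) :
    uU (bcons q u l X) = ucons u (uU X) := by
  ext i j
  refine Fin.cases ?_ (fun i => ?_) i <;> refine Fin.cases ?_ (fun j => ?_) j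
  · simp [uU, ucons]
  · simp only [uU, Matrix.of_apply, ucons, Fin.cons_zero, Fin.cons_succ, bcons_zero_succ]
    rw [if_neg (Fin.succ_ne_zero j).symm, if_pos (Fin.succ_pos j)]
  · simp only [uU, Matrix.of_apply, ucons, Fin.cons_zero, Fin.cons_succ, bcons_succ_zero]
    rw [if_neg (Fin.succ_ne_zero i), if_neg (by simp)]
  · simp only [uU, Matrix.of_apply, ucons, Fin.cons_succ, bcons_succ_succ, Fin.succ_inj,
      Fin.succ_lt_succ_iff]

theorem lL_bcons (q : S) (u l : Fin n → S) (X : Matrix (Fin n) (Fin n) S) :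
    lL (bcons q u l X) = lcons q l (lL X) := by
  ext i j
  refine Fin.cases ?_ (fun i => ?_) i <;> refine Fin.cases ?_ (fun j => ?_) j
  · simp [lL, lcons, bcons_zero_zero]
  · simp only [lL, Matrix.of_apply, lcons, Fin.cons_zero, Fin.cons_succ, bcons_zero_succ]
    rw [if_neg (by simp)]
    rfl
  · simp only [lL, Matrix.of_apply, lcons, Fin.cons_zero, Fin.cons_succ, bcons_succ_zero]
    rw [if_pos (Fin.zero_le _)]
  · simp only [lL, Matrix.of_apply, lcons, Fin.cons_succ, bcons_succ_succ, Fin.succ_le_succ_iff]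

theorem zZ_bcons (q : S) (a l : Fin n → S) (X : Matrix (Fin n) (Fin n) S) :
    zZ (bcons q (a ᵥ* uU X) l X) = brd q (zZ X) (uU X *ᵥ l) a := by
  rw [zZ, uU_bcons, lL_bcons, ucons_mul_lcons, zZ]

theorem det_uU (X : Matrix (Fin n) (Fin n) S) : (uU X).det = 1 := by
  rw [Matrix.det_of_isUpperTriangular]
  · apply Finset.prod_eq_one
    intro i _
    simp [uU]
  · intro i j hij
    have h : j < i := hij
    simp only [uU, Matrix.of_apply]
    rw [if_neg h.ne', if_neg (not_lt.2 h.le)]

theorem det_lL (X : Matrix (Fin n) (Fin n) S) : (lL X).det = ∏ i, X i i := by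
  rw [Matrix.det_of_isLowerTriangular]
  · apply Finset.prod_congr rfl
    intro i _
    simp [lL]
  · intro i j hij
    have h : i < j := hij
    simp only [lL, Matrix.of_apply]
    rw [if_neg (not_le.2 h)]

theorem det_zZ (X : Matrix (Fin n) (Fin n) S) : (zZ X).det = ∏ i, X i i := by
  rw [zZ, Matrix.det_mul, det_uU, det_lL, one_mul]

theorem isUnit_uU (X : Matrix (Fin n) (Fin n) S) : IsUnit (uU X) := by
  rw [Matrix.isUnit_iff_isUnit_det, det_uU]
  exact isUnit_one

theorem exists_vecMul_uU (X : Matrix (Fin n) (Fin n) S) (u : Fin n → S) :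
    (u ᵥ* (uU X)⁻¹) ᵥ* uU X = u := by
  rw [Matrix.vecMul_vecMul, Matrix.nonsing_inv_mul _ ((Matrix.isUnit_iff_isUnit_det _).1
    (isUnit_uU X)), Matrix.vecMul_one]

theorem uU_map (φ : S →+* T) (X : Matrix (Fin n) (Fin n) S) : (uU X).map φ = uU (X.map φ) := by
  ext i j
  simp only [uU, Matrix.map_apply, Matrix.of_apply]
  split_ifs
  · exact map_one φ
  · rfl
  · exact map_zero φ

theorem lL_map (φ : S →+* T) (X : Matrix (Fin n) (Fin n) S) : (lL X).map φ = lL (X.map φ) := by
  ext i j
  simp only [lL, Matrix.map_apply, Matrix.of_apply]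
  split_ifs
  · rfl
  · exact map_zero φ

theorem zZ_map (φ : S →+* T) (X : Matrix (Fin n) (Fin n) S) : (zZ X).map φ = zZ (X.map φ) := by
  rw [zZ, Matrix.map_mul, uU_map, lL_map, zZ]

/-- The solution of the linear system for the first row. -/
noncomputable def aOf (χ : S[X]) (q : S) (N : Matrix (Fin n) (Fin n) S) (b : Fin n → S) :
    Fin n → S :=
  (WW N b)⁻¹ *ᵥ fun j => (N.charpoly * (X - C q) - χ).coeff (j + 1)

/-- The first row of a bordered matrix is determined by the characteristic polynomial. -/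
theorem charpoly_brd_iff {χ : S[X]} (hχ : χ.Monic) (hχd : χ.natDegree = n + 1) {q : S}
    {N : Matrix (Fin n) (Fin n) S} {b : Fin n → S} (hb : Cyc N b)
    (h0 : χ.coeff 0 = -(q * N.charpoly.coeff 0)) (a : Fin n → S) :
    (brd q N b a).charpoly = χ ↔ a = aOf χ q N b := by
  nontriviality S
  have hW : IsUnit (WW N b).det := (Matrix.isUnit_iff_isUnit_det _).1 ((isUnit_WW N b).2 hb)
  obtain ⟨D, hD⟩ : ∃ D, D = N.charpoly * (X - C q) - χ := ⟨_, rfl⟩
  have hNd : N.charpoly.natDegree = n := by
    rw [Matrix.charpoly_natDegree_eq_dim, Fintype.card_fin]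
  have hP1 : (N.charpoly * (X - C q)).Monic := N.charpoly_monic.mul (monic_X_sub_C q)
  have hP2 : (N.charpoly * (X - C q)).natDegree = n + 1 := by
    rw [N.charpoly_monic.natDegree_mul (monic_X_sub_C q), hNd, natDegree_X_sub_C]
  have hD0 : D.coeff 0 = 0 := by
    rw [hD, coeff_sub, mul_coeff_zero, coeff_sub, coeff_X_zero, coeff_C_zero, h0]
    ring
  have hDtop : ∀ j, n + 1 ≤ j → D.coeff j = 0 := by
    intro j hj
    rw [hD, coeff_sub]
    rcases Nat.eq_or_lt_of_le hj with h | h
    · rw [← h]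
      have h1 : (N.charpoly * (X - C q)).coeff (n + 1) = 1 := by
        have := hP1
        rwa [Monic, leadingCoeff, hP2] at this
      have h2 : χ.coeff (n + 1) = 1 := by
        have := hχ
        rwa [Monic, leadingCoeff, hχd] at this
      rw [h1, h2, sub_self]
    · rw [coeff_eq_zero_of_natDegree_lt (by rw [hP2]; exact h),
        coeff_eq_zero_of_natDegree_lt (by rw [hχd]; exact h), sub_self]
  have hwt : ∀ (k : Fin n) (j : ℕ), n ≤ j → (wp N b k).coeff j = 0 := by
    intro k j hj
    rw [wp_coeff]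
    apply Finset.sum_eq_zero
    intro m _
    rw [coeff_eq_zero_of_natDegree_lt (by rw [hNd]; omega), zero_mul]
  have key : (brd q N b a).charpoly = χ ↔ ∑ k, C (a k) * wp N b k * X = D := by
    rw [charpoly_brd, hD, ← Finset.sum_mul, mul_comm X, sub_eq_iff_eq_add, ← sub_eq_iff_eq_add']
    exact eq_comm
  rw [key]
  have hcoef : ∀ j, (∑ k, C (a k) * wp N b k * X).coeff (j + 1) =
      ∑ k, a k * (wp N b k).coeff j := by
    intro j
    rw [finsetSum_coeff]
    refine Finset.sum_congr rfl fun k _ => ?_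
    rw [coeff_mul_X, coeff_C_mul]
  have h3 : ∑ k, C (a k) * wp N b k * X = D ↔
      WW N b *ᵥ a = fun j : Fin n => D.coeff (j + 1) := by
    constructor
    · intro h
      ext j
      rw [← h, hcoef, mulVec, dotProduct]
      refine Finset.sum_congr rfl fun k _ => ?_
      rw [WW, Matrix.of_apply, mul_comm]
    · intro h
      ext j
      rcases j with _ | j
      · rw [hD0, finsetSum_coeff]
        apply Finset.sum_eq_zero
        intro k _
        rw [coeff_mul_X_zero]
      · rw [hcoef]
        rcases Nat.lt_or_ge j n with hj | hj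
        · have h4 := congrFun h ⟨j, hj⟩
          rw [mulVec, dotProduct] at h4
          rw [← h4]
          refine Finset.sum_congr rfl fun k _ => ?_
          rw [WW, Matrix.of_apply, mul_comm]
        · rw [hDtop _ (by omega)]
          apply Finset.sum_eq_zero
          intro k _
          rw [hwt k j hj, mul_zero]
  rw [h3, aOf, ← hD]
  constructor
  · intro h
    rw [← h, mulVec_mulVec, Matrix.nonsing_inv_mul _ hW, one_mulVec]
  · intro h
    rw [h, mulVec_mulVec, Matrix.mul_nonsing_inv _ hW, one_mulVec]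

/-- The constant coefficient in terms of the diagonal. -/
theorem charpoly_zZ_coeff_zero (X : Matrix (Fin n) (Fin n) S) :
    (zZ X).charpoly.coeff 0 = (-1) ^ n * ∏ i, X i i := by
  have h := Matrix.det_eq_sign_charpoly_coeff (zZ X)
  rw [Fintype.card_fin, det_zZ] at h
  rw [h, ← mul_assoc, ← mul_pow]
  simp

theorem wp_map (φ : S →+* T) (N : Matrix (Fin n) (Fin n) S) (b : Fin n → S) (k : Fin n) (j : ℕ) :
    φ ((wp N b k).coeff j) = (wp (N.map φ) (fun i => φ (b i)) k).coeff j := by
  rw [wp_coeff, wp_coeff, map_sum]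
  refine Finset.sum_congr rfl fun m _ => ?_
  have h1 : (N.map φ).charpoly = N.charpoly.map φ := Matrix.charpoly_map N φ
  rw [map_mul, h1, coeff_map, RingHom.map_mulVec]
  have h2 : (N.map φ) ^ m = (N ^ m).map φ := by
    have := map_pow φ.mapMatrix N m
    exact this.symm
  rw [h2]
  rfl

theorem WW_map (φ : S →+* T) (N : Matrix (Fin n) (Fin n) S) (b : Fin n → S) :
    (WW N b).map φ = WW (N.map φ) fun i => φ (b i) := by
  ext j k
  rw [Matrix.map_apply, WW, WW, Matrix.of_apply, Matrix.of_apply, wp_map]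

theorem aOf_map (φ : S →+* T) {N : Matrix (Fin n) (Fin n) S} {b : Fin n → S} (hb : Cyc N b)
    (χ : S[X]) (q : S) :
    (fun i => φ (aOf χ q N b i)) = aOf (χ.map φ) (φ q) (N.map φ) fun i => φ (b i) := by
  have hW : IsUnit (WW N b).det := (Matrix.isUnit_iff_isUnit_det _).1 ((isUnit_WW N b).2 hb)
  have hW' : IsUnit (WW (N.map φ) fun i => φ (b i)).det :=
    (Matrix.isUnit_iff_isUnit_det _).1 ((isUnit_WW _ _).2 (hb.map φ))
  have h1 : WW N b *ᵥ aOf χ q N b = fun j => (N.charpoly * (X - C q) - χ).coeff (j + 1) := by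
    rw [aOf, mulVec_mulVec, Matrix.mul_nonsing_inv _ hW, one_mulVec]
  have h2 : WW (N.map φ) (fun i => φ (b i)) *ᵥ (fun i => φ (aOf χ q N b i)) =
      fun j => ((N.map φ).charpoly * (X - C (φ q)) - χ.map φ).coeff (j + 1) := by
    ext j
    have h3 := congrArg φ (congrFun h1 j)
    rw [RingHom.map_mulVec] at h3
    have h4 : (N.map φ).charpoly = N.charpoly.map φ := Matrix.charpoly_map N φ
    rw [h4]
    have h5 : N.charpoly.map φ * (X - C (φ q)) - χ.map φ =
        (N.charpoly * (X - C q) - χ).map φ := by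
      simp
    rw [h5, coeff_map, ← h3, ← WW_map]
    rfl
  conv_rhs => rw [aOf, ← h2, mulVec_mulVec, Matrix.nonsing_inv_mul _ hW', one_mulVec]

end Vale.Agent.P002G
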