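import Vale.Agent.P002G.LagGen
import Vale.Agent.P002R.ZCell
import Vale.Agent.P002R.RGDefs

/-!
# The chart in genus one: algebra
-/

namespace Vale.Agent.P002G

open Matrix Polynomial
open Vale.Agent.P002 (kry mul_kry kry_mulVec_single krylov_comm)
open Vale.Agent.P002R (GenU FU relatorU)

variable {r : ℕ} {S T : Type*} [CommRing S] [CommRing T]

/-- Products of the lower triangular factors. -/
def Lp (X : ℕ → Matrix (Fin r) (Fin r) S) : ℕ → Matrix (Fin r) (Fin r) S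
  | 0 => 1
  | k + 1 => lL (X k) * Lp X k

/-- Products of the upper triangular factors. -/
def Up (X : ℕ → Matrix (Fin r) (Fin r) S) : ℕ → Matrix (Fin r) (Fin r) S
  | 0 => 1
  | k + 1 => Up X k * uU (X k)

/-- Products. -/
def Pp (c : ℕ → Matrix (Fin r) (Fin r) S) : ℕ → Matrix (Fin r) (Fin r) S
  | 0 => 1
  | k + 1 => Pp c k * c k

theorem Lp_zero (X : ℕ → Matrix (Fin r) (Fin r) S) : Lp X 0 = 1 := rfl

theorem Lp_succ (X : ℕ → Matrix (Fin r) (Fin r) S) (k : ℕ) : Lp X (k + 1) = lL (X k) * Lp X k :=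
  rfl

theorem Up_zero (X : ℕ → Matrix (Fin r) (Fin r) S) : Up X 0 = 1 := rfl

theorem Up_succ (X : ℕ → Matrix (Fin r) (Fin r) S) (k : ℕ) : Up X (k + 1) = Up X k * uU (X k) :=
  rfl

theorem Pp_zero (c : ℕ → Matrix (Fin r) (Fin r) S) : Pp c 0 = 1 := rfl

theorem Pp_succ (c : ℕ → Matrix (Fin r) (Fin r) S) (k : ℕ) : Pp c (k + 1) = Pp c k * c k := rfl

theorem prod_ofFn_eq_Pp (c : ℕ → Matrix (Fin r) (Fin r) S) (k : ℕ) :
    (List.ofFn fun j : Fin k => c j).prod = Pp c k := by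
  induction k with
  | zero => simp [Pp_zero]
  | succ k ih =>
    rw [List.ofFn_succ', List.concat_eq_append, List.prod_append, Pp_succ, ← ih]
    simp

theorem det_Lp (X : ℕ → Matrix (Fin r) (Fin r) S) (k : ℕ) :
    (Lp X k).det = ∏ j ∈ Finset.range k, ∏ i, X j i i := by
  induction k with
  | zero => simp [Lp_zero]
  | succ k ih => rw [Lp_succ, Matrix.det_mul, det_lL, ih, Finset.prod_range_succ, mul_comm]

theorem isUnit_Lp {X : ℕ → Matrix (Fin r) (Fin r) S} {k : ℕ}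
    (hX : ∀ j < k, ∀ i, IsUnit (X j i i)) : IsUnit (Lp X k) := by
  rw [Matrix.isUnit_iff_isUnit_det, det_Lp, IsUnit.prod_iff]
  intro j hj
  rw [IsUnit.prod_iff]
  exact fun i _ => hX j (Finset.mem_range.1 hj) i

theorem isUnit_Up (X : ℕ → Matrix (Fin r) (Fin r) S) (k : ℕ) : IsUnit (Up X k) := by
  induction k with
  | zero => exact isUnit_one
  | succ k ih => rw [Up_succ]; exact ih.mul (isUnit_uU _)

theorem inv_mul_self {A : Matrix (Fin r) (Fin r) S} (h : IsUnit A) : A⁻¹ * A = 1 :=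
  Matrix.nonsing_inv_mul _ ((Matrix.isUnit_iff_isUnit_det _).1 h)

theorem mul_inv_self' {A : Matrix (Fin r) (Fin r) S} (h : IsUnit A) : A * A⁻¹ = 1 :=
  Matrix.mul_nonsing_inv _ ((Matrix.isUnit_iff_isUnit_det _).1 h)

theorem isUnit_inv' {A : Matrix (Fin r) (Fin r) S} (h : IsUnit A) : IsUnit A⁻¹ :=
  ⟨⟨A⁻¹, A, inv_mul_self h, mul_inv_self' h⟩, rfl⟩

/-- The middle factors. -/
noncomputable def cmid (X : ℕ → Matrix (Fin r) (Fin r) S) (k : ℕ) : Matrix (Fin r) (Fin r) S :=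
  (Lp X k)⁻¹ * zZ (X k) * Lp X k

theorem Pp_cmid {X : ℕ → Matrix (Fin r) (Fin r) S} {k : ℕ}
    (hX : ∀ j < k, ∀ i, IsUnit (X j i i)) : Pp (cmid X) k = Up X k * Lp X k := by
  induction k with
  | zero => rw [Pp_zero, Up_zero, Lp_zero, one_mul]
  | succ k ih =>
    have hL : IsUnit (Lp X k) := isUnit_Lp fun j hj => hX j (by omega)
    rw [Pp_succ, ih fun j hj => hX j (by omega), cmid, zZ, Up_succ, Lp_succ]
    calc Up X k * Lp X k * ((Lp X k)⁻¹ * (uU (X k) * lL (X k)) * Lp X k)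
        = Up X k * (Lp X k * (Lp X k)⁻¹) * (uU (X k) * lL (X k)) * Lp X k := by
          simp only [Matrix.mul_assoc]
      _ = _ := by rw [mul_inv_self' hL, Matrix.mul_one]; simp only [Matrix.mul_assoc]

/-- The matrix `ã = a'⁻¹`. -/
noncomputable def atil (ξ : Fin r → S) (X : ℕ → Matrix (Fin r) (Fin r) S) (m : ℕ) :
    Matrix (Fin r) (Fin r) S := diagonal ξ * Lp X (m + 1)

/-- The matrix `b`. -/
noncomputable def bmat (ξ : Fin r → S) (X : ℕ → Matrix (Fin r) (Fin r) S) (m : ℕ) (y : Fin r → S) :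
    Matrix (Fin r) (Fin r) S :=
  kry (atil ξ X m) y * (kry (zZ (X m)) (en r S))⁻¹ * Lp X m

/-- The tuple of the chart. -/
noncomputable def tup (ξ : Fin r → S) (X : ℕ → Matrix (Fin r) (Fin r) S) (m : ℕ) (y : Fin r → S) :
    GenU 1 (m + 1) → Matrix (Fin r) (Fin r) S
  | Sum.inl (_, false) => cmid X m
  | Sum.inl (_, true) => bmat ξ X m y
  | Sum.inr j => if (j : ℕ) = 0 then diagonal ξ * (Up X (m + 1))⁻¹ else cmid X (j - 1)

theorem isUnit_zZ {X : Matrix (Fin r) (Fin r) S} (hX : ∀ i, IsUnit (X i i)) : IsUnit (zZ X) := by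
  rw [Matrix.isUnit_iff_isUnit_det, det_zZ, IsUnit.prod_iff]
  exact fun i _ => hX i

theorem isUnit_cmid {X : ℕ → Matrix (Fin r) (Fin r) S} {k : ℕ}
    (hX : ∀ j ≤ k, ∀ i, IsUnit (X j i i)) : IsUnit (cmid X k) := by
  have hL : IsUnit (Lp X k) := isUnit_Lp fun j hj => hX j hj.le
  exact ((isUnit_inv' hL).mul (isUnit_zZ (hX k le_rfl))).mul hL

theorem isUnit_diag {ξ : Fin r → S} (hξ : ∀ i, IsUnit (ξ i)) : IsUnit (diagonal ξ) := by
  rw [Matrix.isUnit_iff_isUnit_det, Matrix.det_diagonal, IsUnit.prod_iff]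
  exact fun i _ => hξ i

theorem isUnit_atil {ξ : Fin r → S} (hξ : ∀ i, IsUnit (ξ i)) {X : ℕ → Matrix (Fin r) (Fin r) S}
    {m : ℕ} (hX : ∀ j ≤ m, ∀ i, IsUnit (X j i i)) : IsUnit (atil ξ X m) :=
  (isUnit_diag hξ).mul (isUnit_Lp fun j hj => hX j (by omega))

theorem isUnit_bmat {ξ : Fin r → S} {X : ℕ → Matrix (Fin r) (Fin r) S}
    {m : ℕ} (hX : ∀ j ≤ m, ∀ i, IsUnit (X j i i)) {y : Fin r → S} (hy : Cyc (atil ξ X m) y)
    (hc : Cyc (zZ (X m)) (en r S)) : IsUnit (bmat ξ X m y) :=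
  (((cyc_iff _ _).1 hy).mul (isUnit_inv' ((cyc_iff _ _).1 hc))).mul
    (isUnit_Lp fun j hj => hX j hj.le)

theorem isUnit_tup {ξ : Fin r → S} (hξ : ∀ i, IsUnit (ξ i)) {X : ℕ → Matrix (Fin r) (Fin r) S}
    {m : ℕ} (hX : ∀ j ≤ m, ∀ i, IsUnit (X j i i)) {y : Fin r → S} (hy : Cyc (atil ξ X m) y)
    (hc : Cyc (zZ (X m)) (en r S)) (k : GenU 1 (m + 1)) : IsUnit (tup ξ X m y k) := by
  rcases k with ⟨i, _ | _⟩ | j
  · exact isUnit_cmid hX
  · exact isUnit_bmat hX hy hc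
  · change IsUnit (if (j : ℕ) = 0 then diagonal ξ * (Up X (m + 1))⁻¹ else cmid X (j - 1))
    split_ifs
    · exact (isUnit_diag hξ).mul (isUnit_inv' (isUnit_Up _ _))
    · exact isUnit_cmid fun i hi => hX i (by have := j.2; omega)

/-- The intertwining relation. -/
theorem bmat_mul {ξ : Fin r → S} {X : ℕ → Matrix (Fin r) (Fin r) S} {m : ℕ}
    (hX : ∀ j ≤ m, ∀ i, IsUnit (X j i i)) {y : Fin r → S}
    (hc : Cyc (zZ (X m)) (en r S)) (hch : (atil ξ X m).charpoly = (zZ (X m)).charpoly) :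
    bmat ξ X m y * cmid X m = atil ξ X m * bmat ξ X m y := by
  have hL : IsUnit (Lp X m) := isUnit_Lp fun j hj => hX j hj.le
  have hK := (cyc_iff _ _).1 hc
  obtain ⟨B, hB⟩ : ∃ B, B = kry (atil ξ X m) y * (kry (zZ (X m)) (en r S))⁻¹ := ⟨_, rfl⟩
  have h1 : B * zZ (X m) = atil ξ X m * B := by
    refine krylov_comm (zZ (X m)) (atil ξ X m) (en r S) y hch.symm B ?_ hK
    rw [hB, Matrix.mul_assoc, inv_mul_self hK, Matrix.mul_one]
  have h2 : bmat ξ X m y = B * Lp X m := by rw [hB]; rfl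
  rw [h2, cmid]
  calc B * Lp X m * ((Lp X m)⁻¹ * zZ (X m) * Lp X m)
      = B * (Lp X m * (Lp X m)⁻¹) * zZ (X m) * Lp X m := by simp only [Matrix.mul_assoc]
    _ = B * zZ (X m) * Lp X m := by rw [mul_inv_self' hL, Matrix.mul_one]
    _ = _ := by rw [h1, Matrix.mul_assoc]

/-- The boundary product. -/
theorem tup_boundary {ξ : Fin r → S} {X : ℕ → Matrix (Fin r) (Fin r) S} {m : ℕ}
    (hX : ∀ j ≤ m, ∀ i, IsUnit (X j i i)) {y : Fin r → S} :
    (List.ofFn fun j : Fin (m + 1) => tup ξ X m y (Sum.inr j)).prod * cmid X m = atil ξ X m := by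
  have h1 : (List.ofFn fun j : Fin (m + 1) => tup ξ X m y (Sum.inr j)).prod =
      diagonal ξ * (Up X (m + 1))⁻¹ * Pp (cmid X) m := by
    rw [List.ofFn_succ, List.prod_cons, ← prod_ofFn_eq_Pp]
    rfl
  rw [h1, Matrix.mul_assoc, ← Pp_succ, Pp_cmid fun j hj => hX j (by omega), Matrix.mul_assoc,
    ← Matrix.mul_assoc (Up X (m + 1))⁻¹, inv_mul_self (isUnit_Up _ _), Matrix.one_mul, atil]

/-- A homomorphism given by units. -/
theorem relator_one {m : ℕ} {M : Type*} [Group M] (Y : GenU 1 (m + 1) → M)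
    (h : (List.ofFn fun j : Fin (m + 1) => Y (Sum.inr j)).prod * Y (Sum.inl (0, false)) *
      Y (Sum.inl (0, true)) = Y (Sum.inl (0, true)) * Y (Sum.inl (0, false))) :
    FreeGroup.lift Y (relatorU 1 (m + 1)) = 1 := by
  rw [P002R.relatorU_eqn, map_mul, map_list_prod, map_list_prod, List.map_ofFn, List.map_ofFn]
  have h1 : (⇑(FreeGroup.lift Y) ∘ fun j : Fin (m + 1) => (FreeGroup.of (Sum.inr j) : FU 1 (m + 1))) =
      fun j => Y (Sum.inr j) := by
    funext j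
    exact FreeGroup.lift_apply_of
  rw [h1]
  simp only [List.ofFn_succ, List.ofFn_zero, List.prod_cons, List.prod_nil, Function.comp,
    map_mul, map_inv, FreeGroup.lift_apply_of, mul_one]
  rw [List.ofFn_succ, List.prod_cons] at h
  rw [← mul_assoc, ← mul_assoc, ← mul_assoc, h]
  group

end Vale.Agent.P002G
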