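import Vale.Agent.P002G.Chart1A

/-!
# The chart in genus one: integrality and rationality
-/

namespace Vale.Agent.P002G

open Matrix Polynomial
open Vale.Agent.P002 (kry mul_kry kry_mulVec_single krylov_comm)
open Vale.Agent.P002R (GenU FU relatorU UpT LoT)

variable {r : ℕ} {S T : Type*} [CommRing S] [CommRing T]

theorem loT_lL' (X : Matrix (Fin r) (Fin r) S) : LoT (lL X) := P002R.loT_lL X

theorem upT_uU' (X : Matrix (Fin r) (Fin r) S) : UpT (uU X) := P002R.upT_uU X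

theorem lL_diag' (X : Matrix (Fin r) (Fin r) S) (i : Fin r) : lL X i i = X i i :=
  P002R.lL_diag X i

theorem uU_diag' (X : Matrix (Fin r) (Fin r) S) (i : Fin r) : uU X i i = 1 :=
  P002R.uU_diag X i

theorem loT_Lp (X : ℕ → Matrix (Fin r) (Fin r) S) (k : ℕ) : LoT (Lp X k) := by
  induction k with
  | zero => exact P002R.loT_one
  | succ k ih => exact (P002R.loT_lL (X k)).mul ih

theorem upT_Up (X : ℕ → Matrix (Fin r) (Fin r) S) (k : ℕ) : UpT (Up X k) := by
  induction k with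
  | zero => exact P002R.upT_one
  | succ k ih => exact ih.mul (P002R.upT_uU (X k))

theorem Lp_diag (X : ℕ → Matrix (Fin r) (Fin r) S) (k : ℕ) (i : Fin r) :
    Lp X k i i = ∏ j ∈ Finset.range k, X j i i := by
  induction k with
  | zero => simp [Lp_zero]
  | succ k ih =>
    rw [Lp_succ, (loT_lL' (X k)).mul_diag (loT_Lp X k), ih,
      Finset.prod_range_succ, mul_comm, lL_diag']

theorem Up_diag (X : ℕ → Matrix (Fin r) (Fin r) S) (k : ℕ) (i : Fin r) : Up X k i i = 1 := by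
  induction k with
  | zero => simp [Up_zero]
  | succ k ih =>
    rw [Up_succ, (upT_Up X k).mul_diag (upT_uU' (X k)), ih, one_mul, uU_diag']

theorem charpoly_of_loT {A : Matrix (Fin r) (Fin r) S} (h : LoT A) :
    A.charpoly = ∏ i, (X - C (A i i)) := by
  have h1 : (Aᵀ).charpoly = ∏ i, (X - C (Aᵀ i i)) :=
    Matrix.charpoly_of_isUpperTriangular Aᵀ fun i j hij => h j i hij
  rw [← Matrix.charpoly_transpose, h1]
  rfl

theorem loT_atil (ξ : Fin r → S) (X : ℕ → Matrix (Fin r) (Fin r) S) (m : ℕ) :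
    LoT (atil ξ X m) := (P002R.loT_diagonal ξ).mul (loT_Lp X (m + 1))

theorem atil_diag (ξ : Fin r → S) (X : ℕ → Matrix (Fin r) (Fin r) S) (m : ℕ) (i : Fin r) :
    atil ξ X m i i = ξ i * ∏ j ∈ Finset.range (m + 1), X j i i := by
  rw [atil, (P002R.loT_diagonal ξ).mul_diag (loT_Lp X (m + 1)), Matrix.diagonal_apply_eq, Lp_diag]

theorem charpoly_atil {ξ : Fin r → S} {X : ℕ → Matrix (Fin r) (Fin r) S} {m : ℕ} {ν : Fin r → S}
    (h : ∀ i, ξ i * ∏ j ∈ Finset.range (m + 1), X j i i = ν i) :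
    (atil ξ X m).charpoly = ∏ i, (Polynomial.X - C (ν i)) := by
  rw [charpoly_of_loT (loT_atil ξ X m)]
  exact Finset.prod_congr rfl fun i _ => by rw [atil_diag, h]

/-! ### Congruences -/

theorem dvd_Lp {D : S} {X : ℕ → Matrix (Fin r) (Fin r) S} {m : ℕ}
    (h : ∀ k < m, ∀ i j, j < i → D ∣ X k i j) (i j : Fin r) (hij : j < i) : D ∣ Lp X m i j := by
  induction m generalizing i j with
  | zero => rw [Lp_zero, Matrix.one_apply_ne hij.ne']; exact dvd_zero D
  | succ k ih =>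
    rw [Lp_succ, Matrix.mul_apply]
    apply Finset.dvd_sum
    intro l _
    rcases lt_trichotomy l i with hl | hl | hl
    · refine Dvd.dvd.mul_right ?_ _
      have h1 : lL (X k) i l = X k i l := by
        simp only [lL, Matrix.of_apply]
        rw [if_pos hl.le]
      rw [h1]
      exact h k (Nat.lt_succ_self k) i l hl
    · subst hl
      exact (ih (fun k hk => h k (by omega)) l j hij).mul_left _
    · have h1 : lL (X k) i l = 0 := by
        simp only [lL, Matrix.of_apply]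
        rw [if_neg (not_le.2 hl)]
      rw [h1, zero_mul]
      exact dvd_zero D

theorem exists_cyc_atil [IsDomain S] {ξ : Fin r → S} (hξ : ∀ i, IsUnit (ξ i))
    {X : ℕ → Matrix (Fin r) (Fin r) S} {m : ℕ} (hX : ∀ j ≤ m, ∀ i, IsUnit (X j i i))
    {ν : Fin r → S} (hν : Function.Injective ν)
    (h : ∀ i, ξ i * ∏ j ∈ Finset.range (m + 1), X j i i = ν i) {D : S}
    (hD : (∏ j, ∏ i ∈ Finset.univ.filter (fun i => j < i), (ν i - ν j)) ^ r ∣ D)
    (h1 : ∀ k < m, ∀ i j, j < i → D ∣ X k i j) (h2 : Bi D (X m)) :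
    ∃ v, Cyc (atil ξ X m) v := by
  obtain ⟨Δ, hΔ⟩ : ∃ Δ : S, Δ = ∏ j, ∏ i ∈ Finset.univ.filter (fun i => j < i), (ν i - ν j) :=
    ⟨_, rfl⟩
  have hL : IsUnit (Lp X m) := isUnit_Lp fun j hj => hX j hj.le
  obtain ⟨Λ, hΛ⟩ : ∃ Λ, Λ = Lp X m * (diagonal ξ * lL (X m)) := ⟨_, rfl⟩
  have hconj : (Lp X m)⁻¹ * Λ * Lp X m = atil ξ X m := by
    rw [hΛ, ← Matrix.mul_assoc (Lp X m)⁻¹, inv_mul_self hL, Matrix.one_mul, atil, Lp_succ,
      Matrix.mul_assoc]
  have hlow : LoT Λ := by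
    rw [hΛ]
    exact (loT_Lp X m).mul ((P002R.loT_diagonal ξ).mul (loT_lL' (X m)))
  have hentry : ∀ i j, Λ i j = ∑ k, Lp X m i k * (ξ k * lL (X m) k j) := by
    intro i j
    rw [hΛ, Matrix.mul_apply]
    refine Finset.sum_congr rfl fun k _ => ?_
    rw [Matrix.diagonal_mul]
  have hdiag : ∀ i, Λ i i = ν i := by
    intro i
    rw [hΛ, (loT_Lp X m).mul_diag ((P002R.loT_diagonal ξ).mul (loT_lL' (X m))),
      (P002R.loT_diagonal ξ).mul_diag (loT_lL' (X m)), Matrix.diagonal_apply_eq, Lp_diag,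
      ← h i, Finset.prod_range_succ, lL_diag']
    ring
  have hs : ∀ k : ℕ, ∃ s : Sˣ, ∀ i : Fin r, (i : ℕ) = k + 1 → Lp X m i i * ξ i = s := by
    intro k
    by_cases hk : k + 1 < r
    · have h3 : IsUnit (Lp X m ⟨k + 1, hk⟩ ⟨k + 1, hk⟩ * ξ ⟨k + 1, hk⟩) := by
        rw [Lp_diag]
        exact (IsUnit.prod_iff.2 fun j hj => hX j (Finset.mem_range.1 hj).le _).mul (hξ _)
      refine ⟨h3.unit, fun i hi => ?_⟩
      have : i = ⟨k + 1, hk⟩ := Fin.ext hi
      rw [this]
      rfl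
    · exact ⟨1, fun i hi => absurd i.2 (by omega)⟩
  choose s hs using hs
  obtain ⟨v, hv, -⟩ := exists_cyc_tri Δ ν (fun j => by
      rw [hΔ]
      exact Finset.dvd_prod_of_mem _ (Finset.mem_univ j))
    (fun i j hij h => hij.ne (hν h).symm) s 1 Λ hdiag hlow (fun i j hij => by
      rw [mul_one, hΔ]
      refine hD.trans ?_
      rw [hentry]
      have h3 : ∀ k ∈ Finset.univ.erase i, D ∣ Lp X m i k * (ξ k * lL (X m) k j) := by
        intro k hk
        rcases lt_or_gt_of_ne (Finset.ne_of_mem_erase hk) with hk | hk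
        · exact (dvd_Lp h1 i k hk).mul_right _
        · rw [loT_Lp X m i k hk, zero_mul]
          exact dvd_zero D
      rw [← Finset.add_sum_erase _ _ (Finset.mem_univ i), add_sub_right_comm]
      refine dvd_add ?_ (Finset.dvd_sum h3)
      have h4 : lL (X m) i j = X m i j := by
        simp only [lL, Matrix.of_apply]
        rw [if_pos hij.le]
      rw [h4]
      have h5 := h2 i j hij
      by_cases h6 : (i : ℕ) = j + 1
      · rw [if_pos h6] at h5 ⊢
        have h7 : Lp X m i i * (ξ i * X m i j) - (s j : S) =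
            (s j : S) * (X m i j - 1) := by
          rw [← hs j i h6]; ring
        rw [h7]
        exact h5.mul_left _
      · rw [if_neg h6] at h5 ⊢
        rw [sub_zero] at h5 ⊢
        exact (h5.mul_left _).mul_left _) 1
  refine ⟨(Lp X m)⁻¹ *ᵥ v, ?_⟩
  rw [← hconj]
  obtain ⟨P, hP⟩ : ∃ P : (Matrix (Fin r) (Fin r) S)ˣ, (P : Matrix (Fin r) (Fin r) S) =
      (Lp X m)⁻¹ ∧ ((P⁻¹ : (Matrix (Fin r) (Fin r) S)ˣ) : Matrix (Fin r) (Fin r) S) = Lp X m :=
    ⟨⟨(Lp X m)⁻¹, Lp X m, inv_mul_self hL, mul_inv_self' hL⟩, rfl, rfl⟩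
  have := cyc_conj P hv
  rw [hP.1, hP.2] at this
  exact this

/-! ### Base change -/

theorem map_inv_unit (φ : S →+* T) {A : Matrix (Fin r) (Fin r) S} (h : IsUnit A) :
    (A⁻¹).map φ = (A.map φ)⁻¹ := by
  have h1 : A.map φ * (A⁻¹).map φ = 1 := by
    rw [← Matrix.map_mul, mul_inv_self' h, Matrix.map_one φ (map_zero φ) (map_one φ)]
  exact (Matrix.inv_eq_right_inv h1).symm

theorem Lp_map (φ : S →+* T) (X : ℕ → Matrix (Fin r) (Fin r) S) (k : ℕ) :
    (Lp X k).map φ = Lp (fun j => (X j).map φ) k := by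
  induction k with
  | zero => exact Matrix.map_one φ (map_zero φ) (map_one φ)
  | succ k ih => rw [Lp_succ, Matrix.map_mul, ih, lL_map, Lp_succ]

theorem Up_map (φ : S →+* T) (X : ℕ → Matrix (Fin r) (Fin r) S) (k : ℕ) :
    (Up X k).map φ = Up (fun j => (X j).map φ) k := by
  induction k with
  | zero => exact Matrix.map_one φ (map_zero φ) (map_one φ)
  | succ k ih => rw [Up_succ, Matrix.map_mul, ih, uU_map, Up_succ]

theorem kry_map' (φ : S →+* T) (Z : Matrix (Fin r) (Fin r) S) (v : Fin r → S) :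
    (kry Z v).map φ = kry (Z.map φ) fun i => φ (v i) := by
  ext i j
  simp only [kry, Matrix.of_apply, Matrix.map_apply]
  have h2 : (Z.map φ) ^ (j : ℕ) = (Z ^ (j : ℕ)).map φ := by
    have := map_pow φ.mapMatrix Z (j : ℕ)
    exact this.symm
  rw [h2, RingHom.map_mulVec]
  rfl

theorem cmid_map (φ : S →+* T) {X : ℕ → Matrix (Fin r) (Fin r) S} {k : ℕ}
    (hX : ∀ j < k, ∀ i, IsUnit (X j i i)) :
    (cmid X k).map φ = cmid (fun j => (X j).map φ) k := by
  rw [cmid, Matrix.map_mul, Matrix.map_mul, map_inv_unit φ (isUnit_Lp hX), Lp_map, zZ_map, cmid]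

theorem atil_map (φ : S →+* T) (ξ : Fin r → S) (X : ℕ → Matrix (Fin r) (Fin r) S) (m : ℕ) :
    (atil ξ X m).map φ = atil (fun i => φ (ξ i)) (fun j => (X j).map φ) m := by
  rw [atil, Matrix.map_mul, Lp_map, atil, Matrix.diagonal_map (map_zero φ)]

theorem tup_map (φ : S →+* T) {ξ : Fin r → S} {X : ℕ → Matrix (Fin r) (Fin r) S} {m : ℕ}
    (hX : ∀ j ≤ m, ∀ i, IsUnit (X j i i)) {y : Fin r → S} (hc : Cyc (zZ (X m)) (en r S))
    (k : GenU 1 (m + 1)) : (tup ξ X m y k).map φ =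
      tup (fun i => φ (ξ i)) (fun j => (X j).map φ) m (fun i => φ (y i)) k := by
  rcases k with ⟨i, _ | _⟩ | j
  · exact cmid_map φ fun j hj => hX j hj.le
  · change (bmat ξ X m y).map φ = bmat _ _ m _
    rw [bmat, Matrix.map_mul, Matrix.map_mul, map_inv_unit φ ((cyc_iff _ _).1 hc), Lp_map,
      kry_map', kry_map', atil_map, zZ_map, en_map, bmat]
  · change (if (j : ℕ) = 0 then diagonal ξ * (Up X (m + 1))⁻¹ else cmid X (j - 1)).map φ =
      if (j : ℕ) = 0 then _ else _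
    split_ifs
    · rw [Matrix.map_mul, map_inv_unit φ (isUnit_Up _ _), Up_map,
        Matrix.diagonal_map (map_zero φ)]
    · exact cmid_map φ fun i hi => hX i (by have := j.2; omega)

/-! ### Rationality -/

section rational

variable {V : Type*} [AddCommGroup V] [Module ℂ V] {d : V → ℂ}

theorem ratMap_kry (hd : IsPoly d) {Z : V → Matrix (Fin r) (Fin r) ℂ} {v : V → Fin r → ℂ}
    (hZ : RatMap d Z) (hv : RatMap d v) : RatMap d fun x => kry (Z x) (v x) :=
  ratMap_matrix hd fun i j => by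
    simp only [kry, Matrix.of_apply]
    exact (ratMap_mulVec hd (ratMap_pow hd hZ j) hv).coord i

theorem ratMap_Lp (hd : IsPoly d) {X : V → ℕ → Matrix (Fin r) (Fin r) ℂ} {k : ℕ}
    (hX : ∀ j < k, RatMap d fun x => X x j) : RatMap d fun x => Lp (X x) k := by
  induction k with
  | zero => exact ratMap_const _
  | succ k ih =>
    exact IsRat.matrix_mul hd (ratMap_lL hd (hX k (Nat.lt_succ_self k)))
      (ih fun j hj => hX j (by omega))

theorem ratMap_Up (hd : IsPoly d) {X : V → ℕ → Matrix (Fin r) (Fin r) ℂ} {k : ℕ}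
    (hX : ∀ j < k, RatMap d fun x => X x j) : RatMap d fun x => Up (X x) k := by
  induction k with
  | zero => exact ratMap_const _
  | succ k ih =>
    exact IsRat.matrix_mul hd (ih fun j hj => hX j (by omega))
      (ratMap_uU hd (hX k (Nat.lt_succ_self k)))

theorem ratMap_Lp_inv (hd : IsPoly d) {X : V → ℕ → Matrix (Fin r) (Fin r) ℂ} {k : ℕ}
    (hX : ∀ j < k, RatMap d fun x => X x j) (hi : ∀ j < k, IsRat d fun x => (∏ i, X x j i i)⁻¹) :
    RatMap d fun x => (Lp (X x) k)⁻¹ := by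
  refine ratMap_inv' hd (ratMap_Lp hd hX) ?_
  simp only [det_Lp]
  refine (IsRat.prod (Finset.range k) (f := fun j x => (∏ i, X x j i i)⁻¹) fun j hj =>
    hi j (Finset.mem_range.1 hj)).congr fun x _ => ?_
  rw [Finset.prod_inv_distrib]

theorem det_Up (X : ℕ → Matrix (Fin r) (Fin r) S) (k : ℕ) : (Up X k).det = 1 := by
  induction k with
  | zero => simp [Up_zero]
  | succ k ih => rw [Up_succ, Matrix.det_mul, ih, det_uU, one_mul]

theorem ratMap_Up_inv (hd : IsPoly d) {X : V → ℕ → Matrix (Fin r) (Fin r) ℂ} {k : ℕ}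
    (hX : ∀ j < k, RatMap d fun x => X x j) : RatMap d fun x => (Up (X x) k)⁻¹ := by
  refine ratMap_inv' hd (ratMap_Up hd hX) ?_
  simp only [det_Up]
  exact (isPoly_const _).isRat

theorem ratMap_cmid (hd : IsPoly d) {X : V → ℕ → Matrix (Fin r) (Fin r) ℂ} {k : ℕ}
    (hX : ∀ j ≤ k, RatMap d fun x => X x j) (hi : ∀ j < k, IsRat d fun x => (∏ i, X x j i i)⁻¹) :
    RatMap d fun x => cmid (X x) k :=
  IsRat.matrix_mul hd (IsRat.matrix_mul hd (ratMap_Lp_inv hd (fun j hj => hX j hj.le) hi)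
    (ratMap_zZ hd (hX k le_rfl))) (ratMap_Lp hd fun j hj => hX j hj.le)

theorem ratMap_tup (hd : IsPoly d) (ξ : Fin r → ℂ) {m : ℕ}
    {X : V → ℕ → Matrix (Fin r) (Fin r) ℂ} {y : V → Fin r → ℂ}
    (hX : ∀ j ≤ m, RatMap d fun x => X x j) (hy : RatMap d y)
    (hi : ∀ j < m, IsRat d fun x => (∏ i, X x j i i)⁻¹)
    (hk : IsRat d fun x => (kry (zZ (X x m)) (en r ℂ)).det⁻¹) (k : GenU 1 (m + 1)) :
    RatMap d fun x => tup ξ (X x) m (y x) k := by
  rcases k with ⟨i, _ | _⟩ | j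
  · exact ratMap_cmid hd hX hi
  · refine IsRat.matrix_mul hd (IsRat.matrix_mul hd (ratMap_kry hd (IsRat.matrix_mul hd
      (ratMap_const _) (ratMap_Lp hd fun j hj => hX j (by omega))) hy)
      (ratMap_inv' hd (ratMap_kry hd (ratMap_zZ hd (hX m le_rfl)) (ratMap_const _)) hk))
      (ratMap_Lp hd fun j hj => hX j hj.le)
  · change RatMap d fun x => if (j : ℕ) = 0 then diagonal ξ * (Up (X x) (m + 1))⁻¹ else
      cmid (X x) (j - 1)
    split_ifs
    · exact IsRat.matrix_mul hd (ratMap_const _) (ratMap_Up_inv hd fun j hj => hX j (by omega))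
    · exact ratMap_cmid hd (fun i hi => hX i (by have := j.2; omega))
        fun i h => hi i (by have := j.2; omega)

end rational

end Vale.Agent.P002G
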