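import Vale.Agent.P002G.Chart1B

/-!
# The chart in genus one: density
-/

namespace Vale.Agent.P002G

open Matrix Polynomial
open Vale.Agent.P002 (kry mul_kry kry_mulVec_single krylov_comm)
open Vale.Agent.P002R (GenU FU relatorU UpT LoT)

variable {R : Type*} [CommRing R]

/-- Conjugacy over the complex numbers. -/
def CjC {r : ℕ} (J Z : Matrix (Fin r) (Fin r) ℂ) : Prop :=
  ∃ g : (Matrix (Fin r) (Fin r) ℂ)ˣ, Z = g * J * ((g⁻¹ : (Matrix (Fin r) (Fin r) ℂ)ˣ) :
    Matrix (Fin r) (Fin r) ℂ)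

/-- Total density of the integral points of the cells in the class of `J`, with a modulus. -/
def TotM {r : ℕ} (φ : R →+* ℂ) (J : Matrix (Fin r) (Fin r) ℂ) : Prop :=
  ∀ D : R, D ≠ 0 → ∀ F : Matrix (Fin r) (Fin r) ℂ → ℂ, IsPoly F →
    (∀ X : Matrix (Fin r) (Fin r) R, (∀ i, IsUnit (X i i)) → (∀ i j, j < i → D ∣ X i j) →
      CjC J (zZ (X.map φ)) → F (X.map φ) = 0) →
    ∀ X : Matrix (Fin r) (Fin r) ℂ, (∀ i, X i i ≠ 0) → CjC J (zZ X) → F X = 0

/-- Products of dense subsets. -/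
theorem dense_pi {ι V : Type*} [Finite ι] [AddCommGroup V] [Module ℂ V] (S T : ι → Set V)
    (h : ∀ i, ∀ f : V → ℂ, IsPoly f → (∀ x ∈ S i, f x = 0) → ∀ x ∈ T i, f x = 0)
    {f : (ι → V) → ℂ} (hf : IsPoly f) (hS : ∀ x, (∀ i, x i ∈ S i) → f x = 0)
    (x : ι → V) (hx : ∀ i, x i ∈ T i) : f x = 0 := by
  classical
  have := Fintype.ofFinite ι
  have key : ∀ (t : Finset ι) (x : ι → V), (∀ i ∈ t, x i ∈ T i) → (∀ i, i ∉ t → x i ∈ S i) →
      f x = 0 := by
    intro t
    induction t using Finset.induction_on with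
    | empty => exact fun x _ hx => hS x fun i => hx i (Finset.notMem_empty i)
    | insert j t hj ih =>
      intro x hx1 hx2
      have hm : PolyMap fun z : V => Function.update x j z := by
        apply polyMap_pi
        intro i
        by_cases hij : i = j
        · subst hij
          simp only [Function.update_self]
          exact polyMap_linear LinearMap.id
        · simp only [Function.update_of_ne hij]
          exact polyMap_const _
      have h1 := h j (fun z => f (Function.update x j z)) (hm.comp hf) (fun z hz => ?_) (x j)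
        (hx1 j (Finset.mem_insert_self j t))
      · simpa using h1
      · apply ih
        · intro i hi
          have hij : i ≠ j := fun h' => hj (h' ▸ hi)
          rw [Function.update_of_ne hij]
          exact hx1 i (Finset.mem_insert_of_mem hi)
        · intro i hi
          by_cases hij : i = j
          · subst hij
            simpa using hz
          · rw [Function.update_of_ne hij]
            exact hx2 i fun h' => by
              rcases Finset.mem_insert.1 h' with h' | h'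
              · exact hij h'
              · exact hi h'
  exact key Finset.univ x (fun i _ => hx i) fun i hi => absurd (Finset.mem_univ i) hi

/-- The sequence of the coordinates. -/
def xx {r m : ℕ} {S : Type*} (Xs : Fin m → Matrix (Fin r) (Fin r) S) (Y : Matrix (Fin r) (Fin r) S)
    (k : ℕ) : Matrix (Fin r) (Fin r) S := if h : k < m then Xs ⟨k, h⟩ else Y

theorem xx_lt {r m : ℕ} {S : Type*} (Xs : Fin m → Matrix (Fin r) (Fin r) S)
    (Y : Matrix (Fin r) (Fin r) S) {k : ℕ} (h : k < m) : xx Xs Y k = Xs ⟨k, h⟩ := dif_pos h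

theorem xx_self {r m : ℕ} {S : Type*} (Xs : Fin m → Matrix (Fin r) (Fin r) S)
    (Y : Matrix (Fin r) (Fin r) S) : xx Xs Y m = Y := dif_neg (lt_irrefl m)

theorem xx_map {r m : ℕ} {S T : Type*} (φ : S → T) (Xs : Fin m → Matrix (Fin r) (Fin r) S)
    (Y : Matrix (Fin r) (Fin r) S) : (fun j => (xx Xs Y j).map φ) =
      xx (fun k => (Xs k).map φ) (Y.map φ) := by
  funext j
  by_cases h : j < m
  · rw [xx_lt _ _ h, xx_lt _ _ h]
  · rw [xx, xx, dif_neg h, dif_neg h]

theorem prod_xx {r m : ℕ} {S : Type*} [CommRing S] (Xs : Fin m → Matrix (Fin r) (Fin r) S)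
    (Y : Matrix (Fin r) (Fin r) S) (i : Fin r) :
    ∏ j ∈ Finset.range (m + 1), xx Xs Y j i i = (∏ k, Xs k i i) * Y i i := by
  rw [Finset.prod_range_succ, xx_self, ← Fin.prod_univ_eq_prod_range (fun j => xx Xs Y j i i)]
  congr 1
  exact Finset.prod_congr rfl fun k _ => by rw [xx_lt _ _ k.2]

theorem xx_units {r m : ℕ} {S : Type*} [CommRing S] {Xs : Fin m → Matrix (Fin r) (Fin r) S}
    {Y : Matrix (Fin r) (Fin r) S} (h1 : ∀ k i, IsUnit (Xs k i i)) (h2 : ∀ i, IsUnit (Y i i)) :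
    ∀ j ≤ m, ∀ i, IsUnit (xx Xs Y j i i) := by
  intro j _ i
  by_cases h : j < m
  · rw [xx_lt _ _ h]; exact h1 _ i
  · rw [xx, dif_neg h]; exact h2 i

/-- Stages A and B. -/
theorem stageAB (φ : R →+* ℂ) (hφ : Function.Injective φ) (u : Rˣ)
    (hu : ∀ k : ℕ, 0 < k → φ (u : R) ^ k ≠ 1)
    (hUP : ∀ D : R, D ≠ 0 → ∃ M : ℕ, 0 < M ∧ D ∣ (u : R) ^ M - 1) {n m : ℕ}
    (ξ : Fin (n + 1) → Rˣ) {ν : Fin (n + 1) → Rˣ} (hν : Function.Injective ν)
    (Xs : Fin m → Matrix (Fin (n + 1)) (Fin (n + 1)) R) (hXu : ∀ k i, IsUnit (Xs k i i))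
    (hXD : ∀ k i j, j < i → (∏ j, ∏ i ∈ Finset.univ.filter (fun i => j < i),
      ((ν i : R) - ν j)) ^ (n + 1) ∣ Xs k i j)
    (g : Matrix (Fin (n + 1)) (Fin (n + 1)) ℂ × (Fin (n + 1) → ℂ) → ℂ) (hg : IsPoly g)
    (hint : ∀ (Y : Matrix (Fin (n + 1)) (Fin (n + 1)) R) (y : Fin (n + 1) → R),
      (∀ i, IsUnit (Y i i)) → Cyc (zZ Y) (en (n + 1) R) →
      Cyc (atil (fun i => (ξ i : R)) (xx Xs Y) m) y →
      (atil (fun i => (ξ i : R)) (xx Xs Y) m).charpoly = (zZ Y).charpoly →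
      g (Y.map φ, fun i => φ (y i)) = 0)
    (Y : Matrix (Fin (n + 1)) (Fin (n + 1)) ℂ)
    (hYd : ∀ i, φ (ξ i : R) * ((∏ k, φ (Xs k i i)) * Y i i) = φ (ν i : R))
    (hYc : (zZ Y).charpoly = ∏ i, (Polynomial.X - C (φ (ν i : R))))
    (hYcyc : Cyc (zZ Y) (en (n + 1) ℂ)) (y : Fin (n + 1) → ℂ) : g (Y, y) = 0 := by
  have hdom : IsDomain R := hφ.isDomain φ
  obtain ⟨D, hD⟩ : ∃ D : R, D = (∏ j, ∏ i ∈ Finset.univ.filter (fun i => j < i),
      ((ν i : R) - ν j)) ^ (n + 1) := ⟨_, rfl⟩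
  have hνR : Function.Injective fun i => (ν i : R) := fun i j h => hν (Units.ext h)
  have hD0 : D ≠ 0 := by
    rw [hD]
    apply pow_ne_zero
    rw [Finset.prod_ne_zero_iff]
    intro j _
    rw [Finset.prod_ne_zero_iff]
    intro i hi
    rw [Finset.mem_filter] at hi
    exact sub_ne_zero.2 fun h => hi.2.ne (hνR h).symm
  -- the units `q`
  choose w hw using fun k i => hXu k i
  obtain ⟨q, hq⟩ : ∃ q : Fin (n + 1) → Rˣ, q = fun i => (ξ i)⁻¹ * (∏ k, w k i)⁻¹ * ν i :=
    ⟨_, rfl⟩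
  have hq1 : ∀ i, ξ i * ((∏ k, w k i) * q i) = ν i := by
    intro i
    rw [hq]
    beta_reduce
    rw [mul_comm (ξ i)⁻¹, mul_assoc (∏ k, w k i)⁻¹, mul_inv_cancel_left, mul_inv_cancel_left]
  have hq2 : ∀ i, (ξ i : R) * ((∏ k, Xs k i i) * (q i : R)) = ν i := by
    intro i
    have h1 := congrArg (fun v : Rˣ => (v : R)) (hq1 i)
    beta_reduce at h1
    rw [Units.val_mul, Units.val_mul, Units.coe_prod] at h1
    rw [← h1]
    congr 2
    exact Finset.prod_congr rfl fun k _ => (hw k i).symm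
  have hYq : ∀ i, Y i i = φ (q i : R) := by
    intro i
    have h1 := congrArg φ (hq2 i)
    rw [map_mul, map_mul, map_prod, ← hYd i] at h1
    have h2 : φ (ξ i : R) * ∏ k, φ (Xs k i i) ≠ 0 := by
      apply mul_ne_zero ((ξ i).isUnit.map φ).ne_zero
      rw [Finset.prod_ne_zero_iff]
      exact fun k _ => ((hXu k i).map φ).ne_zero
    rw [← mul_assoc, ← mul_assoc] at h1
    exact (mul_left_cancel₀ h2 h1).symm
  have hQ := QQ_all φ hφ u hu hUP n D hD0 q (∏ i, (Polynomial.X - C (ν i : R)))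
    (monic_prod_of_monic _ _ fun i _ => monic_X_sub_C _) (by
      rw [natDegree_prod_of_monic _ _ fun i _ => monic_X_sub_C _]
      simp) (fun Y => g (Y, y))
    (((polyMap_linear LinearMap.id).prodMk (polyMap_const y)).comp hg)
  refine hQ ?_ Y hYq ?_ hYcyc
  · intro Z hZd hZb hZc hZcyc
    have hZu : ∀ i, IsUnit (Z i i) := fun i => by rw [hZd]; exact (q i).isUnit
    have hX : ∀ j ≤ m, ∀ i, IsUnit (xx Xs Z j i i) := xx_units hXu hZu
    have hdiag : ∀ i, (ξ i : R) * ∏ j ∈ Finset.range (m + 1), xx Xs Z j i i = ν i := by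
      intro i
      rw [prod_xx, hZd, hq2]
    have hcp := charpoly_atil (X := xx Xs Z) (m := m) (ξ := fun i => (ξ i : R))
      (ν := fun i => (ν i : R)) hdiag
    obtain ⟨v, hv⟩ := exists_cyc_atil (D := D) (X := xx Xs Z) (m := m)
      (ξ := fun i => (ξ i : R)) (fun i => (ξ i).isUnit) hX hνR hdiag (by rw [hD])
      (fun k hk i j hij => by rw [xx_lt _ _ hk, hD]; exact hXD _ i j hij)
      (by rw [xx_self]; exact hZb)
    refine cyc_vectors_dense φ hφ u hu hUP (atil (fun i => (ξ i : R)) (xx Xs Z) m) hνR hcp hv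
      (F := fun y => g (Z.map φ, y)) (((polyMap_const (Z.map φ)).prodMk
        (polyMap_linear LinearMap.id)).comp hg) ?_ y
    intro y' hy'
    exact hint Z y' hZu hZcyc hy' (by rw [hcp, hZc])
  · rw [hYc, Polynomial.map_prod]
    simp

end Vale.Agent.P002G
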