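import Mathlib

/-!
# The inverse eigenvalue problem for `N * diagonal z`

If all principal minors of the complex matrix `N` are nonzero, then `N * diagonal z` takes every
characteristic polynomial (`inv_eig`).
-/

set_option autoImplicit false

namespace Vale.Agent.P002G.InvEig

open Matrix

section Height

open MvPolynomial

variable {m : ℕ}

/-- set the first `j` variables to zero -/
noncomputable def kill (m j : ℕ) : MvPolynomial (Fin m) ℂ →ₐ[ℂ] MvPolynomial (Fin m) ℂ :=
  aeval fun i : Fin m => if i.val < j then 0 else X i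

theorem kill_X (j : ℕ) (i : Fin m) :
    kill m j (X i) = if i.val < j then 0 else X i := by
  simp [kill]

theorem kill_comp (j l : ℕ) (hjl : j ≤ l) (f : MvPolynomial (Fin m) ℂ) :
    kill m l (kill m j f) = kill m l f := by
  have h : (kill m l).comp (kill m j) = kill m l := by
    ext1 i
    rw [AlgHom.comp_apply, kill_X, kill_X]
    split_ifs with h1 h2
    · simp
    · omega
    · rw [kill_X]; simp [*]
    · rw [kill_X]; simp [*]
  exact DFunLike.congr_fun h f

instance (j : ℕ) : (RingHom.ker (kill m j)).IsPrime := RingHom.ker_isPrime _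

theorem height_kill (j : ℕ) (hj : j ≤ m) : (j : ℕ∞) ≤ (RingHom.ker (kill m j)).height := by
  induction j with
  | zero => simp
  | succ j ih =>
    have hlt : RingHom.ker (kill m j) < RingHom.ker (kill m (j + 1)) := by
      refine lt_of_le_of_ne ?_ ?_
      · intro f hf
        rw [RingHom.mem_ker] at hf ⊢
        rw [← kill_comp j (j + 1) (Nat.le_succ j), hf, map_zero]
      · intro h
        have h1 : (X (⟨j, hj⟩ : Fin m) : MvPolynomial (Fin m) ℂ) ∈
            RingHom.ker (kill m (j + 1)) := by
          rw [RingHom.mem_ker, kill_X]; simp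
        rw [← h, RingHom.mem_ker, kill_X] at h1
        simp at h1
    have h1 := Ideal.height_add_one_le_of_lt_of_isPrime hlt
    refine le_trans ?_ h1
    push_cast
    gcongr
    exact ih (by omega)

theorem height_vanishing :
    (m : ℕ∞) ≤ (vanishingIdeal ℂ {(0 : Fin m → ℂ)} : Ideal (MvPolynomial (Fin m) ℂ)).height := by
  refine (height_kill m le_rfl).trans (Ideal.height_mono fun f hf => ?_)
  rw [RingHom.mem_ker] at hf
  rw [mem_vanishingIdeal_singleton_iff]
  have h : (aeval (0 : Fin m → ℂ)).comp (kill m m) = aeval (0 : Fin m → ℂ) := by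
    ext1 i
    rw [AlgHom.comp_apply, kill_X]; simp
  rw [← h, AlgHom.comp_apply, hf, map_zero]

/-- Fewer than `m` polynomials in `m` variables which vanish at `0` have another common zero. -/
theorem exists_zero {k : ℕ} (hk : k < m) (F : Fin k → MvPolynomial (Fin m) ℂ)
    (hF : ∀ j, aeval (0 : Fin m → ℂ) (F j) = 0) :
    ∃ x : Fin m → ℂ, x ≠ 0 ∧ ∀ j, aeval x (F j) = 0 := by
  by_contra hcon
  push Not at hcon
  set I : Ideal (MvPolynomial (Fin m) ℂ) := Ideal.span (Set.range F) with hI
  have hz : zeroLocus ℂ I = {(0 : Fin m → ℂ)} := by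
    rw [hI, zeroLocus_span]
    ext x
    simp only [Set.mem_range, forall_exists_index, forall_apply_eq_imp_iff, Set.mem_ofPred_eq,
      Set.mem_singleton_iff]
    constructor
    · intro h
      by_contra hx
      obtain ⟨j, hj⟩ := hcon x hx
      exact hj (h j)
    · rintro rfl j
      exact hF j
  have hrad : (vanishingIdeal ℂ {(0 : Fin m → ℂ)} : Ideal (MvPolynomial (Fin m) ℂ)) = I.radical := by
    rw [← hz, vanishingIdeal_zeroLocus_eq_radical]
  have hmin : (vanishingIdeal ℂ {(0 : Fin m → ℂ)} : Ideal (MvPolynomial (Fin m) ℂ)) ∈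
      I.minimalPrimes := by
    refine ⟨⟨inferInstance, ?_⟩, ?_⟩
    · rw [hrad]; exact Ideal.le_radical
    · rintro J ⟨hJ, hIJ⟩ -
      change (vanishingIdeal ℂ {(0 : Fin m → ℂ)} : Ideal (MvPolynomial (Fin m) ℂ)) ≤ J
      rw [hrad]
      exact hJ.radical_le_iff.2 hIJ
  have h1 := Ideal.height_le_card_of_mem_minimalPrimes_span (Set.finite_range F) hmin
  have h2 := (height_vanishing (m := m)).trans h1
  have h3 : (Set.range F).ncard ≤ k := by
    rw [← Set.image_univ]
    refine (Set.ncard_image_le Set.finite_univ).trans ?_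
    simp
  have : m ≤ k := le_trans (by exact_mod_cast h2) h3
  omega

end Height


section Charpoly

open Polynomial

variable {r : ℕ}

/-- a matrix whose columns outside `S` vanish: powers and principal blocks -/
theorem pow_block {M : Matrix (Fin r) (Fin r) ℂ} {S : Finset (Fin r)}
    (hM : ∀ i j, j ∉ S → M i j = 0) (k : ℕ) :
    (∀ i ∈ S, ∀ j, j ∉ S → (M ^ k) i j = 0) ∧
    ((M.submatrix Subtype.val Subtype.val : Matrix S S ℂ)) ^ k =
      ((M ^ k).submatrix Subtype.val Subtype.val : Matrix S S ℂ) := by
  induction k with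
  | zero =>
    refine ⟨fun i hi j hj => ?_, ?_⟩
    · rw [pow_zero, Matrix.one_apply_ne]; rintro rfl; exact hj hi
    · rw [pow_zero, pow_zero, Matrix.submatrix_one _ Subtype.val_injective]
  | succ k ih =>
    refine ⟨fun i hi j hj => ?_, ?_⟩
    · rw [pow_succ, Matrix.mul_apply]
      exact Finset.sum_eq_zero fun l _ => by rw [hM l j hj, mul_zero]
    · ext i j
      rw [pow_succ, ih.2, Matrix.mul_apply, Matrix.submatrix_apply, pow_succ, Matrix.mul_apply]
      simp only [Matrix.submatrix_apply]
      rw [← Finset.sum_subset (Finset.subset_univ S)]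
      · exact (Finset.sum_coe_sort S fun l => (M ^ k) i l * M l j)
      · intro l _ hl
        rw [ih.1 i i.2 l hl, zero_mul]

theorem charpoly_ne {N : Matrix (Fin r) (Fin r) ℂ}
    (hN : ∀ S : Finset (Fin r), (N.submatrix (Subtype.val : S → Fin r) Subtype.val).det ≠ 0)
    {z : Fin r → ℂ} (hz : z ≠ 0) : (N * diagonal z).charpoly ≠ X ^ r := by
  intro h
  set S : Finset (Fin r) := Finset.univ.filter fun i => z i ≠ 0 with hS
  have hM : ∀ i j, j ∉ S → (N * diagonal z) i j = 0 := by
    intro i j hj
    rw [Matrix.mul_diagonal]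
    have : z j = 0 := by simpa [hS] using hj
    rw [this, mul_zero]
  have hpow := (pow_block hM r).2
  have h0 : (N * diagonal z) ^ r = 0 := by
    have := Matrix.aeval_self_charpoly (N * diagonal z)
    rwa [h, map_pow, aeval_X] at this
  rw [h0] at hpow
  have hdet := congrArg Matrix.det hpow
  rw [Matrix.det_pow] at hdet
  obtain ⟨i, hi⟩ : ∃ i, z i ≠ 0 := by
    by_contra hcon
    push Not at hcon
    exact hz (funext hcon)
  have hne : Nonempty S := ⟨⟨i, by simp [hS, hi]⟩⟩
  have h1 : ((0 : Matrix (Fin r) (Fin r) ℂ).submatrix Subtype.val Subtype.val :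
      Matrix S S ℂ).det = 0 := by
    have : ((0 : Matrix (Fin r) (Fin r) ℂ).submatrix Subtype.val Subtype.val :
        Matrix S S ℂ) = 0 := by
      ext; simp
    rw [this, Matrix.det_zero]
  rw [h1] at hdet
  have h2 : ((N * diagonal z).submatrix (Subtype.val : S → Fin r) Subtype.val) =
      N.submatrix (Subtype.val : S → Fin r) Subtype.val *
        diagonal (fun i : S => z i) := by
    ext i j
    simp [Matrix.mul_diagonal]
  have h3 := eq_zero_of_pow_eq_zero hdet
  rw [h2, Matrix.det_mul, Matrix.det_diagonal] at h3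
  rcases mul_eq_zero.1 h3 with h4 | h4
  · exact hN S h4
  · obtain ⟨j, -, hj⟩ := Finset.prod_eq_zero_iff.1 h4
    exact (Finset.mem_filter.1 (hS ▸ j.2 : (j : Fin r) ∈ Finset.univ.filter fun i => z i ≠ 0)).2 hj

/-- scaling a matrix scales the coefficients of its characteristic polynomial -/
theorem coeff_charpoly_smul (M : Matrix (Fin r) (Fin r) ℂ) (c : ℂ) (k : ℕ) :
    (c • M).charpoly.coeff k * c ^ k = c ^ r * M.charpoly.coeff k := by
  have h : ((c • M).charpoly).comp (Polynomial.C c * X) = Polynomial.C (c ^ r) * M.charpoly := by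
    rw [Matrix.charpoly, Matrix.charpoly, ← Polynomial.coe_compRingHom_apply,
      RingHom.map_det]
    have : (compRingHom (Polynomial.C c * X)).mapMatrix (c • M).charmatrix =
        Polynomial.C c • M.charmatrix := by
      ext1 i j
      simp only [RingHom.mapMatrix_apply, Matrix.map_apply, Matrix.charmatrix_apply,
        Matrix.smul_apply, smul_eq_mul, map_sub, map_mul, coe_compRingHom_apply, C_comp]
      by_cases hij : i = j
      · subst hij; simp; ring
      · simp [Matrix.diagonal_apply_ne _ hij]
    rw [this, Matrix.det_smul, Fintype.card_fin, Polynomial.C_pow]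
  have h2 := congrArg (fun p => p.coeff k) h
  simp only [coeff_C_mul] at h2
  rw [comp_C_mul_X_coeff] at h2
  exact h2

/-- The inverse eigenvalue problem for `N * diagonal z`. -/
theorem inv_eig (N : Matrix (Fin r) (Fin r) ℂ)
    (hN : ∀ S : Finset (Fin r), (N.submatrix (Subtype.val : S → Fin r) Subtype.val).det ≠ 0)
    (χ : ℂ[X]) (hχ : χ.Monic) (hdeg : χ.natDegree = r) (h0 : χ.coeff 0 ≠ 0) :
    ∃ z : Fin r → ℂ, (∀ i, z i ≠ 0) ∧ (N * diagonal z).charpoly = χ := by
  let G : Matrix (Fin r) (Fin r) (MvPolynomial (Fin (r + 1)) ℂ) :=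
    N.map MvPolynomial.C * diagonal (fun i => MvPolynomial.X i.castSucc)
  let F : Fin r → MvPolynomial (Fin (r + 1)) ℂ := fun k =>
    G.charpoly.coeff k - MvPolynomial.C (χ.coeff k) * MvPolynomial.X (Fin.last r) ^ (r - k.val)
  have hG : ∀ x : Fin (r + 1) → ℂ, ∀ k, MvPolynomial.aeval x (G.charpoly.coeff k) =
      (N * diagonal (fun i : Fin r => x i.castSucc)).charpoly.coeff k := by
    intro x k
    have h1 : G.map (MvPolynomial.aeval x) = N * diagonal (fun i : Fin r => x i.castSucc) := by
      ext i j
      simp [G, Matrix.mul_diagonal]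
    rw [← h1]
    have h2 := Matrix.charpoly_map G (MvPolynomial.aeval x : _ →ₐ[ℂ] ℂ).toRingHom
    change _ = ((G.map (MvPolynomial.aeval x : _ →ₐ[ℂ] ℂ).toRingHom).charpoly).coeff k
    rw [h2, coeff_map]
    rfl
  have hF : ∀ (x : Fin (r + 1) → ℂ) k, MvPolynomial.aeval x (F k) =
      (N * diagonal (fun i : Fin r => x i.castSucc)).charpoly.coeff k -
        χ.coeff k * x (Fin.last r) ^ (r - k.val) := by
    intro x k
    simp only [F, map_sub, hG, map_mul, map_pow, MvPolynomial.aeval_X, MvPolynomial.aeval_C]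
    rfl
  obtain ⟨x, hx, hxF⟩ := exists_zero (Nat.lt_succ_self r) F (by
    intro j
    rw [hF]
    have h1 : (fun i : Fin r => (0 : Fin (r + 1) → ℂ) i.castSucc) = 0 := rfl
    have h2 : (N * diagonal (0 : Fin r → ℂ)).charpoly = X ^ r := by
      rw [show diagonal (0 : Fin r → ℂ) = 0 from Matrix.diagonal_zero, mul_zero,
        Matrix.charpoly_zero, Fintype.card_fin]
    rw [h1, h2, coeff_X_pow, if_neg (by omega), Pi.zero_apply, zero_pow (by omega)]
    simp)
  have hcoef : ∀ k : Fin r, (N * diagonal (fun i : Fin r => x i.castSucc)).charpoly.coeff k =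
      χ.coeff k * x (Fin.last r) ^ (r - k.val) := by
    intro k
    have := hxF k
    rw [hF] at this
    exact sub_eq_zero.1 this
  have hdegM : ∀ M : Matrix (Fin r) (Fin r) ℂ, M.charpoly.natDegree = r := by
    intro M
    rw [Matrix.charpoly_natDegree_eq_dim, Fintype.card_fin]
  have hs : x (Fin.last r) ≠ 0 := by
    intro hs
    have hz : (fun i : Fin r => x i.castSucc) ≠ 0 := by
      intro hz
      apply hx
      funext i
      refine Fin.lastCases ?_ (fun j => ?_) i
      · exact hs
      · exact congrFun hz j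
    refine charpoly_ne hN hz ?_
    ext k
    rw [coeff_X_pow]
    rcases lt_trichotomy k r with hk | hk | hk
    · rw [if_neg (by omega), hcoef ⟨k, hk⟩, hs, zero_pow (by simp; omega), mul_zero]
    · rw [if_pos hk, hk]
      have := (Matrix.charpoly_monic (N * diagonal (fun i : Fin r => x i.castSucc))).coeff_natDegree
      rwa [hdegM] at this
    · rw [if_neg (by omega), coeff_eq_zero_of_natDegree_lt (by rw [hdegM]; exact hk)]
  set c : ℂ := (x (Fin.last r))⁻¹ with hc
  have hc0 : c ≠ 0 := inv_ne_zero hs
  have hsm : N * diagonal (fun i : Fin r => c * x i.castSucc) =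
      c • (N * diagonal (fun i : Fin r => x i.castSucc)) := by
    ext i j
    simp only [Matrix.mul_diagonal, Matrix.smul_apply, smul_eq_mul]
    ring
  have hchar : (N * diagonal (fun i : Fin r => c * x i.castSucc)).charpoly = χ := by
    ext k
    rcases lt_trichotomy k r with hk | hk | hk
    · have h1 := coeff_charpoly_smul (N * diagonal (fun i : Fin r => x i.castSucc)) c k
      rw [← hsm, hcoef ⟨k, hk⟩] at h1
      have h2 : c ^ r * (χ.coeff k * x (Fin.last r) ^ (r - k)) = χ.coeff k * c ^ k := by
        have h3 : c ^ r = c ^ k * c ^ (r - k) := by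
          rw [← pow_add]; congr 1; omega
        have h4 : c ^ (r - k) * x (Fin.last r) ^ (r - k) = 1 := by
          rw [← mul_pow, hc, inv_mul_cancel₀ hs, one_pow]
        rw [h3]
        linear_combination (χ.coeff k * c ^ k) * h4
      rw [h2] at h1
      exact mul_right_cancel₀ (pow_ne_zero _ hc0) h1
    · subst hk
      have h1 := (Matrix.charpoly_monic
        (N * diagonal (fun i : Fin k => c * x i.castSucc))).coeff_natDegree
      rw [hdegM] at h1
      have h2 := hχ.coeff_natDegree
      rw [hdeg] at h2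
      rw [h1, h2]
    · rw [coeff_eq_zero_of_natDegree_lt (by rw [hdegM]; exact hk),
        coeff_eq_zero_of_natDegree_lt (by rw [hdeg]; exact hk)]
  refine ⟨fun i => c * x i.castSucc, ?_, hchar⟩
  have hdet : (N * diagonal (fun i : Fin r => c * x i.castSucc)).det ≠ 0 := by
    rw [Matrix.det_eq_sign_charpoly_coeff, hchar]
    exact mul_ne_zero (pow_ne_zero _ (by norm_num)) h0
  rw [Matrix.det_mul, Matrix.det_diagonal] at hdet
  intro i
  exact Finset.prod_ne_zero_iff.1 (right_ne_zero_of_mul hdet) i (Finset.mem_univ i)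

end Charpoly

end Vale.Agent.P002G.InvEig
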