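import Vale.Agent.P002G.TriConj

/-!
# Density of the integral cyclic vectors of a matrix with distinct eigenvalues
-/

namespace Vale.Agent.P002G

open Matrix Polynomial

variable {n : ℕ} {R : Type*} [CommRing R]

theorem aeval_map_matrix (φ : R →+* ℂ) (Z : Matrix (Fin n) (Fin n) R) (p : R[X]) :
    (aeval Z p).map φ = aeval (Z.map φ) (p.map φ) := by
  rw [Polynomial.aeval_def, Polynomial.aeval_def, Polynomial.eval₂_map]
  have h7 := Polynomial.hom_eval₂ p (algebraMap R (Matrix (Fin n) (Fin n) R))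
    φ.mapMatrix Z
  have h8 : (φ.mapMatrix : Matrix (Fin n) (Fin n) R →+* _).comp
      (algebraMap R (Matrix (Fin n) (Fin n) R)) =
      (algebraMap ℂ (Matrix (Fin n) (Fin n) ℂ)).comp φ := by
    ext a b c
    simp [Matrix.algebraMap_matrix_apply]
    split_ifs <;> simp
  rw [h8] at h7
  exact h7

/-- The integral cyclic vectors of `Z` are dense. -/
theorem cyc_vectors_dense (φ : R →+* ℂ) (hφ : Function.Injective φ) (u : Rˣ)
    (hu : ∀ k : ℕ, 0 < k → φ (u : R) ^ k ≠ 1)
    (hUP : ∀ D : R, D ≠ 0 → ∃ M : ℕ, 0 < M ∧ D ∣ (u : R) ^ M - 1)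
    (Z : Matrix (Fin n) (Fin n) R) {ν : Fin n → R}
    (hν : Function.Injective ν) (hX : Z.charpoly = ∏ i, (Polynomial.X - C (ν i)))
    {v : Fin n → R} (hcyc : Cyc Z v) {F : (Fin n → ℂ) → ℂ} (hF : IsPoly F)
    (h : ∀ y : Fin n → R, Cyc Z y → F (fun i => φ (y i)) = 0)
    (y : Fin n → ℂ) : F y = 0 := by
  have : IsDomain R := hφ.isDomain φ
  have hνφ : Function.Injective fun i => φ (ν i) := hφ.comp hν
  -- the modulus
  obtain ⟨D, hD⟩ : ∃ D, D = ∏ i, lden ν i := ⟨_, rfl⟩
  have hD0 : D ≠ 0 := by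
    rw [hD]
    exact Finset.prod_ne_zero_iff.2 fun i _ => lden_ne_zero hν i
  obtain ⟨M, hM, hMD⟩ := hUP D hD0
  have hc : ∀ w : Rˣ, D ∣ (w : R) - 1 → ∀ i, ∃ c : R, 1 + c * lden ν i = w := by
    rintro w ⟨e, he⟩ i
    refine ⟨(∏ j ∈ Finset.univ.erase i, lden ν j) * e, ?_⟩
    have h1 : (∏ j ∈ Finset.univ.erase i, lden ν j) * lden ν i = ∏ i, lden ν i :=
      Finset.prod_erase_mul _ _ (Finset.mem_univ i)
    have h2 : ((∏ j ∈ Finset.univ.erase i, lden ν j) * e) * lden ν i = D * e := by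
      rw [hD, ← h1]; ring
    rw [h2, ← he]
    ring
  -- the vectors `g i`
  obtain ⟨g, hg⟩ : ∃ g : Fin n → Fin n → R, g = fun i => aeval Z (lagr ν i) *ᵥ v := ⟨_, rfl⟩
  have hlc : ∀ c : Fin n → R, aeval Z (ipol ν c) *ᵥ v = v + ∑ i, c i • g i := by
    intro c
    rw [ipol, map_add, map_one, map_sum, Matrix.add_mulVec, Matrix.one_mulVec, Matrix.sum_mulVec]
    congr 1
    refine Finset.sum_congr rfl fun i _ => ?_
    rw [map_mul, aeval_C, ← Algebra.smul_def, smul_mulVec, hg]
  -- the integral points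
  have hint : ∀ k : Fin n → ℕ, F (fun j => φ (v j) +
      ∑ i, (φ (u : R) ^ (M * k i) - 1) / φ (lden ν i) * φ (g i j)) = 0 := by
    intro k
    have hw : ∀ i, D ∣ ((u ^ (M * k i) : Rˣ) : R) - 1 := by
      intro i
      rw [Units.val_pow_eq_pow_val, pow_mul]
      exact dvd_pow_sub_one hMD (k i)
    choose c hc2 using fun i => hc (u ^ (M * k i)) (hw i) i
    choose c' hc2' using fun i => hc (u ^ (M * k i))⁻¹ (dvd_inv_sub_one (hw i)) i
    have hinv : aeval Z (ipol ν c) * aeval Z (ipol ν c') = 1 :=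
      ipol_mul_inv hν hX fun i => by rw [hc2, hc2', Units.mul_inv]
    have h1 := h (aeval Z (ipol ν c) *ᵥ v) (by
      refine hcyc.of_comm ?_ (IsUnit.of_mul_eq_one _ hinv)
      have h := congrArg (aeval Z) (mul_comm (ipol ν c) Polynomial.X)
      rw [map_mul, map_mul, aeval_X] at h
      exact h)
    have h2 : (fun i => φ ((aeval Z (ipol ν c) *ᵥ v) i)) = fun j => φ (v j) +
        ∑ i, (φ (u : R) ^ (M * k i) - 1) / φ (lden ν i) * φ (g i j) := by
      ext j
      rw [hlc, Pi.add_apply, map_add, Finset.sum_apply, map_sum]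
      congr 1
      refine Finset.sum_congr rfl fun i _ => ?_
      rw [Pi.smul_apply, smul_eq_mul, map_mul]
      congr 1
      have h3 : φ (lden ν i) ≠ 0 := fun h0 => lden_ne_zero hν i (hφ (h0.trans (map_zero φ).symm))
      rw [eq_div_iff h3, ← map_mul]
      have h4 := hc2 i
      rw [Units.val_pow_eq_pow_val] at h4
      have h5 : c i * lden ν i = (u : R) ^ (M * k i) - 1 := by rw [← h4]; ring
      rw [h5, map_sub, map_pow, map_one]
    rw [← h2]
    exact h1
  -- all complex values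
  have hpoly : IsPoly fun y : Fin n → ℂ => F (fun j => φ (v j) +
      ∑ i, (y i - 1) / φ (lden ν i) * φ (g i j)) := by
    apply PolyMap.comp _ hF
    refine polyMap_pi fun j => IsPoly.polyMap ?_
    refine (isPoly_const _).add (IsPoly.sum _ fun i _ => ?_)
    refine (((isPoly_coord i).sub (isPoly_const 1)).mul
      (isPoly_const ((φ (lden ν i))⁻¹ * φ (g i j)))).congr fun y => ?_
    rw [div_eq_mul_inv]
    ring
  have hall := hpoly.eq_zero_of_pi (fun _ => Set.range fun k : ℕ => φ (u : R) ^ (M * k))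
    (fun _ => infinite_pow_unit φ u hu hM) (fun y hy => by
      choose k hk using hy
      have := hint k
      beta_reduce at hk
      simp only [hk] at this
      exact this)
  -- surjectivity
  obtain ⟨p, hp⟩ := (hcyc.map φ).exists_poly y
  have h1 := hall fun i => p.eval (φ (ν i))
  have h2 : (fun j => φ (v j) +
      ∑ i, (p.eval (φ (ν i)) - 1) / φ (lden ν i) * φ (g i j)) = y := by
    obtain ⟨cc, hcc⟩ : ∃ cc : Fin n → ℂ, cc = fun i => (p.eval (φ (ν i)) - 1) / φ (lden ν i) :=
      ⟨_, rfl⟩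
    have hgφ : ∀ i, (fun j => φ (g i j)) =
        aeval (Z.map φ) (lagr (fun j => φ (ν j)) i) *ᵥ fun j => φ (v j) := by
      intro i
      ext j
      rw [hg, ← lagr_map, ← aeval_map_matrix]
      exact RingHom.map_mulVec φ _ v j
    have h3 : (fun j => φ (v j) + ∑ i, cc i * φ (g i j)) =
        aeval (Z.map φ) (ipol (fun j => φ (ν j)) cc) *ᵥ fun j => φ (v j) := by
      rw [ipol, map_add, map_one, map_sum, Matrix.add_mulVec, Matrix.one_mulVec,
        Matrix.sum_mulVec]
      ext j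
      rw [Pi.add_apply, Finset.sum_apply]
      congr 1
      refine Finset.sum_congr rfl fun i _ => ?_
      rw [map_mul, aeval_C, ← Algebra.smul_def, smul_mulVec, Pi.smul_apply,
        smul_eq_mul, ← hgφ]
    have h4 : aeval (Z.map φ) (ipol (fun j => φ (ν j)) cc) = aeval (Z.map φ) p := by
      rw [← sub_eq_zero, ← map_sub]
      apply aeval_eq_zero_of_roots hνφ
      · rw [Matrix.charpoly_map, hX, Polynomial.map_prod]
        simp
      · intro i
        rw [eval_sub]
        have h5 := eval_ipol (fun j => φ (ν j)) cc i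
        beta_reduce at h5
        rw [h5, ← lden_map, hcc]
        have h6 : φ (lden ν i) ≠ 0 := fun h0 =>
          lden_ne_zero hν i (hφ (h0.trans (map_zero φ).symm))
        beta_reduce
        rw [div_mul_cancel₀ _ h6]
        ring
    rw [hcc] at h3
    beta_reduce at h3
    rw [h3, ← hcc, h4, hp]
  rw [h2] at h1
  exact h1

end Vale.Agent.P002G
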