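import Vale.Agent.P002G.PolyC

/-!
# Lagrange interpolation: the integral cyclic vectors are dense
-/

namespace Vale.Agent.P002G

open Matrix Polynomial
open Vale.Agent.P002 (kry mul_kry kry_mulVec_single)

variable {n : ℕ} {S T : Type*} [CommRing S] [CommRing T]

/-- The vector `(1, 0, ..., 0)`. -/
def en (n : ℕ) (S : Type*) [CommRing S] : Fin n → S := fun i => if (i : ℕ) = 0 then 1 else 0

theorem en_succ : en (n + 1) S = Fin.cons 1 0 := by
  ext i
  refine Fin.cases ?_ (fun i => ?_) i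
  · simp [en]
  · simp [en]

theorem en_eq_e0 : en (n + 1) S = e0 n S := en_succ

theorem en_map (φ : S →+* T) : (fun i => φ (en n S i)) = en n T := by
  ext i
  simp only [en]
  split_ifs
  · exact map_one φ
  · exact map_zero φ

theorem uU_mulVec_en (X : Matrix (Fin n) (Fin n) S) : uU X *ᵥ en n S = en n S := by
  ext i
  rw [mulVec, dotProduct]
  by_cases hi : (i : ℕ) = 0
  · rw [Finset.sum_eq_single i]
    · simp [uU, en, hi]
    · intro j _ hj
      have : (j : ℕ) ≠ 0 := fun h => hj (Fin.ext (h.trans hi.symm))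
      simp [en, this]
    · intro h; exact absurd (Finset.mem_univ i) h
  · have h1 : en n S i = 0 := by simp [en, hi]
    rw [h1]
    apply Finset.sum_eq_zero
    intro j _
    by_cases hj : (j : ℕ) = 0
    · have h2 : i ≠ j := fun h => hi (by rw [h]; exact hj)
      have h3 : ¬ i < j := by
        rw [Fin.lt_def]
        omega
      simp [uU, h2, h3]
    · simp [en, hj]

/-- The Lagrange numerators. -/
noncomputable def lagr (ν : Fin n → S) (i : Fin n) : S[X] :=
  ∏ j ∈ Finset.univ.erase i, (X - C (ν j))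

/-- The Lagrange denominators. -/
def lden (ν : Fin n → S) (i : Fin n) : S := ∏ j ∈ Finset.univ.erase i, (ν i - ν j)

theorem eval_lagr_self (ν : Fin n → S) (i : Fin n) : (lagr ν i).eval (ν i) = lden ν i := by
  simp [lagr, lden, Polynomial.eval_prod]

theorem eval_lagr_ne (ν : Fin n → S) {i j : Fin n} (h : j ≠ i) : (lagr ν i).eval (ν j) = 0 := by
  rw [lagr, Polynomial.eval_prod]
  apply Finset.prod_eq_zero (Finset.mem_erase.2 ⟨h, Finset.mem_univ j⟩)
  simp

theorem lagr_map (φ : S →+* T) (ν : Fin n → S) (i : Fin n) :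
    (lagr ν i).map φ = lagr (fun j => φ (ν j)) i := by
  simp [lagr, Polynomial.map_prod]

theorem lden_map (φ : S →+* T) (ν : Fin n → S) (i : Fin n) :
    φ (lden ν i) = lden (fun j => φ (ν j)) i := by
  simp [lden, map_prod]

/-- The interpolation polynomial. -/
noncomputable def ipol (ν c : Fin n → S) : S[X] := 1 + ∑ i, C (c i) * lagr ν i

theorem eval_ipol (ν c : Fin n → S) (j : Fin n) :
    (ipol ν c).eval (ν j) = 1 + c j * lden ν j := by
  rw [ipol, eval_add, eval_one, eval_finsetSum, Finset.sum_eq_single j]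
  · rw [eval_mul, eval_C, eval_lagr_self]
  · intro i _ hi
    rw [eval_mul, eval_lagr_ne ν hi.symm, mul_zero]
  · intro h; exact absurd (Finset.mem_univ j) h

theorem lden_ne_zero [IsDomain S] {ν : Fin n → S} (hν : Function.Injective ν) (i : Fin n) :
    lden ν i ≠ 0 := by
  rw [lden, Finset.prod_ne_zero_iff]
  intro j hj
  rw [Finset.mem_erase] at hj
  exact sub_ne_zero.2 fun h => hj.1 (hν h.symm)

/-- A polynomial which vanishes at the distinct eigenvalues vanishes at the matrix. -/
theorem aeval_eq_zero_of_roots [IsDomain S] {Z : Matrix (Fin n) (Fin n) S} {ν : Fin n → S}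
    (hν : Function.Injective ν) (hZ : Z.charpoly = ∏ i, (X - C (ν i))) {f : S[X]}
    (hf : ∀ i, f.eval (ν i) = 0) : aeval Z f = 0 := by
  have h1 : f %ₘ Z.charpoly = 0 := by
    have hdeg : (f %ₘ Z.charpoly).degree < (n : WithBot ℕ) := by
      have := Polynomial.degree_modByMonic_lt f Z.charpoly_monic
      rwa [Matrix.charpoly_degree_eq_dim, Fintype.card_fin] at this
    by_contra hne
    have hnat : (f %ₘ Z.charpoly).natDegree < n := by
      rwa [← Polynomial.natDegree_lt_iff_degree_lt hne] at hdeg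
    apply hne
    apply Polynomial.eq_zero_of_natDegree_lt_card_of_eval_eq_zero _ hν
    · intro i
      have h2 := congrArg (Polynomial.eval (ν i)) (Polynomial.modByMonic_add_div f Z.charpoly)
      rw [eval_add, eval_mul, hf i] at h2
      have h3 : Z.charpoly.eval (ν i) = 0 := by
        rw [hZ, Polynomial.eval_prod]
        apply Finset.prod_eq_zero (Finset.mem_univ i)
        simp
      rw [h3, zero_mul, add_zero] at h2
      exact h2
    · rw [Fintype.card_fin]
      exact hnat
  have h2 := Polynomial.modByMonic_add_div f Z.charpoly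
  rw [h1, zero_add] at h2
  rw [← h2, map_mul, Matrix.aeval_self_charpoly, zero_mul]

theorem ipol_mul_inv [IsDomain S] {Z : Matrix (Fin n) (Fin n) S} {ν : Fin n → S}
    (hν : Function.Injective ν) (hZ : Z.charpoly = ∏ i, (X - C (ν i))) {c c' : Fin n → S}
    (h : ∀ i, (1 + c i * lden ν i) * (1 + c' i * lden ν i) = 1) :
    aeval Z (ipol ν c) * aeval Z (ipol ν c') = 1 := by
  have h1 : aeval Z (ipol ν c * ipol ν c' - 1) = 0 := by
    apply aeval_eq_zero_of_roots hν hZ
    intro i
    rw [eval_sub, eval_mul, eval_ipol, eval_ipol, h, eval_one, sub_self]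
  rw [map_sub, map_mul, map_one, sub_eq_zero] at h1
  exact h1

/-- Divisibility of `w - 1` for the inverse. -/
theorem dvd_inv_sub_one {D : S} {w : Sˣ} (h : D ∣ (w : S) - 1) : D ∣ ((w⁻¹ : Sˣ) : S) - 1 := by
  obtain ⟨e, he⟩ := h
  refine ⟨-(((w⁻¹ : Sˣ) : S) * e), ?_⟩
  have h1 : ((w⁻¹ : Sˣ) : S) * ((w : S) - 1) = 1 - ((w⁻¹ : Sˣ) : S) := by
    rw [mul_sub, Units.inv_mul, mul_one]
  rw [he] at h1
  linear_combination h1

theorem dvd_pow_sub_one {D : S} {w : S} (h : D ∣ w - 1) (k : ℕ) : D ∣ w ^ k - 1 :=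
  h.trans (by simpa using sub_dvd_pow_sub_pow w 1 k)

/-- `ℓ` is congruent to the first basis vector. -/
def Be (Δ : S) (l : Fin n → S) : Prop := ∀ i, Δ ∣ l i - en n S i

/-- `X` is congruent to a bidiagonal matrix below the diagonal. -/
def Bi (Δ : S) (X : Matrix (Fin n) (Fin n) S) : Prop :=
  ∀ i j, j < i → Δ ∣ X i j - if (i : ℕ) = j + 1 then 1 else 0

theorem bi_bcons {Δ q : S} {u l : Fin n → S} {X : Matrix (Fin n) (Fin n) S} :
    Bi Δ (bcons q u l X) ↔ Be Δ l ∧ Bi Δ X := by
  constructor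
  · intro h
    refine ⟨fun i => ?_, fun i j hij => ?_⟩
    · have := h i.succ 0 (Fin.succ_pos i)
      rw [bcons_succ_zero] at this
      simpa [en] using this
    · have := h i.succ j.succ (Fin.succ_lt_succ_iff.2 hij)
      rw [bcons_succ_succ] at this
      simpa using this
  · rintro ⟨h1, h2⟩ i j
    refine Fin.cases ?_ (fun i => ?_) i
    · intro hij
      exact absurd hij (Fin.not_lt_zero _)
    · refine Fin.cases ?_ (fun j => ?_) j
      · intro _
        rw [bcons_succ_zero]
        simpa [en] using h1 i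
      · intro hij
        rw [bcons_succ_succ]
        simpa using h2 i j (Fin.succ_lt_succ_iff.1 hij)

variable {R : Type*} [CommRing R]

theorem infinite_pow_unit (φ : R →+* ℂ) (u : Rˣ) (hu : ∀ k : ℕ, 0 < k → φ (u : R) ^ k ≠ 1) {M : ℕ}
    (hM : 0 < M) : (Set.range fun k : ℕ => φ (u : R) ^ (M * k)).Infinite := by
  apply Set.infinite_range_of_injective
  intro k l hkl
  beta_reduce at hkl
  have hu0 : φ (u : R) ≠ 0 := (u.isUnit.map φ).ne_zero
  have key : ∀ k l : ℕ, k < l → φ (u : R) ^ (M * k) ≠ φ (u : R) ^ (M * l) := by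
    intro k l hkl h
    apply hu (M * (l - k)) (by
      have : 0 < l - k := by omega
      positivity)
    have h1 : M * l = M * k + M * (l - k) := by
      rw [← mul_add]
      congr 1
      omega
    rw [h1, pow_add] at h
    have h2 := mul_left_cancel₀ (pow_ne_zero (M * k) hu0) ((mul_one _).trans h)
    exact h2.symm
  rcases lt_trichotomy k l with h | h | h
  · exact absurd hkl (key k l h)
  · exact h
  · exact absurd hkl.symm (key l k h)

/-- Steps 1 and 2 of the proof of Lemma B. -/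
theorem lagrange_density (φ : R →+* ℂ) (hφ : Function.Injective φ) (u : Rˣ)
    (hu : ∀ k : ℕ, 0 < k → φ (u : R) ^ k ≠ 1)
    (hUP : ∀ D : R, D ≠ 0 → ∃ M : ℕ, 0 < M ∧ D ∣ (u : R) ^ M - 1)
    {Δ : R} (hΔ : Δ ≠ 0) (X : Matrix (Fin n) (Fin n) R) {ν : Fin n → R}
    (hν : Function.Injective ν) (hX : (zZ X).charpoly = ∏ i, (Polynomial.X - C (ν i)))
    (hcyc : Cyc (zZ X) (en n R)) {F : (Fin n → ℂ) → ℂ} (hF : IsPoly F)
    (h : ∀ l : Fin n → R, Be Δ l → Cyc (zZ X) (uU X *ᵥ l) → F (fun i => φ (l i)) = 0)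
    (l : Fin n → ℂ) : F l = 0 := by
  have : IsDomain R := hφ.isDomain φ
  have hνφ : Function.Injective fun i => φ (ν i) := hφ.comp hν
  have hUd : IsUnit (uU X).det := (Matrix.isUnit_iff_isUnit_det _).1 (isUnit_uU X)
  -- the modulus
  obtain ⟨D, hD⟩ : ∃ D, D = Δ * ∏ i, lden ν i := ⟨_, rfl⟩
  have hD0 : D ≠ 0 := by
    rw [hD]
    exact mul_ne_zero hΔ (Finset.prod_ne_zero_iff.2 fun i _ => lden_ne_zero hν i)
  obtain ⟨M, hM, hMD⟩ := hUP D hD0
  have hc : ∀ w : Rˣ, D ∣ (w : R) - 1 → ∀ i, ∃ c : R, Δ ∣ c ∧ 1 + c * lden ν i = w := by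
    rintro w ⟨e, he⟩ i
    refine ⟨Δ * ((∏ j ∈ Finset.univ.erase i, lden ν j) * e), dvd_mul_right _ _, ?_⟩
    have h1 : (∏ j ∈ Finset.univ.erase i, lden ν j) * lden ν i = ∏ i, lden ν i :=
      Finset.prod_erase_mul _ _ (Finset.mem_univ i)
    have h2 : Δ * ((∏ j ∈ Finset.univ.erase i, lden ν j) * e) * lden ν i = D * e := by
      rw [hD, ← h1]; ring
    rw [h2, ← he]
    ring
  -- the vectors `g i`
  obtain ⟨g, hg⟩ : ∃ g : Fin n → Fin n → R, g = fun i =>
      (uU X)⁻¹ *ᵥ (aeval (zZ X) (lagr ν i) *ᵥ en n R) := ⟨_, rfl⟩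
  have huinv : (uU X)⁻¹ *ᵥ en n R = en n R := by
    conv_lhs => rw [← uU_mulVec_en X]
    rw [mulVec_mulVec, Matrix.nonsing_inv_mul _ hUd, one_mulVec]
  have hlc : ∀ c : Fin n → R, (uU X)⁻¹ *ᵥ (aeval (zZ X) (ipol ν c) *ᵥ en n R) =
      en n R + ∑ i, c i • g i := by
    intro c
    rw [ipol, map_add, map_one, map_sum, Matrix.add_mulVec, Matrix.one_mulVec, Matrix.mulVec_add,
      huinv, Matrix.sum_mulVec, Matrix.mulVec_sum]
    congr 1
    refine Finset.sum_congr rfl fun i _ => ?_
    rw [map_mul, aeval_C, ← Algebra.smul_def, smul_mulVec, mulVec_smul, hg]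
  -- the integral points
  have hint : ∀ k : Fin n → ℕ, F (fun j => φ (en n R j) +
      ∑ i, (φ (u : R) ^ (M * k i) - 1) / φ (lden ν i) * φ (g i j)) = 0 := by
    intro k
    have hw : ∀ i, D ∣ ((u ^ (M * k i) : Rˣ) : R) - 1 := by
      intro i
      rw [Units.val_pow_eq_pow_val, pow_mul]
      exact dvd_pow_sub_one hMD (k i)
    choose c hc1 hc2 using fun i => hc (u ^ (M * k i)) (hw i) i
    choose c' hc1' hc2' using fun i => hc (u ^ (M * k i))⁻¹ (dvd_inv_sub_one (hw i)) i
    obtain ⟨l, hl⟩ : ∃ l, l = (uU X)⁻¹ *ᵥ (aeval (zZ X) (ipol ν c) *ᵥ en n R) := ⟨_, rfl⟩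
    have hl1 : uU X *ᵥ l = aeval (zZ X) (ipol ν c) *ᵥ en n R := by
      rw [hl, mulVec_mulVec, Matrix.mul_nonsing_inv _ hUd, one_mulVec]
    have hl2 : l = en n R + ∑ i, c i • g i := by rw [hl, hlc]
    have hinv : aeval (zZ X) (ipol ν c) * aeval (zZ X) (ipol ν c') = 1 :=
      ipol_mul_inv hν hX fun i => by rw [hc2, hc2', Units.mul_inv]
    have h1 := h l (by
      intro j
      rw [hl2, Pi.add_apply, add_sub_cancel_left, Finset.sum_apply]
      apply Finset.dvd_sum
      intro i _
      exact (hc1 i).mul_right _) (by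
      rw [hl1]
      refine hcyc.of_comm ?_ (IsUnit.of_mul_eq_one _ hinv)
      have h := congrArg (aeval (zZ X)) (mul_comm (ipol ν c) Polynomial.X)
      rw [map_mul, map_mul, aeval_X] at h
      exact h)
    have h2 : (fun i => φ (l i)) = fun j => φ (en n R j) +
        ∑ i, (φ (u : R) ^ (M * k i) - 1) / φ (lden ν i) * φ (g i j) := by
      ext j
      rw [hl2, Pi.add_apply, map_add, Finset.sum_apply, map_sum]
      congr 1
      refine Finset.sum_congr rfl fun i _ => ?_
      rw [Pi.smul_apply, smul_eq_mul, map_mul]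
      congr 1
      have h3 : φ (lden ν i) ≠ 0 := fun h0 => lden_ne_zero hν i (hφ (h0.trans (map_zero φ).symm))
      rw [eq_div_iff h3, ← map_mul]
      have h4 := hc2 i
      rw [Units.val_pow_eq_pow_val] at h4
      have h5 : c i * lden ν i = (u : R) ^ (M * k i) - 1 := by rw [← h4]; ring
      rw [h5, map_sub, map_pow, map_one]
    rw [← h2]
    exact h1
  -- all complex values
  have hpoly : IsPoly fun y : Fin n → ℂ => F (fun j => φ (en n R j) +
      ∑ i, (y i - 1) / φ (lden ν i) * φ (g i j)) := by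
    apply PolyMap.comp _ hF
    refine polyMap_pi fun j => IsPoly.polyMap ?_
    refine (isPoly_const _).add (IsPoly.sum _ fun i _ => ?_)
    refine (((isPoly_coord i).sub (isPoly_const 1)).mul
      (isPoly_const ((φ (lden ν i))⁻¹ * φ (g i j)))).congr fun y => ?_
    rw [div_eq_mul_inv]
    ring
  have hall := hpoly.eq_zero_of_pi (fun _ => Set.range fun k : ℕ => φ (u : R) ^ (M * k))
    (fun _ => infinite_pow_unit φ u hu hM) (fun y hy => by
      choose k hk using hy
      have := hint k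
      beta_reduce at hk
      simp only [hk] at this
      exact this)
  -- surjectivity
  obtain ⟨p, hp⟩ := (hcyc.map φ).exists_poly ((uU X).map φ *ᵥ l)
  rw [en_map] at hp
  have h1 := hall fun i => p.eval (φ (ν i))
  have h2 : (fun j => φ (en n R j) +
      ∑ i, (p.eval (φ (ν i)) - 1) / φ (lden ν i) * φ (g i j)) = l := by
    obtain ⟨cc, hcc⟩ : ∃ cc : Fin n → ℂ, cc = fun i => (p.eval (φ (ν i)) - 1) / φ (lden ν i) :=
      ⟨_, rfl⟩
    have hgφ : ∀ i, (fun j => φ (g i j)) = (uU (X.map φ))⁻¹ *ᵥ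
        (aeval (zZ (X.map φ)) (lagr (fun j => φ (ν j)) i) *ᵥ en n ℂ) := by
      intro i
      have h3 : uU X *ᵥ g i = aeval (zZ X) (lagr ν i) *ᵥ en n R := by
        rw [hg]
        beta_reduce
        rw [mulVec_mulVec, Matrix.mul_nonsing_inv _ hUd, one_mulVec]
      have h4 : uU (X.map φ) *ᵥ (fun j => φ (g i j)) =
          aeval (zZ (X.map φ)) (lagr (fun j => φ (ν j)) i) *ᵥ en n ℂ := by
        ext j
        have h5 := congrArg φ (congrFun h3 j)
        rw [RingHom.map_mulVec, RingHom.map_mulVec] at h5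
        rw [← uU_map, ← zZ_map, ← lagr_map, ← en_map φ]
        have h6 : (aeval (zZ X) (lagr ν i)).map φ = aeval ((zZ X).map φ) ((lagr ν i).map φ) := by
          rw [Polynomial.aeval_def, Polynomial.aeval_def, Polynomial.eval₂_map]
          have h7 := Polynomial.hom_eval₂ (lagr ν i) (algebraMap R (Matrix (Fin n) (Fin n) R))
            φ.mapMatrix (zZ X)
          have h8 : (φ.mapMatrix : Matrix (Fin n) (Fin n) R →+* _).comp
              (algebraMap R (Matrix (Fin n) (Fin n) R)) =
              (algebraMap ℂ (Matrix (Fin n) (Fin n) ℂ)).comp φ := by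
            ext a b c
            simp [Matrix.algebraMap_matrix_apply]
            split_ifs <;> simp
          rw [h8] at h7
          exact h7
        rw [← h6]
        exact h5
      rw [← h4, mulVec_mulVec, Matrix.nonsing_inv_mul _ ((Matrix.isUnit_iff_isUnit_det _).1
        (isUnit_uU _)), one_mulVec]
    have hUd' : IsUnit (uU (X.map φ)).det := (Matrix.isUnit_iff_isUnit_det _).1 (isUnit_uU _)
    have h3 : (fun j => φ (en n R j) + ∑ i, cc i * φ (g i j)) = (uU (X.map φ))⁻¹ *ᵥ
        (aeval (zZ (X.map φ)) (ipol (fun j => φ (ν j)) cc) *ᵥ en n ℂ) := by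
      have huinv' : (uU (X.map φ))⁻¹ *ᵥ en n ℂ = en n ℂ := by
        conv_lhs => rw [← uU_mulVec_en (X.map φ)]
        rw [mulVec_mulVec, Matrix.nonsing_inv_mul _ hUd', one_mulVec]
      rw [ipol, map_add, map_one, map_sum, Matrix.add_mulVec, Matrix.one_mulVec,
        Matrix.mulVec_add, huinv', Matrix.sum_mulVec, Matrix.mulVec_sum]
      ext j
      rw [Pi.add_apply, Finset.sum_apply, ← en_map φ]
      congr 1
      refine Finset.sum_congr rfl fun i _ => ?_
      rw [map_mul, aeval_C, ← Algebra.smul_def, smul_mulVec, mulVec_smul, Pi.smul_apply,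
        smul_eq_mul, en_map φ, ← hgφ]
    have h4 : aeval (zZ (X.map φ)) (ipol (fun j => φ (ν j)) cc) = aeval (zZ (X.map φ)) p := by
      rw [← sub_eq_zero, ← map_sub]
      apply aeval_eq_zero_of_roots hνφ
      · rw [← zZ_map, Matrix.charpoly_map, hX, Polynomial.map_prod]
        simp
      · intro i
        rw [eval_sub]
        have h5 := eval_ipol (fun j => φ (ν j)) cc i
        beta_reduce at h5
        rw [h5, ← lden_map, hcc]
        have h6 : φ (lden ν i) ≠ 0 := fun h0 =>
          lden_ne_zero hν i (hφ (h0.trans (map_zero φ).symm))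
        beta_reduce
        rw [div_mul_cancel₀ _ h6]
        ring
    rw [hcc] at h3
    beta_reduce at h3
    rw [h3, ← hcc, h4, ← zZ_map, hp, uU_map, mulVec_mulVec, Matrix.nonsing_inv_mul _ hUd',
      one_mulVec]
  rw [h2] at h1
  exact h1

end Vale.Agent.P002G
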