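import Vale.Agent.P002G.Lagrange

/-!
# Lemma B: density of the integral points of the cells with a unimodular Krylov matrix
-/

namespace Vale.Agent.P002G

open Matrix Polynomial
open Vale.Agent.P002 (kry mul_kry kry_mulVec_single)

variable {n : ℕ} {R : Type*} [CommRing R]

/-- Density of the integral pairs (cell element, cyclic vector). -/
def PP (φ : R →+* ℂ) (n : ℕ) : Prop :=
  ∀ Δ : R, Δ ≠ 0 → ∀ (q : Fin n → Rˣ) (F : Matrix (Fin n) (Fin n) ℂ × (Fin n → ℂ) → ℂ),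
    IsPoly F →
    (∀ (X : Matrix (Fin n) (Fin n) R) (l : Fin n → R), (∀ i, X i i = q i) → Bi Δ X → Be Δ l →
      Cyc (zZ X) (uU X *ᵥ l) → F (X.map φ, fun i => φ (l i)) = 0) →
    ∀ (X : Matrix (Fin n) (Fin n) ℂ) (l : Fin n → ℂ), (∀ i, X i i = φ (q i : R)) → F (X, l) = 0

/-- Density of the integral cell elements with a given characteristic polynomial. -/
def QQ (φ : R →+* ℂ) (n : ℕ) : Prop :=
  ∀ Δ : R, Δ ≠ 0 → ∀ (q : Fin n → Rˣ) (χ : R[X]), χ.Monic → χ.natDegree = n →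
    ∀ F : Matrix (Fin n) (Fin n) ℂ → ℂ, IsPoly F →
    (∀ X : Matrix (Fin n) (Fin n) R, (∀ i, X i i = q i) → Bi Δ X → (zZ X).charpoly = χ →
      Cyc (zZ X) (en n R) → F (X.map φ) = 0) →
    ∀ X : Matrix (Fin n) (Fin n) ℂ, (∀ i, X i i = φ (q i : R)) →
      (zZ X).charpoly = χ.map φ → Cyc (zZ X) (en n ℂ) → F X = 0

/-- The constant coefficient condition. -/
theorem coeff_zero_cond {S : Type*} [CommRing S] {X : Matrix (Fin (n + 1)) (Fin (n + 1)) S}
    {q : S} {u l : Fin n → S} {X' : Matrix (Fin n) (Fin n) S} (hX : X = bcons q u l X') {χ : S[X]}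
    (h : (zZ X).charpoly = χ) : χ.coeff 0 = -(q * (zZ X').charpoly.coeff 0) := by
  rw [← h, charpoly_zZ_coeff_zero, charpoly_zZ_coeff_zero, hX, Fin.prod_univ_succ]
  simp only [bcons_zero_zero, bcons_succ_succ]
  ring

theorem Cyc.det_ne_zero {N : Matrix (Fin n) (Fin n) ℂ} {b : Fin n → ℂ} (h : Cyc N b) :
    (WW N b).det ≠ 0 :=
  ((Matrix.isUnit_iff_isUnit_det _).1 ((isUnit_WW N b).2 h)).ne_zero

theorem cyc_of_det_ne_zero {N : Matrix (Fin n) (Fin n) ℂ} {b : Fin n → ℂ}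
    (h : (WW N b).det ≠ 0) : Cyc N b :=
  (isUnit_WW N b).1 ((Matrix.isUnit_iff_isUnit_det _).2 (isUnit_iff_ne_zero.2 h))

theorem bcons_map {S T : Type*} [CommRing S] [CommRing T] (φ : S →+* T) (q : S) (u l : Fin n → S)
    (X : Matrix (Fin n) (Fin n) S) : (bcons q u l X).map φ =
      bcons (φ q) (fun i => φ (u i)) (fun i => φ (l i)) (X.map φ) := by
  ext i j
  refine Fin.cases ?_ (fun i => ?_) i <;> refine Fin.cases ?_ (fun j => ?_) j <;> rfl

theorem QQ_of_PP (φ : R →+* ℂ) (hφ : Function.Injective φ) (h : PP φ n) : QQ φ (n + 1) := by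
  intro Δ hΔ q χ hχ hχd F hF hint X hq hX hcyc
  -- coordinates
  obtain ⟨x, hx⟩ : ∃ x : Fin n → ℂ, x = fun j => X 0 j.succ := ⟨_, rfl⟩
  obtain ⟨l, hl⟩ : ∃ l : Fin n → ℂ, l = fun i => X i.succ 0 := ⟨_, rfl⟩
  obtain ⟨X', hX'⟩ : ∃ X' : Matrix (Fin n) (Fin n) ℂ, X' = Matrix.of fun i j => X i.succ j.succ :=
    ⟨_, rfl⟩
  obtain ⟨a, ha⟩ : ∃ a, a = x ᵥ* (uU X')⁻¹ := ⟨_, rfl⟩
  have hax : a ᵥ* uU X' = x := by rw [ha]; exact exists_vecMul_uU X' x
  have hXe : X = bcons (φ (q 0 : R)) (a ᵥ* uU X') l X' := by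
    rw [hax, ← hq 0, hx, hl, hX', bcons_eta]
  have hZ : zZ X = brd (φ (q 0 : R)) (zZ X') (uU X' *ᵥ l) a := by
    rw [hXe, zZ_bcons]
  have hcN : Cyc (zZ X') (uU X' *ᵥ l) := by
    rw [hZ, en_eq_e0, cyc_brd] at hcyc
    exact hcyc
  have h0 := coeff_zero_cond hXe hX
  have haO : a = aOf (χ.map φ) (φ (q 0 : R)) (zZ X') (uU X' *ᵥ l) := by
    rw [← charpoly_brd_iff (hχ.map φ) (by rw [hχ.natDegree_map, hχd]) hcN h0, ← hZ]
    exact hX
  have hq' : ∀ i : Fin n, X' i i = φ (q i.succ : R) := fun i => by rw [← hq, hX', Matrix.of_apply]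
  -- the constant coefficient over `R`
  have h0R : χ.coeff 0 = (-1) ^ (n + 1) * ∏ i, (q i : R) := by
    apply hφ
    rw [← coeff_map, ← hX, charpoly_zZ_coeff_zero, map_mul, map_pow, map_neg, map_one, map_prod]
    congr 1
    exact Finset.prod_congr rfl fun i _ => hq i
  -- the rational map
  obtain ⟨d, hd⟩ : ∃ d : Matrix (Fin n) (Fin n) ℂ × (Fin n → ℂ) → ℂ,
      d = fun p => (WW (zZ p.1) (uU p.1 *ᵥ p.2)).det := ⟨_, rfl⟩
  have hfst : PolyMap fun p : Matrix (Fin n) (Fin n) ℂ × (Fin n → ℂ) => p.1 :=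
    polyMap_linear (LinearMap.fst ℂ (Matrix (Fin n) (Fin n) ℂ) (Fin n → ℂ))
  have hsnd : PolyMap fun p : Matrix (Fin n) (Fin n) ℂ × (Fin n → ℂ) => p.2 :=
    polyMap_linear (LinearMap.snd ℂ (Matrix (Fin n) (Fin n) ℂ) (Fin n → ℂ))
  have hb : ∀ d : Matrix (Fin n) (Fin n) ℂ × (Fin n → ℂ) → ℂ, IsPoly d →
      RatMap d fun p => uU p.1 *ᵥ p.2 := fun d hd =>
    ratMap_mulVec hd (ratMap_uU hd hfst.ratMap) hsnd.ratMap
  have hdp : IsPoly d := by
    rw [hd]
    exact isPoly_det (RatMap.polyMap_of_one (ratMap_WW (isPoly_const 1)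
      (ratMap_zZ (isPoly_const 1) hfst.ratMap) (hb _ (isPoly_const 1))))
  obtain ⟨ψ, hψ⟩ : ∃ ψ : Matrix (Fin n) (Fin n) ℂ × (Fin n → ℂ) →
      Matrix (Fin (n + 1)) (Fin (n + 1)) ℂ, ψ = fun p => bcons (φ (q 0 : R))
        (aOf (χ.map φ) (φ (q 0 : R)) (zZ p.1) (uU p.1 *ᵥ p.2) ᵥ* uU p.1) p.2 p.1 := ⟨_, rfl⟩
  have hψr : RatMap d ψ := by
    rw [hψ]
    refine ratMap_bcons hdp hfst.ratMap (isPoly_const _).isRat
      (ratMap_vecMul hdp (ratMap_uU hdp hfst.ratMap) (ratMap_aOf hdp (ratMap_zZ hdp hfst.ratMap)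
        (hb d hdp) (isPoly_const _).isRat (ratC_const _) ?_)) hsnd.ratMap
    rw [hd]
    exact isRat_inv
  have key := vanish_image (S := {p | ∃ (X : Matrix (Fin n) (Fin n) R) (l : Fin n → R),
      (∀ i, X i i = q i.succ) ∧ Bi Δ X ∧ Be Δ l ∧ Cyc (zZ X) (uU X *ᵥ l) ∧
        p = (X.map φ, fun i => φ (l i))}) (T := {p | ∀ i, p.1 i i = φ (q i.succ : R)}) (by
      intro f hf hS p hp
      refine h Δ hΔ (fun i => q i.succ) f hf ?_ p.1 p.2 hp
      intro X l h1 h2 h3 h4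
      exact hS _ ⟨X, l, h1, h2, h3, h4, rfl⟩) hdp hψr hF (by
      rintro p ⟨X, l, -, -, -, h4, rfl⟩
      rw [hd]
      beta_reduce
      rw [← zZ_map, ← uU_map]
      have h5 := h4.map φ
      have h6 : (fun i => φ ((uU X *ᵥ l) i)) = (uU X).map φ *ᵥ fun i => φ (l i) := by
        ext i
        exact RingHom.map_mulVec φ (uU X) l i
      rw [h6] at h5
      exact h5.det_ne_zero) (by
      rintro p ⟨X, l, h1, h2, h3, h4, rfl⟩
      rw [hψ]
      beta_reduce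
      have h6 : (fun i => φ ((uU X *ᵥ l) i)) = uU (X.map φ) *ᵥ fun i => φ (l i) := by
        ext i
        rw [← uU_map]
        exact RingHom.map_mulVec φ (uU X) l i
      have h7 := aOf_map φ h4 χ (q 0 : R)
      rw [h6, zZ_map] at h7
      rw [← h7]
      have h8 : (fun i => φ ((aOf χ (q 0 : R) (zZ X) (uU X *ᵥ l)) i)) ᵥ* uU (X.map φ) =
          fun i => φ ((aOf χ (q 0 : R) (zZ X) (uU X *ᵥ l) ᵥ* uU X) i) := by
        ext i
        rw [← uU_map]
        exact (RingHom.map_vecMul φ (uU X) (aOf χ (q 0 : R) (zZ X) (uU X *ᵥ l)) i).symm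
      rw [h8, ← bcons_map]
      have h9 : χ.coeff 0 = -((q 0 : R) * (zZ X).charpoly.coeff 0) := by
        rw [h0R, charpoly_zZ_coeff_zero, Fin.prod_univ_succ]
        simp only [h1]
        ring
      refine hint _ ?_ ?_ ?_ ?_
      · intro i
        refine Fin.cases ?_ (fun i => ?_) i
        · rfl
        · exact h1 i
      · rw [bi_bcons]
        exact ⟨h3, h2⟩
      · rw [zZ_bcons]
        exact (charpoly_brd_iff hχ hχd h4 h9 _).2 rfl
      · rw [zZ_bcons, en_eq_e0, cyc_brd]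
        exact h4)
  have h1 := key (X', l) hq' (by rw [hd]; exact hcN.det_ne_zero)
  rw [hψ] at h1
  beta_reduce at h1
  rw [← haO, ← hXe] at h1
  exact h1

/-! ### The other direction -/

theorem PP_zero (φ : R →+* ℂ) : PP φ 0 := by
  intro Δ _ q F _ hint X l _
  have h := hint 0 0 (fun i => i.elim0) (fun i => i.elim0) (fun i => i.elim0) (fun M _ _ => by
    rw [eq_top_iff]
    intro x _
    rw [Subsingleton.elim x 0]
    exact M.zero_mem)
  have h1 : ((0 : Matrix (Fin 0) (Fin 0) R).map φ, fun i => φ ((0 : Fin 0 → R) i)) = (X, l) := by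
    ext i
    · exact i.elim0
    · exact i.elim0
  rwa [h1] at h

/-- Existence of a point with a cyclic vector. -/
theorem exists_cyc_point (q : Fin n → ℂ) : ∃ X : Matrix (Fin n) (Fin n) ℂ,
    (∀ i, X i i = q i) ∧ (∀ i j, i < j → X i j = 0) ∧ Cyc (zZ X) (en n ℂ) := by
  induction n with
  | zero =>
    refine ⟨0, fun i => i.elim0, fun i => i.elim0, fun M _ _ => ?_⟩
    rw [eq_top_iff]
    intro x _
    rw [Subsingleton.elim x 0]
    exact M.zero_mem
  | succ n ih =>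
    obtain ⟨X', h1, h2, h3⟩ := ih fun i => q i.succ
    refine ⟨bcons (q 0) 0 (en n ℂ) X', ?_, ?_, ?_⟩
    · intro i
      refine Fin.cases ?_ (fun i => ?_) i
      · rfl
      · exact h1 i
    · intro i j
      refine Fin.cases ?_ (fun i => ?_) i <;> refine Fin.cases ?_ (fun j => ?_) j
      · intro h; exact absurd h (lt_irrefl _)
      · intro _; rfl
      · intro h; exact absurd h (Fin.not_lt_zero _)
      · intro h; exact h2 i j (Fin.succ_lt_succ_iff.1 h)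
    · have h4 : (0 : Fin n → ℂ) = (0 : Fin n → ℂ) ᵥ* uU X' := by rw [Matrix.zero_vecMul]
      have h5 : zZ (bcons (q 0) 0 (en n ℂ) X') = brd (q 0) (zZ X') (uU X' *ᵥ en n ℂ) 0 := by
        conv_lhs => rw [h4]
        rw [zZ_bcons]
      rw [h5, en_eq_e0, cyc_brd, uU_mulVec_en]
      exact h3

/-- Step 5: it suffices to treat the points with a cyclic vector. -/
theorem vanish_of_cyc (q : Fin n → ℂ) {F : Matrix (Fin n) (Fin n) ℂ → ℂ} (hF : IsPoly F)
    (h : ∀ X : Matrix (Fin n) (Fin n) ℂ, (∀ i, X i i = q i) → Cyc (zZ X) (en n ℂ) → F X = 0)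
    (X : Matrix (Fin n) (Fin n) ℂ) (hX : ∀ i, X i i = q i) : F X = 0 := by
  obtain ⟨ω, hω⟩ : ∃ ω : Matrix (Fin n) (Fin n) ℂ → Matrix (Fin n) (Fin n) ℂ,
      ω = fun Y => Matrix.of fun i j => if i = j then q i else Y i j := ⟨_, rfl⟩
  have hωp : PolyMap ω := by
    rw [hω]
    refine polyMap_matrix fun i j => ?_
    simp only [Matrix.of_apply]
    split_ifs
    · exact isPoly_const _
    · exact (polyMap_linear LinearMap.id).entry i j
  have hωd : ∀ Y i, ω Y i i = q i := by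
    intro Y i
    rw [hω]
    simp
  have hωX : ∀ Y, (∀ i, Y i i = q i) → ω Y = Y := by
    intro Y hY
    rw [hω]
    ext i j
    by_cases hij : i = j
    · subst hij
      simp [hY]
    · simp [hij]
  obtain ⟨X₀, h1, -, h3⟩ := exists_cyc_point q
  have hk : IsPoly fun Y => (WW (zZ (ω Y)) (en n ℂ)).det :=
    isPoly_det (RatMap.polyMap_of_one (ratMap_WW (isPoly_const 1)
      (ratMap_zZ (isPoly_const 1) hωp.ratMap) (ratMap_const _)))
  have := (hωp.comp hF).eq_zero_of_mul hk (fun Y => by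
    by_cases h0 : (WW (zZ (ω Y)) (en n ℂ)).det = 0
    · rw [h0, mul_zero]
    · rw [h (ω Y) (hωd Y) (cyc_of_det_ne_zero h0), zero_mul]) X₀ (by
    rw [hωX X₀ h1]
    exact h3.det_ne_zero) X
  rwa [hωX X hX] at this

/-- The eigenvalues as a function on `Fin n`. -/
theorem exists_eigenvalues (Z : Matrix (Fin n) (Fin n) ℂ) :
    ∃ μ : Fin n → ℂ, Z.charpoly = ∏ i, (X - C (μ i)) := by
  have h1 : Z.charpoly.Splits := IsAlgClosed.splits _
  have h2 : Z.charpoly = (Z.charpoly.roots.map fun a => X - C a).prod := by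
    have := h1.eq_prod_roots
    rwa [Z.charpoly_monic.leadingCoeff, C_1, one_mul] at this
  have h3 : Z.charpoly.roots.card = n := by
    rw [← h1.natDegree_eq_card_roots, Matrix.charpoly_natDegree_eq_dim, Fintype.card_fin]
  obtain ⟨L, hL⟩ : ∃ L : List ℂ, (L : Multiset ℂ) = Z.charpoly.roots :=
    ⟨Z.charpoly.roots.toList, Multiset.coe_toList _⟩
  have hLn : L.length = n := by rw [← h3, ← hL, Multiset.coe_card]
  refine ⟨fun i => L.get (i.cast hLn.symm), ?_⟩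
  rw [h2, ← hL]
  subst hLn
  rw [Multiset.map_coe, Multiset.prod_coe, Fin.cast_refl]
  have : (List.map (fun a : ℂ => X - C a) L) = List.ofFn fun i : Fin L.length =>
      (X - C (L.get i) : ℂ[X]) := by
    rw [show (fun i : Fin L.length => (X - C (L.get i) : ℂ[X])) =
      (fun a : ℂ => (X - C a : ℂ[X])) ∘ L.get from rfl, ← List.map_ofFn, List.ofFn_get]
  rw [this, List.prod_ofFn]
  rfl

/-- Units with distinct powers. -/
theorem phi_pow_inj (φ : R →+* ℂ) (u : Rˣ) (hu : ∀ k : ℕ, 0 < k → φ (u : R) ^ k ≠ 1)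
    {k l : ℕ} (h : φ (u : R) ^ k = φ (u : R) ^ l) : k = l := by
  have hu0 : φ (u : R) ≠ 0 := (u.isUnit.map φ).ne_zero
  have key : ∀ k l : ℕ, k < l → φ (u : R) ^ k ≠ φ (u : R) ^ l := by
    intro k l hkl h
    apply hu (l - k) (by omega)
    have h1 : l = k + (l - k) := by omega
    rw [h1, pow_add] at h
    exact (mul_left_cancel₀ (pow_ne_zero k hu0) ((mul_one _).trans h)).symm
  rcases lt_trichotomy k l with h' | h' | h'
  · exact absurd h (key k l h')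
  · exact h'
  · exact absurd h.symm (key l k h')

theorem unit_pow_inj (φ : R →+* ℂ) (u : Rˣ) (hu : ∀ k : ℕ, 0 < k → φ (u : R) ^ k ≠ 1)
    {k l : ℕ} (h : u ^ k = u ^ l) : k = l := by
  apply phi_pow_inj φ u hu
  rw [← map_pow, ← map_pow, ← Units.val_pow_eq_pow_val, ← Units.val_pow_eq_pow_val, h]

theorem infinite_residue (φ : R →+* ℂ) (u : Rˣ) (hu : ∀ k : ℕ, 0 < k → φ (u : R) ^ k ≠ 1)
    (E m i : ℕ) (hi : i < m) :
    {z : ℂ | ∃ k : ℕ, E < k ∧ k % m = i ∧ z = φ (u : R) ^ k}.Infinite := by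
  have h1 : (Set.range fun j : ℕ => φ (u : R) ^ (i + m * (E + 1 + j))).Infinite := by
    apply Set.infinite_range_of_injective
    intro j j' h
    beta_reduce at h
    have h3 := phi_pow_inj φ u hu h
    have h4 : m * (E + 1 + j) = m * (E + 1 + j') := by omega
    have h5 := Nat.eq_of_mul_eq_mul_left (by omega : 0 < m) h4
    omega
  refine h1.mono ?_
  rintro _ ⟨j, rfl⟩
  refine ⟨i + m * (E + 1 + j), ?_, ?_, rfl⟩
  · have : 1 * (E + 1 + j) ≤ m * (E + 1 + j) := Nat.mul_le_mul_right _ (by omega)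
    omega
  · rw [Nat.add_mul_mod_self_left]
    exact Nat.mod_eq_of_lt hi

/-- Steps 1-3: the statement for prescribed eigenvalues. -/
theorem vanish_of_eigenvalues (φ : R →+* ℂ) (hφ : Function.Injective φ) (u : Rˣ)
    (hu : ∀ k : ℕ, 0 < k → φ (u : R) ^ k ≠ 1)
    (hUP : ∀ D : R, D ≠ 0 → ∃ M : ℕ, 0 < M ∧ D ∣ (u : R) ^ M - 1) (hQ : QQ φ n)
    {Δ : R} (hΔ : Δ ≠ 0) (q : Fin n → Rˣ)
    {F : Matrix (Fin n) (Fin n) ℂ × (Fin n → ℂ) → ℂ} (hF : IsPoly F)
    (hint : ∀ (X : Matrix (Fin n) (Fin n) R) (l : Fin n → R), (∀ i, X i i = q i) → Bi Δ X →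
      Be Δ l → Cyc (zZ X) (uU X *ᵥ l) → F (X.map φ, fun i => φ (l i)) = 0)
    {ν : Fin n → R} (hν : Function.Injective ν) (X : Matrix (Fin n) (Fin n) ℂ)
    (hX : ∀ i, X i i = φ (q i : R))
    (hXc : (zZ X).charpoly = (∏ i, (Polynomial.X - C (ν i))).map φ) (hcyc : Cyc (zZ X) (en n ℂ))
    (l : Fin n → ℂ) : F (X, l) = 0 := by
  have hdom : IsDomain R := hφ.isDomain φ
  have h1 : PolyMap fun Y : Matrix (Fin n) (Fin n) ℂ => (Y, l) :=
    (polyMap_linear LinearMap.id).prodMk (polyMap_const l)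
  refine hQ Δ hΔ q (∏ i, (Polynomial.X - C (ν i))) (monic_prod_of_monic _ _ fun i _ =>
    monic_X_sub_C _) ?_ (fun Y => F (Y, l)) (h1.comp hF) ?_ X hX hXc hcyc
  · rw [natDegree_prod_of_monic _ _ fun i _ => monic_X_sub_C _]
    simp
  · intro Y hY hYb hYc hYcyc
    have h2 : PolyMap fun l : Fin n → ℂ => (Y.map φ, l) :=
      (polyMap_const (Y.map φ)).prodMk (polyMap_linear LinearMap.id)
    exact lagrange_density φ hφ u hu hUP hΔ Y hν hYc hYcyc (h2.comp hF)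
      (fun l' hl' hcl' => hint Y l' hY hYb hl' hcl') l

/-- The characteristic polynomials of the family. -/
noncomputable def chiF (Q : ℂ) (y : Fin n → ℂ) : ℂ[X] :=
  (∏ i, (X - C (y i))) * (X - C (Q / ∏ i, y i))

theorem chiF_monic (Q : ℂ) (y : Fin n → ℂ) : (chiF Q y).Monic :=
  (monic_prod_of_monic _ _ fun i _ => monic_X_sub_C _).mul (monic_X_sub_C _)

theorem chiF_natDegree (Q : ℂ) (y : Fin n → ℂ) : (chiF Q y).natDegree = n + 1 := by
  rw [chiF, (monic_prod_of_monic _ _ fun i _ => monic_X_sub_C _).natDegree_mul (monic_X_sub_C _),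
    natDegree_prod_of_monic _ _ fun i _ => monic_X_sub_C _]
  simp

theorem coeff_zero_prod (y : Fin n → ℂ) :
    (∏ i, (X - C (y i))).coeff 0 = (-1) ^ n * ∏ i, y i := by
  rw [coeff_zero_eq_eval_zero, Polynomial.eval_prod]
  simp [Finset.prod_neg]

theorem chiF_coeff_zero (Q : ℂ) (y : Fin n → ℂ) (hy : ∏ i, y i ≠ 0) :
    (chiF Q y).coeff 0 = (-1) ^ (n + 1) * Q := by
  rw [chiF, mul_coeff_zero, coeff_zero_prod, coeff_sub, coeff_X_zero, coeff_C_zero]
  field_simp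
  ring

theorem ratC_chiF (Q : ℂ) : RatC (fun y : Fin n → ℂ => ∏ i, y i) (chiF Q) := by
  have hd : IsPoly (fun y : Fin n → ℂ => ∏ i, y i) := IsPoly.prod _ fun i _ => isPoly_coord i
  unfold chiF
  refine RatC.mul hd (RatC.prod hd _ fun i _ => RatC.sub hd (ratC_const _)
    (ratC_C (isPoly_coord i).isRat)) (RatC.sub hd (ratC_const _) (ratC_C ?_))
  refine ((isPoly_const Q).isRat.mul isRat_inv).congr fun y _ => ?_
  rw [div_eq_mul_inv]

theorem PP_of_QQ (φ : R →+* ℂ) (hφ : Function.Injective φ) (u : Rˣ)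
    (hu : ∀ k : ℕ, 0 < k → φ (u : R) ^ k ≠ 1)
    (hUP : ∀ D : R, D ≠ 0 → ∃ M : ℕ, 0 < M ∧ D ∣ (u : R) ^ M - 1) (hQ : QQ φ (n + 1)) :
    PP φ (n + 1) := by
  intro Δ hΔ q F hF hint X l hX
  have hp : PolyMap fun Y : Matrix (Fin (n + 1)) (Fin (n + 1)) ℂ => (Y, l) :=
    (polyMap_linear LinearMap.id).prodMk (polyMap_const l)
  refine vanish_of_cyc (fun i => φ (q i : R)) (F := fun Y => F (Y, l)) (hp.comp hF) ?_ X hX
  clear X hX
  intro X hX hcyc
  -- coordinates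
  obtain ⟨x, hx⟩ : ∃ x : Fin n → ℂ, x = fun j => X 0 j.succ := ⟨_, rfl⟩
  obtain ⟨l', hl'⟩ : ∃ l : Fin n → ℂ, l = fun i => X i.succ 0 := ⟨_, rfl⟩
  obtain ⟨X', hX'⟩ : ∃ X' : Matrix (Fin n) (Fin n) ℂ, X' = Matrix.of fun i j => X i.succ j.succ :=
    ⟨_, rfl⟩
  obtain ⟨a, ha⟩ : ∃ a, a = x ᵥ* (uU X')⁻¹ := ⟨_, rfl⟩
  have hax : a ᵥ* uU X' = x := by rw [ha]; exact exists_vecMul_uU X' x
  have hXe : X = bcons (φ (q 0 : R)) (a ᵥ* uU X') l' X' := by
    rw [hax, ← hX 0, hx, hl', hX', bcons_eta]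
  have hZ : zZ X = brd (φ (q 0 : R)) (zZ X') (uU X' *ᵥ l') a := by
    rw [hXe, zZ_bcons]
  have hcN : Cyc (zZ X') (uU X' *ᵥ l') := by
    rw [hZ, en_eq_e0, cyc_brd] at hcyc
    exact hcyc
  have hq' : ∀ i : Fin n, X' i i = φ (q i.succ : R) := fun i => by rw [← hX, hX', Matrix.of_apply]
  obtain ⟨Q, hQd⟩ : ∃ Q : ℂ, Q = ∏ i, φ (q i : R) := ⟨_, rfl⟩
  have hQ0 : Q ≠ 0 := by
    rw [hQd, Finset.prod_ne_zero_iff]
    exact fun i _ => ((q i).isUnit.map φ).ne_zero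
  have hχ0 : ∀ y : Fin n → ℂ, ∏ i, y i ≠ 0 →
      (chiF Q y).coeff 0 = -(φ (q 0 : R) * (zZ X').charpoly.coeff 0) := by
    intro y hy
    rw [chiF_coeff_zero Q y hy, charpoly_zZ_coeff_zero, hQd, Fin.prod_univ_succ]
    simp only [hq']
    ring
  -- the family
  obtain ⟨ψ, hψ⟩ : ∃ ψ : (Fin n → ℂ) → Matrix (Fin (n + 1)) (Fin (n + 1)) ℂ,
      ψ = fun y => bcons (φ (q 0 : R))
        (aOf (chiF Q y) (φ (q 0 : R)) (zZ X') (uU X' *ᵥ l') ᵥ* uU X') l' X' := ⟨_, rfl⟩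
  have hd : IsPoly (fun y : Fin n → ℂ => ∏ i, y i) := IsPoly.prod _ fun i _ => isPoly_coord i
  have hψr : RatMap (fun y : Fin n → ℂ => ∏ i, y i) ψ := by
    rw [hψ]
    exact ratMap_bcons hd (ratMap_const _) (isPoly_const _).isRat
      (ratMap_vecMul hd (ratMap_const _) (ratMap_aOf hd (ratMap_const _) (ratMap_const _)
        (isPoly_const _).isRat (ratC_chiF Q) (isPoly_const _).isRat)) (ratMap_const _)
  have hψd : ∀ y i, ψ y i i = φ (q i : R) := by
    intro y i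
    rw [hψ]
    refine Fin.cases ?_ (fun i => ?_) i
    · rfl
    · exact hq' i
  have hψc : ∀ y : Fin n → ℂ, ∏ i, y i ≠ 0 → (zZ (ψ y)).charpoly = chiF Q y := by
    intro y hy
    rw [hψ, zZ_bcons]
    exact (charpoly_brd_iff (chiF_monic Q y) (chiF_natDegree Q y) hcN (hχ0 y hy) _).2 rfl
  have hψcyc : ∀ y, Cyc (zZ (ψ y)) (en (n + 1) ℂ) := by
    intro y
    rw [hψ, zZ_bcons, en_eq_e0, cyc_brd]
    exact hcN
  -- the exponents
  obtain ⟨E, hE⟩ : ∃ E : ℕ, ∀ e : ℕ, E < e → u ^ e ≠ ∏ i, q i := by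
    by_cases h : ∃ e, u ^ e = ∏ i, q i
    · obtain ⟨e, he⟩ := h
      exact ⟨e, fun e' h' h'' => h'.ne (unit_pow_inj φ u hu (he.trans h''.symm))⟩
    · exact ⟨0, fun e _ h' => h ⟨e, h'⟩⟩
  have key : ∀ y : Fin n → ℂ, ∏ i, y i ≠ 0 → F (ψ y, l) = 0 := by
    intro y hy
    refine vanish_family (F := fun Y => F (Y, l)) hd hψr (hp.comp hF) (fun _ => 1) (isPoly_const 1)
      0 one_ne_zero (fun i : Fin n => {z : ℂ | ∃ k : ℕ, E < k ∧ k % n = i ∧ z = φ (u : R) ^ k})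
      (fun i => infinite_residue φ u hu E n i i.2) ?_ y hy
    intro y hyS hy0 _
    choose k hk1 hk2 hk3 using hyS
    obtain ⟨w, hw⟩ : ∃ w : Rˣ, w = (∏ i, q i) * (∏ i, u ^ k i)⁻¹ := ⟨_, rfl⟩
    obtain ⟨ν, hν⟩ : ∃ ν : Fin (n + 1) → Rˣ, ν = Fin.snoc (α := fun _ => Rˣ)
      (fun i => u ^ k i) w := ⟨_, rfl⟩
    have hν1 : ∀ i : Fin n, ν i.castSucc = u ^ k i := fun i => by rw [hν, Fin.snoc_castSucc]
    have hν2 : ν (Fin.last n) = w := by rw [hν, Fin.snoc_last]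
    have hne : ∀ i : Fin n, u ^ k i ≠ w := by
      intro i h
      refine hE (k i + ∑ j, k j) (by have := hk1 i; omega) ?_
      rw [pow_add, h, hw, ← Finset.prod_pow_eq_pow_sum, inv_mul_cancel_right]
    have hinj : Function.Injective ν := by
      intro i j
      refine Fin.lastCases ?_ (fun i => ?_) i <;> refine Fin.lastCases ?_ (fun j => ?_) j
      · intro _; rfl
      · intro h
        rw [hν1, hν2] at h
        exact absurd h.symm (hne j)
      · intro h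
        rw [hν1, hν2] at h
        exact absurd h (hne i)
      · intro h
        rw [hν1, hν1] at h
        have h1 := unit_pow_inj φ u hu h
        congr 1
        apply Fin.ext
        rw [← hk2 i, ← hk2 j, h1]
    refine vanish_of_eigenvalues φ hφ u hu hUP hQ hΔ q hF hint
      (ν := fun i => (ν i : R)) (fun i j h => hinj (Units.ext h)) (ψ y) (hψd y) ?_ (hψcyc y) l
    have hwφ : φ (w : R) = Q / ∏ i, y i := by
      rw [eq_div_iff hy0]
      have h1 : w * ∏ i, u ^ k i = ∏ i, q i := by rw [hw, inv_mul_cancel_right]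
      have h2 := congrArg (fun w : Rˣ => φ (w : R)) h1
      beta_reduce at h2
      rw [Units.val_mul, map_mul, Units.coe_prod, Units.coe_prod, map_prod, map_prod] at h2
      rw [hQd, ← h2]
      congr 1
      exact Finset.prod_congr rfl fun i _ => by rw [hk3, Units.val_pow_eq_pow_val, map_pow]
    rw [hψc y hy0, Polynomial.map_prod, Fin.prod_univ_castSucc, chiF, hν2]
    simp only [Polynomial.map_sub, map_X, map_C, hwφ]
    congr 1
    exact Finset.prod_congr rfl fun i _ => by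
      rw [hk3, hν1, Units.val_pow_eq_pow_val, map_pow φ]
  -- the eigenvalues of `X`
  obtain ⟨μ, hμ⟩ := exists_eigenvalues (zZ X)
  have hμ1 : ∏ i, μ i = Q := by
    have h1 := charpoly_zZ_coeff_zero X
    rw [hμ, coeff_zero_prod] at h1
    have h2 := mul_left_cancel₀ (pow_ne_zero _ (neg_ne_zero.2 one_ne_zero)) h1
    rw [h2, hQd]
    exact Finset.prod_congr rfl fun i _ => hX i
  have hμ2 : ∏ i : Fin n, μ i.castSucc ≠ 0 := by
    intro h
    rw [Fin.prod_univ_castSucc, h, zero_mul] at hμ1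
    exact hQ0 hμ1.symm
  have hμ3 : (zZ X).charpoly = chiF Q fun i : Fin n => μ i.castSucc := by
    rw [hμ, chiF, Fin.prod_univ_castSucc]
    congr 3
    rw [eq_div_iff hμ2, ← hμ1, Fin.prod_univ_castSucc, mul_comm]
  have h1 := key _ hμ2
  have h2 : ψ (fun i : Fin n => μ i.castSucc) = X := by
    have h3 : a = aOf (chiF Q fun i : Fin n => μ i.castSucc) (φ (q 0 : R)) (zZ X')
        (uU X' *ᵥ l') := by
      rw [← charpoly_brd_iff (chiF_monic Q _) (chiF_natDegree Q _) hcN (hχ0 _ hμ2), ← hZ, hμ3]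
    rw [hψ]
    beta_reduce
    rw [← h3, ← hXe]
  rw [h2] at h1
  exact h1

/-- LEMMA B. -/
theorem PP_all (φ : R →+* ℂ) (hφ : Function.Injective φ) (u : Rˣ)
    (hu : ∀ k : ℕ, 0 < k → φ (u : R) ^ k ≠ 1)
    (hUP : ∀ D : R, D ≠ 0 → ∃ M : ℕ, 0 < M ∧ D ∣ (u : R) ^ M - 1) (n : ℕ) : PP φ n := by
  induction n with
  | zero => exact PP_zero φ
  | succ n ih => exact PP_of_QQ φ hφ u hu hUP (QQ_of_PP φ hφ ih)

/-- LEMMA B. -/
theorem QQ_all (φ : R →+* ℂ) (hφ : Function.Injective φ) (u : Rˣ)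
    (hu : ∀ k : ℕ, 0 < k → φ (u : R) ^ k ≠ 1)
    (hUP : ∀ D : R, D ≠ 0 → ∃ M : ℕ, 0 < M ∧ D ∣ (u : R) ^ M - 1) (n : ℕ) : QQ φ (n + 1) :=
  QQ_of_PP φ hφ (PP_all φ hφ u hu hUP n)

end Vale.Agent.P002G
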