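import Mathlib

/-!
# Polynomial functions on complex vector spaces, rational functions, density
-/

namespace Vale.Agent.P002G

open Matrix

/-- The algebra of polynomial functions: generated by the linear functionals. -/
def polyAlg (V : Type*) [AddCommGroup V] [Module ℂ V] : Subalgebra ℂ (V → ℂ) :=
  Algebra.adjoin ℂ {f | ∃ l : V →ₗ[ℂ] ℂ, ⇑l = f}

variable {V W : Type*} [AddCommGroup V] [Module ℂ V] [AddCommGroup W] [Module ℂ W]

/-- Polynomial functions. -/
def IsPoly (f : V → ℂ) : Prop := f ∈ polyAlg V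

theorem isPoly_linear (l : V →ₗ[ℂ] ℂ) : IsPoly fun x => l x :=
  Algebra.subset_adjoin ⟨l, rfl⟩

theorem isPoly_const (c : ℂ) : IsPoly fun _ : V => c :=
  (polyAlg V).algebraMap_mem c

theorem IsPoly.add {f g : V → ℂ} (hf : IsPoly f) (hg : IsPoly g) : IsPoly fun x => f x + g x :=
  (polyAlg V).add_mem hf hg

theorem IsPoly.sub {f g : V → ℂ} (hf : IsPoly f) (hg : IsPoly g) : IsPoly fun x => f x - g x :=
  (polyAlg V).sub_mem hf hg

theorem IsPoly.neg {f : V → ℂ} (hf : IsPoly f) : IsPoly fun x => -f x :=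
  (polyAlg V).neg_mem hf

theorem IsPoly.mul {f g : V → ℂ} (hf : IsPoly f) (hg : IsPoly g) : IsPoly fun x => f x * g x :=
  (polyAlg V).mul_mem hf hg

theorem IsPoly.pow {f : V → ℂ} (hf : IsPoly f) (n : ℕ) : IsPoly fun x => f x ^ n :=
  (polyAlg V).pow_mem hf n

theorem IsPoly.sum {ι : Type*} (s : Finset ι) {f : ι → V → ℂ} (hf : ∀ i ∈ s, IsPoly (f i)) :
    IsPoly fun x => ∑ i ∈ s, f i x := by
  have := (polyAlg V).sum_mem hf
  unfold IsPoly
  convert this using 1
  ext x
  simp

theorem IsPoly.prod {ι : Type*} (s : Finset ι) {f : ι → V → ℂ} (hf : ∀ i ∈ s, IsPoly (f i)) :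
    IsPoly fun x => ∏ i ∈ s, f i x := by
  have := (polyAlg V).prod_mem hf
  unfold IsPoly
  convert this using 1
  ext x
  simp

theorem IsPoly.congr {f g : V → ℂ} (hf : IsPoly f) (h : ∀ x, f x = g x) : IsPoly g := by
  rwa [show g = f from funext fun x => (h x).symm]

/-- Quotients of polynomial functions by powers of `d` (as functions on `d ≠ 0`). -/
def IsRat (d f : V → ℂ) : Prop :=
  ∃ (M : ℕ) (g : V → ℂ), IsPoly g ∧ ∀ x, d x ≠ 0 → g x = d x ^ M * f x

theorem IsRat.mul {d f f' : V → ℂ} (hf : IsRat d f) (hf' : IsRat d f') :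
    IsRat d fun x => f x * f' x := by
  obtain ⟨M, g, hg, h⟩ := hf
  obtain ⟨M', g', hg', h'⟩ := hf'
  refine ⟨M + M', fun x => g x * g' x, hg.mul hg', fun x hx => ?_⟩
  beta_reduce
  rw [h x hx, h' x hx]
  ring

theorem IsRat.add {d f f' : V → ℂ} (hd : IsPoly d) (hf : IsRat d f) (hf' : IsRat d f') :
    IsRat d fun x => f x + f' x := by
  obtain ⟨M, g, hg, h⟩ := hf
  obtain ⟨M', g', hg', h'⟩ := hf'
  refine ⟨M + M', fun x => g x * d x ^ M' + g' x * d x ^ M,
    (hg.mul (hd.pow M')).add (hg'.mul (hd.pow M)), fun x hx => ?_⟩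
  beta_reduce
  rw [h x hx, h' x hx]
  ring

theorem IsPoly.isRat {d f : V → ℂ} (hf : IsPoly f) : IsRat d f :=
  ⟨0, f, hf, fun x _ => by simp⟩

theorem isRat_inv {d : V → ℂ} : IsRat d fun x => (d x)⁻¹ :=
  ⟨1, fun _ => 1, isPoly_const 1, fun x hx => by rw [pow_one, mul_inv_cancel₀ hx]⟩

theorem IsRat.congr {d f g : V → ℂ} (hf : IsRat d f) (h : ∀ x, d x ≠ 0 → f x = g x) :
    IsRat d g := by
  obtain ⟨M, G, hG, hG'⟩ := hf
  exact ⟨M, G, hG, fun x hx => by rw [hG' x hx, h x hx]⟩

theorem IsRat.sum {ι : Type*} {d : V → ℂ} (hd : IsPoly d) (s : Finset ι) {f : ι → V → ℂ}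
    (hf : ∀ i ∈ s, IsRat d (f i)) : IsRat d fun x => ∑ i ∈ s, f i x := by
  classical
  induction s using Finset.induction_on with
  | empty => simpa using (isPoly_const (V := V) 0).isRat
  | insert i s hi ih =>
    refine ((hf i (Finset.mem_insert_self i s)).add hd
      (ih fun j hj => hf j (Finset.mem_insert_of_mem hj))).congr fun x _ => ?_
    rw [Finset.sum_insert hi]

theorem IsRat.prod {ι : Type*} {d : V → ℂ} (s : Finset ι) {f : ι → V → ℂ}
    (hf : ∀ i ∈ s, IsRat d (f i)) : IsRat d fun x => ∏ i ∈ s, f i x := by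
  classical
  induction s using Finset.induction_on with
  | empty => simpa using (isPoly_const (V := V) 1).isRat
  | insert i s hi ih =>
    refine ((hf i (Finset.mem_insert_self i s)).mul
      (ih fun j hj => hf j (Finset.mem_insert_of_mem hj))).congr fun x _ => ?_
    rw [Finset.prod_insert hi]

/-- More denominators. -/
theorem IsRat.of_dvd {d e f : V → ℂ} (hf : IsRat d f) (c : V → ℂ) (hc : IsPoly c)
    (h : ∀ x, e x = c x * d x) : IsRat e f := by
  obtain ⟨M, g, hg, hg'⟩ := hf
  refine ⟨M, fun x => c x ^ M * g x, (hc.pow M).mul hg, fun x hx => ?_⟩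
  have hd : d x ≠ 0 := fun h0 => hx (by rw [h, h0, mul_zero])
  beta_reduce
  rw [hg' x hd, h, mul_pow, mul_assoc]

/-- A map is rational with denominators `d`. -/
def RatMap (d : V → ℂ) (ψ : V → W) : Prop :=
  ∀ l : W →ₗ[ℂ] ℂ, IsRat d fun x => l (ψ x)

/-- A map is polynomial. -/
def PolyMap (ψ : V → W) : Prop := ∀ l : W →ₗ[ℂ] ℂ, IsPoly fun x => l (ψ x)

theorem RatMap.comp {d : V → ℂ} (hd : IsPoly d) {ψ : V → W} (h : RatMap d ψ) {f : W → ℂ}
    (hf : IsPoly f) : IsRat d fun x => f (ψ x) := by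
  unfold IsPoly polyAlg at hf
  induction hf using Algebra.adjoin_induction with
  | mem f hf =>
    obtain ⟨l, rfl⟩ := hf
    exact h l
  | algebraMap c => exact (isPoly_const c).isRat
  | add f g _ _ hf hg => exact hf.add hd hg
  | mul f g _ _ hf hg => exact hf.mul hg

theorem PolyMap.comp {ψ : V → W} (h : PolyMap ψ) {f : W → ℂ} (hf : IsPoly f) :
    IsPoly fun x => f (ψ x) := by
  unfold IsPoly polyAlg at hf
  induction hf using Algebra.adjoin_induction with
  | mem f hf =>
    obtain ⟨l, rfl⟩ := hf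
    exact h l
  | algebraMap c => exact isPoly_const c
  | add f g _ _ hf hg => exact hf.add hg
  | mul f g _ _ hf hg => exact hf.mul hg

theorem PolyMap.ratMap {d : V → ℂ} {ψ : V → W} (h : PolyMap ψ) : RatMap d ψ :=
  fun l => (h l).isRat

theorem polyMap_linear (l : V →ₗ[ℂ] W) : PolyMap fun x => l x :=
  fun l' => isPoly_linear (l'.comp l)

theorem polyMap_const (w : W) : PolyMap fun _ : V => w := fun _ => isPoly_const _

theorem PolyMap.prodMk {X : Type*} [AddCommGroup X] [Module ℂ X] {ψ : V → W} {ψ' : V → X}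
    (h : PolyMap ψ) (h' : PolyMap ψ') : PolyMap fun x => (ψ x, ψ' x) := by
  intro l
  refine ((h (l.comp (LinearMap.inl ℂ W X))).add (h' (l.comp (LinearMap.inr ℂ W X)))).congr
    fun x => ?_
  simp [← map_add]

theorem RatMap.prodMk {X : Type*} [AddCommGroup X] [Module ℂ X] {d : V → ℂ} (hd : IsPoly d)
    {ψ : V → W} {ψ' : V → X} (h : RatMap d ψ) (h' : RatMap d ψ') :
    RatMap d fun x => (ψ x, ψ' x) := by
  intro l
  refine ((h (l.comp (LinearMap.inl ℂ W X))).add hd (h' (l.comp (LinearMap.inr ℂ W X)))).congr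
    fun x _ => ?_
  simp [← map_add]

theorem polyMap_pi {ι : Type*} [Finite ι] {ψ : V → ι → W}
    (h : ∀ i, PolyMap fun x => ψ x i) : PolyMap ψ := by
  classical
  have := Fintype.ofFinite ι
  intro l
  refine (IsPoly.sum Finset.univ (f := fun i x =>
    l.comp (LinearMap.single ℂ (fun _ : ι => W) i) (ψ x i)) fun i _ => h i _).congr fun x => ?_
  conv_rhs => rw [← Finset.univ_sum_single (ψ x)]
  rw [map_sum]
  rfl

theorem ratMap_pi {ι : Type*} [Finite ι] {d : V → ℂ} (hd : IsPoly d) {ψ : V → ι → W}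
    (h : ∀ i, RatMap d fun x => ψ x i) : RatMap d ψ := by
  classical
  have := Fintype.ofFinite ι
  intro l
  refine (IsRat.sum hd Finset.univ (f := fun i x =>
    l.comp (LinearMap.single ℂ (fun _ : ι => W) i) (ψ x i)) fun i _ => h i _).congr fun x _ => ?_
  conv_rhs => rw [← Finset.univ_sum_single (ψ x)]
  rw [map_sum]
  rfl

theorem lin_one (l : ℂ →ₗ[ℂ] ℂ) (z : ℂ) : l z = l 1 * z := by
  rw [mul_comm, ← smul_eq_mul z, ← map_smul, smul_eq_mul, mul_one]

theorem IsPoly.polyMap {f : V → ℂ} (hf : IsPoly f) : PolyMap f := fun l =>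
  ((isPoly_const (l 1)).mul hf).congr fun x => (lin_one l _).symm

theorem IsRat.ratMap {d f : V → ℂ} (hf : IsRat d f) : RatMap d f := fun l =>
  ((isPoly_const (l 1)).isRat.mul hf).congr fun x _ => (lin_one l _).symm

theorem isPoly_coord {ι : Type*} (i : ι) : IsPoly fun x : ι → ℂ => x i :=
  isPoly_linear (LinearMap.proj (R := ℂ) (φ := fun _ : ι => ℂ) i)

/-! ### Matrices -/

section matrices

variable {m n k : Type*} [Finite m] [Finite n]

theorem polyMap_matrix {ψ : V → Matrix m n ℂ} (h : ∀ i j, IsPoly fun x => ψ x i j) :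
    PolyMap ψ :=
  polyMap_pi fun i => polyMap_pi fun j => (h i j).polyMap

theorem ratMap_matrix {d : V → ℂ} (hd : IsPoly d) {ψ : V → Matrix m n ℂ}
    (h : ∀ i j, IsRat d fun x => ψ x i j) : RatMap d ψ :=
  ratMap_pi hd fun i => ratMap_pi hd fun j => (h i j).ratMap

omit [Finite m] [Finite n] in
theorem PolyMap.entry {ψ : V → Matrix m n ℂ} (h : PolyMap ψ) (i : m) (j : n) :
    IsPoly fun x => ψ x i j :=
  h ((LinearMap.proj j).comp (LinearMap.proj i : Matrix m n ℂ →ₗ[ℂ] n → ℂ))

omit [Finite m] [Finite n] in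
theorem RatMap.entry {d : V → ℂ} {ψ : V → Matrix m n ℂ} (h : RatMap d ψ) (i : m) (j : n) :
    IsRat d fun x => ψ x i j :=
  h ((LinearMap.proj j).comp (LinearMap.proj i : Matrix m n ℂ →ₗ[ℂ] n → ℂ))

omit [Finite m] in
theorem PolyMap.coord {ψ : V → m → ℂ} (h : PolyMap ψ) (i : m) : IsPoly fun x => ψ x i :=
  h (LinearMap.proj (R := ℂ) (φ := fun _ : m => ℂ) i)

omit [Finite m] in
theorem RatMap.coord {d : V → ℂ} {ψ : V → m → ℂ} (h : RatMap d ψ) (i : m) :
    IsRat d fun x => ψ x i :=
  h (LinearMap.proj (R := ℂ) (φ := fun _ : m => ℂ) i)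

theorem IsPoly.matrix_mul [Fintype k] {A : V → Matrix m k ℂ} {B : V → Matrix k n ℂ}
    (hA : PolyMap A) (hB : PolyMap B) : PolyMap fun x => A x * B x :=
  polyMap_matrix fun i j => by
    simp only [Matrix.mul_apply]
    exact IsPoly.sum _ fun l _ => (hA.entry i l).mul (hB.entry l j)

theorem IsRat.matrix_mul [Fintype k] {d : V → ℂ} (hd : IsPoly d) {A : V → Matrix m k ℂ}
    {B : V → Matrix k n ℂ} (hA : RatMap d A) (hB : RatMap d B) : RatMap d fun x => A x * B x :=
  ratMap_matrix hd fun i j => by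
    simp only [Matrix.mul_apply]
    exact IsRat.sum hd _ fun l _ => (hA.entry i l).mul (hB.entry l j)

end matrices

section square

variable {n : Type*} [Fintype n] [DecidableEq n]

theorem isPoly_det {A : V → Matrix n n ℂ} (hA : PolyMap A) : IsPoly fun x => (A x).det := by
  simp only [Matrix.det_apply']
  exact IsPoly.sum _ fun σ _ => (isPoly_const _).mul (IsPoly.prod _ fun i _ => hA.entry _ _)

theorem isRat_det {d : V → ℂ} (hd : IsPoly d) {A : V → Matrix n n ℂ} (hA : RatMap d A) :
    IsRat d fun x => (A x).det := by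
  simp only [Matrix.det_apply']
  exact IsRat.sum hd _ fun σ _ => (isPoly_const _).isRat.mul (IsRat.prod _ fun i _ => hA.entry _ _)

theorem polyMap_adjugate {A : V → Matrix n n ℂ} (hA : PolyMap A) :
    PolyMap fun x => (A x).adjugate :=
  polyMap_matrix fun i j => by
    simp only [Matrix.adjugate_apply]
    refine isPoly_det (polyMap_matrix fun a b => ?_)
    by_cases h : a = j
    · subst h
      simp only [Matrix.updateRow_self]
      exact isPoly_const _
    · simp only [Matrix.updateRow_ne h]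
      exact hA.entry a b

theorem ratMap_inv {A : V → Matrix n n ℂ} (hA : PolyMap A) :
    RatMap (fun x => (A x).det) fun x => (A x)⁻¹ := by
  refine ratMap_matrix (isPoly_det hA) fun i j => ?_
  refine (isRat_inv.mul ((polyMap_adjugate hA).entry i j).isRat).congr fun x hx => ?_
  rw [Matrix.inv_def, Ring.inverse_eq_inv', Matrix.smul_apply, smul_eq_mul]

theorem ratMap_inv' {d : V → ℂ} (hd : IsPoly d) {A : V → Matrix n n ℂ} (hA : RatMap d A)
    (h : IsRat d fun x => ((A x).det)⁻¹) : RatMap d fun x => (A x)⁻¹ := by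
  refine ratMap_matrix hd fun i j => ?_
  have h1 : IsRat d fun x => (A x).adjugate i j := by
    simp only [Matrix.adjugate_apply]
    refine isRat_det hd (ratMap_matrix hd fun a b => ?_)
    by_cases h : a = j
    · subst h
      simp only [Matrix.updateRow_self]
      exact (isPoly_const _).isRat
    · simp only [Matrix.updateRow_ne h]
      exact hA.entry a b
  refine (h.mul h1).congr fun x hx => ?_
  rw [Matrix.inv_def, Ring.inverse_eq_inv', Matrix.smul_apply, smul_eq_mul]

theorem polyMap_pow {A : V → Matrix n n ℂ} (hA : PolyMap A) (k : ℕ) :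
    PolyMap fun x => A x ^ k := by
  induction k with
  | zero => simpa using polyMap_const (V := V) (1 : Matrix n n ℂ)
  | succ k ih =>
    simp only [pow_succ]
    exact IsPoly.matrix_mul ih hA

omit [DecidableEq n] in
theorem polyMap_mulVec {m : Type*} [Finite m] {A : V → Matrix m n ℂ} {v : V → n → ℂ}
    (hA : PolyMap A) (hv : PolyMap v) : PolyMap fun x => A x *ᵥ v x :=
  polyMap_pi fun i => (IsPoly.sum _ fun j _ => (hA.entry i j).mul (hv.coord j)).polyMap

end square

/-! ### Zeros -/

/-- Polynomial functions of one variable. -/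
theorem IsPoly.exists_poly {f : ℂ → ℂ} (hf : IsPoly f) :
    ∃ p : Polynomial ℂ, ∀ x, f x = p.eval x := by
  unfold IsPoly polyAlg at hf
  induction hf using Algebra.adjoin_induction with
  | mem f hf =>
    obtain ⟨l, rfl⟩ := hf
    refine ⟨Polynomial.C (l 1) * Polynomial.X, fun x => ?_⟩
    rw [Polynomial.eval_mul, Polynomial.eval_C, Polynomial.eval_X]
    exact lin_one l x
  | algebraMap c => exact ⟨Polynomial.C c, fun x => by simp⟩
  | add f g _ _ hf hg =>
    obtain ⟨p, hp⟩ := hf
    obtain ⟨q, hq⟩ := hg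
    exact ⟨p + q, fun x => by rw [Pi.add_apply, hp, hq, Polynomial.eval_add]⟩
  | mul f g _ _ hf hg =>
    obtain ⟨p, hp⟩ := hf
    obtain ⟨q, hq⟩ := hg
    exact ⟨p * q, fun x => by rw [Pi.mul_apply, hp, hq, Polynomial.eval_mul]⟩

theorem IsPoly.eq_zero_of_infinite {f : ℂ → ℂ} (hf : IsPoly f) (s : Set ℂ) (hs : s.Infinite)
    (h : ∀ x ∈ s, f x = 0) (x : ℂ) : f x = 0 := by
  obtain ⟨p, hp⟩ := hf.exists_poly
  have : p = 0 := by
    apply Polynomial.eq_zero_of_infinite_isRoot
    refine hs.mono fun y hy => ?_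
    change p.eval y = 0
    rw [← hp]
    exact h y hy
  rw [hp, this, Polynomial.eval_zero]

/-- The line through two points is a polynomial map. -/
theorem polyMap_line (x y : V) : PolyMap fun t : ℂ => x + t • (y - x) := by
  intro l
  refine ((isPoly_const (l x)).add ((isPoly_linear LinearMap.id).mul
    (isPoly_const (l (y - x))))).congr fun t => ?_
  rw [map_add, map_smul, smul_eq_mul]
  rfl

/-- Products of polynomial functions. -/
theorem IsPoly.eq_zero_of_mul {f g : V → ℂ} (hf : IsPoly f) (hg : IsPoly g)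
    (h : ∀ x, f x * g x = 0) (y : V) (hy : g y ≠ 0) (x : V) : f x = 0 := by
  have h1 := (polyMap_line x y).comp hf
  have h2 := (polyMap_line x y).comp hg
  obtain ⟨p, hp⟩ := h1.exists_poly
  obtain ⟨q, hq⟩ := h2.exists_poly
  have h3 : p * q = 0 := by
    apply Polynomial.funext
    intro t
    rw [Polynomial.eval_mul, ← hp, ← hq, h, Polynomial.eval_zero]
  rcases mul_eq_zero.1 h3 with h4 | h4
  · have := hp 0
    rw [h4, Polynomial.eval_zero, zero_smul, add_zero] at this
    exact this
  · exfalso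
    have := hq 1
    rw [h4, Polynomial.eval_zero, one_smul, add_sub_cancel] at this
    exact hy this

/-- A polynomial function on `ι → ℂ` that vanishes on a product of infinite sets is zero. -/
theorem IsPoly.eq_zero_of_pi {ι : Type*} [Finite ι] {f : (ι → ℂ) → ℂ} (hf : IsPoly f)
    (s : ι → Set ℂ) (hs : ∀ i, (s i).Infinite) (h : ∀ x, (∀ i, x i ∈ s i) → f x = 0)
    (x : ι → ℂ) : f x = 0 := by
  classical
  have := Fintype.ofFinite ι
  have key : ∀ (t : Finset ι) (x : ι → ℂ), (∀ i, i ∉ t → x i ∈ s i) → f x = 0 := by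
    intro t
    induction t using Finset.induction_on with
    | empty => exact fun x hx => h x fun i => hx i (Finset.notMem_empty i)
    | insert j t hj ih =>
      intro x hx
      have hm : PolyMap fun z : ℂ => Function.update x j z := by
        apply polyMap_pi
        intro i
        by_cases hij : i = j
        · subst hij
          simp only [Function.update_self]
          exact polyMap_linear LinearMap.id
        · simp only [Function.update_of_ne hij]
          exact (isPoly_const _).polyMap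
      have := (hm.comp hf).eq_zero_of_infinite (s j) (hs j) (fun z hz => ?_) (x j)
      · simpa using this
      · apply ih
        intro i hi
        by_cases hij : i = j
        · subst hij
          simpa using hz
        · rw [Function.update_of_ne hij]
          exact hx i fun h' => by
            rcases Finset.mem_insert.1 h' with h' | h'
            · exact hij h'
            · exact hi h'
  exact key Finset.univ x fun i hi => absurd (Finset.mem_univ i) hi

/-- The main extension lemma: a polynomial function along a rational family, which vanishes on a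
product of infinite sets (outside of a divisor), vanishes on the whole family. -/
theorem vanish_family {ι : Type*} [Finite ι] {d : (ι → ℂ) → ℂ} (hd : IsPoly d)
    {ψ : (ι → ℂ) → W} (hψ : RatMap d ψ) {F : W → ℂ} (hF : IsPoly F)
    (e : (ι → ℂ) → ℂ) (he : IsPoly e) (y : ι → ℂ) (hy : e y ≠ 0)
    (s : ι → Set ℂ) (hs : ∀ i, (s i).Infinite)
    (h : ∀ x, (∀ i, x i ∈ s i) → d x ≠ 0 → e x ≠ 0 → F (ψ x) = 0)
    (x : ι → ℂ) (hx : d x ≠ 0) : F (ψ x) = 0 := by
  obtain ⟨M, g, hg, hgx⟩ := hψ.comp hd hF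
  have h1 : ∀ x, (g x * d x) * e x = 0 := by
    apply ((hg.mul hd).mul he).eq_zero_of_pi s hs
    intro x hx
    by_cases h2 : d x = 0
    · rw [h2]; ring
    by_cases h3 : e x = 0
    · rw [h3]; ring
    rw [hgx x h2]
    beta_reduce
    rw [h x hx h2 h3]
    ring
  have h2 := (hg.mul hd).eq_zero_of_mul he h1 y hy x
  rw [hgx x hx] at h2
  rcases mul_eq_zero.1 h2 with h3 | h3
  · rcases mul_eq_zero.1 h3 with h4 | h4
    · exact absurd h4 (pow_ne_zero _ hx)
    · exact h4
  · exact absurd h3 hx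

/-- Transfer of a density statement along a rational map. -/
theorem vanish_image {S T : Set V} (hST : ∀ f : V → ℂ, IsPoly f → (∀ x ∈ S, f x = 0) →
    ∀ x ∈ T, f x = 0) {d : V → ℂ} (hd : IsPoly d) {ψ : V → W} (hψ : RatMap d ψ)
    {F : W → ℂ} (hF : IsPoly F) (hdS : ∀ x ∈ S, d x ≠ 0) (h : ∀ x ∈ S, F (ψ x) = 0)
    (x : V) (hxT : x ∈ T) (hx : d x ≠ 0) : F (ψ x) = 0 := by
  obtain ⟨M, g, hg, hgx⟩ := hψ.comp hd hF
  have h1 := hST g hg (fun y hy => by
    rw [hgx y (hdS y hy)]
    beta_reduce
    rw [h y hy, mul_zero]) x hxT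
  rw [hgx x hx] at h1
  rcases mul_eq_zero.1 h1 with h4 | h4
  · exact absurd h4 (pow_ne_zero _ hx)
  · exact h4

/-- Polynomials in several variables define polynomial functions. -/
theorem isPoly_mvPoly {σ : Type*} (F : MvPolynomial σ ℂ) :
    IsPoly fun x : σ → ℂ => MvPolynomial.eval x F := by
  induction F using MvPolynomial.induction_on with
  | C a => simpa using isPoly_const (V := σ → ℂ) a
  | add p q hp hq => simpa using hp.add hq
  | mul_X p i hp => simpa using hp.mul (isPoly_coord i)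

end Vale.Agent.P002G
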