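import Vale.Agent.P002G.Poly
import Vale.Agent.P002G.Cell

/-!
# Rational dependence of characteristic polynomials, Krylov systems and cell coordinates
-/

namespace Vale.Agent.P002G

open Matrix Polynomial

variable {V W : Type*} [AddCommGroup V] [Module ℂ V] [AddCommGroup W] [Module ℂ W]

theorem IsRat.isPoly_of_one {f : V → ℂ} (h : IsRat (fun _ => 1) f) : IsPoly f := by
  obtain ⟨M, g, hg, hgx⟩ := h
  refine hg.congr fun x => ?_
  rw [hgx x one_ne_zero]
  simp

theorem RatMap.polyMap_of_one {ψ : V → W} (h : RatMap (fun _ => 1) ψ) : PolyMap ψ :=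
  fun l => (h l).isPoly_of_one

theorem IsRat.neg {d f : V → ℂ} (hf : IsRat d f) : IsRat d fun x => -f x := by
  refine ((isPoly_const (-1)).isRat.mul hf).congr fun x _ => ?_
  ring

theorem IsRat.sub {d f g : V → ℂ} (hd : IsPoly d) (hf : IsRat d f) (hg : IsRat d g) :
    IsRat d fun x => f x - g x := by
  refine (hf.add hd hg.neg).congr fun x _ => ?_
  ring

theorem ratMap_const {d : V → ℂ} (w : W) : RatMap d fun _ : V => w :=
  (polyMap_const w).ratMap

section mats

variable {n : Type*} [Fintype n] {d : V → ℂ}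

theorem ratMap_mulVec (hd : IsPoly d) {m : Type*} [Finite m] {A : V → Matrix m n ℂ}
    {v : V → n → ℂ} (hA : RatMap d A) (hv : RatMap d v) : RatMap d fun x => A x *ᵥ v x :=
  ratMap_pi hd fun i =>
    (IsRat.sum hd _ fun j _ => (hA.entry i j).mul (hv.coord j)).ratMap

theorem ratMap_vecMul (hd : IsPoly d) {m : Type*} [Finite m] {A : V → Matrix n m ℂ}
    {v : V → n → ℂ} (hA : RatMap d A) (hv : RatMap d v) : RatMap d fun x => v x ᵥ* A x :=
  ratMap_pi hd fun i =>
    (IsRat.sum hd _ fun j _ => (hv.coord j).mul (hA.entry j i)).ratMap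

theorem ratMap_pow (hd : IsPoly d) [DecidableEq n] {A : V → Matrix n n ℂ} (hA : RatMap d A)
    (k : ℕ) : RatMap d fun x => A x ^ k := by
  induction k with
  | zero => simpa using ratMap_const (V := V) (d := d) (1 : Matrix n n ℂ)
  | succ k ih =>
    simp only [pow_succ]
    exact IsRat.matrix_mul hd ih hA

end mats

/-- Families of polynomials with rational coefficients. -/
def RatC (d : V → ℂ) (f : V → ℂ[X]) : Prop := ∀ i, IsRat d fun x => (f x).coeff i

section ratC

variable {d : V → ℂ}

theorem RatC.mul (hd : IsPoly d) {f g : V → ℂ[X]} (hf : RatC d f) (hg : RatC d g) :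
    RatC d fun x => f x * g x := fun i => by
  simp only [Polynomial.coeff_mul]
  exact IsRat.sum hd _ fun p _ => (hf p.1).mul (hg p.2)

theorem RatC.sub (hd : IsPoly d) {f g : V → ℂ[X]} (hf : RatC d f) (hg : RatC d g) :
    RatC d fun x => f x - g x := fun i => by
  simp only [Polynomial.coeff_sub]
  exact (hf i).sub hd (hg i)

theorem ratC_const (p : ℂ[X]) : RatC d fun _ => p := fun _ => (isPoly_const _).isRat

theorem ratC_C {f : V → ℂ} (hf : IsRat d f) : RatC d fun x => C (f x) := fun i => by
  by_cases h : i = 0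
  · subst h
    simpa using hf
  · simp only [Polynomial.coeff_C, if_neg h]
    exact (isPoly_const _).isRat

theorem RatC.sum (hd : IsPoly d) {ι : Type*} (s : Finset ι) {f : ι → V → ℂ[X]}
    (hf : ∀ i ∈ s, RatC d (f i)) : RatC d fun x => ∑ i ∈ s, f i x := fun j => by
  simp only [Polynomial.finsetSum_coeff]
  exact IsRat.sum hd _ fun i hi => hf i hi j

theorem RatC.prod (hd : IsPoly d) {ι : Type*} (s : Finset ι) {f : ι → V → ℂ[X]}
    (hf : ∀ i ∈ s, RatC d (f i)) : RatC d fun x => ∏ i ∈ s, f i x := by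
  classical
  induction s using Finset.induction_on with
  | empty => simpa using ratC_const (V := V) (d := d) 1
  | insert i s hi ih =>
    simp only [Finset.prod_insert hi]
    exact RatC.mul hd (hf i (Finset.mem_insert_self i s))
      (ih fun j hj => hf j (Finset.mem_insert_of_mem hj))

theorem ratC_charpoly (hd : IsPoly d) {n : Type*} [Fintype n] [DecidableEq n]
    {A : V → Matrix n n ℂ} (hA : RatMap d A) : RatC d fun x => (A x).charpoly := by
  have h1 : ∀ i j, RatC d fun x => (A x).charmatrix i j := by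
    intro i j
    by_cases h : i = j
    · subst h
      simp only [Matrix.charmatrix_apply_eq]
      exact RatC.sub hd (ratC_const _) (ratC_C (hA.entry i i))
    · simp only [Matrix.charmatrix_apply_ne _ _ _ h]
      intro k
      simp only [Polynomial.coeff_neg]
      exact (ratC_C (hA.entry i j) k).neg
  simp only [Matrix.charpoly, Matrix.det_apply']
  exact RatC.sum hd _ fun σ _ => RatC.mul hd (ratC_const _) (RatC.prod hd _ fun i _ => h1 _ _)

variable {n : ℕ}

theorem ratMap_WW (hd : IsPoly d) {N : V → Matrix (Fin n) (Fin n) ℂ} {b : V → Fin n → ℂ}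
    (hN : RatMap d N) (hb : RatMap d b) : RatMap d fun x => WW (N x) (b x) :=
  ratMap_matrix hd fun j k => by
    simp only [WW, Matrix.of_apply, wp_coeff]
    exact IsRat.sum hd _ fun m _ => (ratC_charpoly hd hN _).mul
      ((ratMap_mulVec hd (ratMap_pow hd hN m) hb).coord k)

theorem ratMap_aOf (hd : IsPoly d) {N : V → Matrix (Fin n) (Fin n) ℂ} {b : V → Fin n → ℂ}
    {q : V → ℂ} {χ : V → ℂ[X]} (hN : RatMap d N) (hb : RatMap d b) (hq : IsRat d q)
    (hχ : RatC d χ) (hdet : IsRat d fun x => (WW (N x) (b x)).det⁻¹) :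
    RatMap d fun x => aOf (χ x) (q x) (N x) (b x) :=
  ratMap_mulVec hd (ratMap_inv' hd (ratMap_WW hd hN hb) hdet) (ratMap_pi hd fun j =>
    (RatC.sub hd (RatC.mul hd (ratC_charpoly hd hN) (RatC.sub hd (ratC_const _) (ratC_C hq))) hχ
      _).ratMap)

theorem ratMap_uU (hd : IsPoly d) {X : V → Matrix (Fin n) (Fin n) ℂ} (hX : RatMap d X) :
    RatMap d fun x => uU (X x) :=
  ratMap_matrix hd fun i j => by
    simp only [uU, Matrix.of_apply]
    split_ifs
    · exact (isPoly_const _).isRat
    · exact hX.entry i j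
    · exact (isPoly_const _).isRat

theorem ratMap_lL (hd : IsPoly d) {X : V → Matrix (Fin n) (Fin n) ℂ} (hX : RatMap d X) :
    RatMap d fun x => lL (X x) :=
  ratMap_matrix hd fun i j => by
    simp only [lL, Matrix.of_apply]
    split_ifs
    · exact hX.entry i j
    · exact (isPoly_const _).isRat

theorem ratMap_zZ (hd : IsPoly d) {X : V → Matrix (Fin n) (Fin n) ℂ} (hX : RatMap d X) :
    RatMap d fun x => zZ (X x) :=
  IsRat.matrix_mul hd (ratMap_uU hd hX) (ratMap_lL hd hX)

theorem ratMap_bcons (hd : IsPoly d) {X : V → Matrix (Fin n) (Fin n) ℂ} {q : V → ℂ}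
    {u l : V → Fin n → ℂ} (hX : RatMap d X) (hq : IsRat d q) (hu : RatMap d u)
    (hl : RatMap d l) : RatMap d fun x => bcons (q x) (u x) (l x) (X x) :=
  ratMap_matrix hd fun i j => by
    refine Fin.cases ?_ (fun i => ?_) i <;> refine Fin.cases ?_ (fun j => ?_) j
    · exact hq
    · exact hu.coord j
    · exact hl.coord i
    · exact hX.entry i j

end ratC

end Vale.Agent.P002G
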