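import Vale.Agent.P002G.Poly
import Vale.Agent.P002R.ZCell

/-!
# Integral points of arbitrary conjugacy classes with unit lower right minors
-/

namespace Vale.Agent.P002G

open Matrix
open Vale.Agent.P002R (UpT LoT upT_one loT_one)

variable {n m p : ℕ} {S T : Type*} [CommRing S] [CommRing T]

/-- Products (upper unitriangular) * (lower triangular with unit diagonal). -/
def InC (Z : Matrix (Fin n) (Fin n) S) : Prop :=
  ∃ U L : Matrix (Fin n) (Fin n) S, UpT U ∧ (∀ i, U i i = 1) ∧ LoT L ∧ (∀ i, IsUnit (L i i)) ∧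
    Z = U * L

theorem isUnit_of_upT {U : Matrix (Fin n) (Fin n) S} (hU : UpT U) (h : ∀ i, U i i = 1) :
    IsUnit U := by
  rw [Matrix.isUnit_iff_isUnit_det, hU.det]
  simp [h]

theorem isUnit_of_loT {L : Matrix (Fin n) (Fin n) S} (hL : LoT L) (h : ∀ i, IsUnit (L i i)) :
    IsUnit L := by
  rw [Matrix.isUnit_iff_isUnit_det, hL.det, IsUnit.prod_univ_iff]
  exact h

theorem InC.isUnit {Z : Matrix (Fin n) (Fin n) S} (h : InC Z) : IsUnit Z := by
  obtain ⟨U, L, hU, hU1, hL, hL1, rfl⟩ := h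
  exact (isUnit_of_upT hU hU1).mul (isUnit_of_loT hL hL1)

theorem inC_one : InC (1 : Matrix (Fin n) (Fin n) S) :=
  ⟨1, 1, upT_one, fun i => Matrix.one_apply_eq i, loT_one, fun i => by
    rw [Matrix.one_apply_eq]; exact isUnit_one, (one_mul 1).symm⟩

theorem InC.mul_up {Z A : Matrix (Fin n) (Fin n) S} (h : InC Z) (hA : UpT A)
    (hA1 : ∀ i, A i i = 1) : InC (A * Z) := by
  obtain ⟨U, L, hU, hU1, hL, hL1, rfl⟩ := h
  exact ⟨A * U, L, hA.mul hU, fun i => by rw [hA.mul_diag hU, hA1, hU1, one_mul], hL, hL1,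
    (mul_assoc A U L).symm⟩

theorem InC.mul_low {Z B : Matrix (Fin n) (Fin n) S} (h : InC Z) (hB : LoT B)
    (hB1 : ∀ i, IsUnit (B i i)) : InC (Z * B) := by
  obtain ⟨U, L, hU, hU1, hL, hL1, rfl⟩ := h
  exact ⟨U, L * B, hU, hU1, hL.mul hB, fun i => by rw [hL.mul_diag hB]; exact (hL1 i).mul (hB1 i),
    mul_assoc U L B⟩

theorem InC.smul {Z : Matrix (Fin n) (Fin n) S} (h : InC Z) {c : S} (hc : IsUnit c) :
    InC (c • Z) := by
  obtain ⟨U, L, hU, hU1, hL, hL1, rfl⟩ := h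
  refine ⟨U, c • L, hU, hU1, fun i j hij => ?_, fun i => ?_, (Matrix.mul_smul U c L).symm⟩
  · rw [Matrix.smul_apply, hL i j hij, smul_zero]
  · rw [Matrix.smul_apply, smul_eq_mul]
    exact hc.mul (hL1 i)

/-- Bordering. -/
theorem InC.bord {Z : Matrix (Fin (n + 1)) (Fin (n + 1)) S}
    (hN : InC (Z.submatrix Fin.succ Fin.succ)) (hd : IsUnit Z) : InC Z := by
  obtain ⟨U, L, hU, hU1, hL, hL1, hUL⟩ := hN
  have hUu := (Matrix.isUnit_iff_isUnit_det _).1 (isUnit_of_upT hU hU1)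
  have hLu := (Matrix.isUnit_iff_isUnit_det _).1 (isUnit_of_loT hL hL1)
  obtain ⟨u, hu⟩ : ∃ u : Fin n → S, u ᵥ* L = fun j => Z 0 j.succ :=
    ⟨(fun j => Z 0 j.succ) ᵥ* L⁻¹, by
      rw [Matrix.vecMul_vecMul, Matrix.nonsing_inv_mul _ hLu, Matrix.vecMul_one]⟩
  obtain ⟨l, hl⟩ : ∃ l : Fin n → S, U *ᵥ l = fun i => Z i.succ 0 :=
    ⟨U⁻¹ *ᵥ (fun i => Z i.succ 0), by
      rw [Matrix.mulVec_mulVec, Matrix.mul_nonsing_inv _ hUu, Matrix.one_mulVec]⟩
  obtain ⟨U', hU'⟩ : ∃ U' : Matrix (Fin (n + 1)) (Fin (n + 1)) S, U' =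
      Matrix.of (Fin.cons (Fin.cons 1 u) fun i => Fin.cons 0 (U i)) := ⟨_, rfl⟩
  obtain ⟨L', hL'⟩ : ∃ L' : Matrix (Fin (n + 1)) (Fin (n + 1)) S, L' =
      Matrix.of (Fin.cons (Fin.cons (Z 0 0 - u ⬝ᵥ l) 0) fun i => Fin.cons (l i) (L i)) := ⟨_, rfl⟩
  have hU00 : U' 0 0 = 1 := by rw [hU']; rfl
  have hU0s : ∀ j, U' 0 (Fin.succ j) = u j := fun j => by rw [hU']; rfl
  have hUs0 : ∀ i, U' (Fin.succ i) 0 = 0 := fun i => by rw [hU']; rfl
  have hUss : ∀ i j, U' (Fin.succ i) (Fin.succ j) = U i j := fun i j => by rw [hU']; rfl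
  have hL00 : L' 0 0 = Z 0 0 - u ⬝ᵥ l := by rw [hL']; rfl
  have hL0s : ∀ j, L' 0 (Fin.succ j) = 0 := fun j => by rw [hL']; rfl
  have hLs0 : ∀ i, L' (Fin.succ i) 0 = l i := fun i => by rw [hL']; rfl
  have hLss : ∀ i j, L' (Fin.succ i) (Fin.succ j) = L i j := fun i j => by rw [hL']; rfl
  have hZ : Z = U' * L' := by
    ext i j
    rw [Matrix.mul_apply, Fin.sum_univ_succ]
    refine Fin.cases ?_ (fun i => ?_) i
    · refine Fin.cases ?_ (fun j => ?_) j
      · rw [hU00, hL00]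
        simp only [hU0s, hLs0]
        rw [one_mul]
        exact (sub_add_cancel _ _).symm
      · rw [hU00, hL0s]
        simp only [hU0s, hLss]
        rw [mul_zero, zero_add]
        exact (congrFun hu j).symm
    · refine Fin.cases ?_ (fun j => ?_) j
      · rw [hUs0, zero_mul, zero_add]
        simp only [hUss, hLs0]
        exact (congrFun hl i).symm
      · rw [hUs0, zero_mul, zero_add]
        simp only [hUss, hLss]
        have h1 := congrFun (congrFun hUL i) j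
        rw [Matrix.mul_apply] at h1
        rw [← h1, Matrix.submatrix_apply]
  have hUt : UpT U' := by
    intro i j hij
    revert hij
    refine Fin.cases ?_ (fun i => ?_) i
    · intro hij; exact absurd hij (Fin.not_lt_zero j)
    · refine Fin.cases ?_ (fun j => ?_) j
      · intro _; exact hUs0 i
      · intro hij; rw [hUss]; exact hU i j (Fin.succ_lt_succ_iff.1 hij)
  have hLt : LoT L' := by
    intro i j hij
    revert hij
    refine Fin.cases ?_ (fun j => ?_) j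
    · intro hij; exact absurd hij (Fin.not_lt_zero i)
    · refine Fin.cases ?_ (fun i => ?_) i
      · intro _; exact hL0s j
      · intro hij; rw [hLss]; exact hL i j (Fin.succ_lt_succ_iff.1 hij)
  have hU1' : ∀ i, U' i i = 1 := by
    intro i
    refine Fin.cases hU00 (fun i => ?_) i
    rw [hUss, hU1]
  refine ⟨U', L', hUt, hU1', hLt, ?_, hZ⟩
  have h1 : IsUnit L' := by
    have h2 : IsUnit (U' * L') := hZ ▸ hd
    rw [Matrix.isUnit_iff_isUnit_det, Matrix.det_mul] at h2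
    rw [Matrix.isUnit_iff_isUnit_det]
    exact isUnit_of_mul_isUnit_right h2
  rw [Matrix.isUnit_iff_isUnit_det, hLt.det, IsUnit.prod_univ_iff] at h1
  exact h1

theorem InC.map (φ : S →+* T) {Z : Matrix (Fin n) (Fin n) S} (h : InC Z) : InC (Z.map φ) := by
  obtain ⟨U, L, hU, hU1, hL, hL1, rfl⟩ := h
  refine ⟨U.map φ, L.map φ, fun i j h => ?_, fun i => ?_, fun i j h => ?_, fun i => ?_,
    Matrix.map_mul⟩
  · rw [Matrix.map_apply, hU i j h, map_zero]
  · rw [Matrix.map_apply, hU1, map_one]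
  · rw [Matrix.map_apply, hL i j h, map_zero]
  · rw [Matrix.map_apply]; exact (hL1 i).map φ

/-! ### Blocks -/

/-- Block matrices. -/
def blk (A : Matrix (Fin m) (Fin m) S) (B : Matrix (Fin m) (Fin p) S)
    (C : Matrix (Fin p) (Fin m) S) (D : Matrix (Fin p) (Fin p) S) :
    Matrix (Fin (m + p)) (Fin (m + p)) S :=
  (Matrix.fromBlocks A B C D).submatrix finSumFinEquiv.symm finSumFinEquiv.symm

theorem blk_mul (A : Matrix (Fin m) (Fin m) S) (B : Matrix (Fin m) (Fin p) S)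
    (C : Matrix (Fin p) (Fin m) S) (D : Matrix (Fin p) (Fin p) S)
    (A' : Matrix (Fin m) (Fin m) S) (B' : Matrix (Fin m) (Fin p) S)
    (C' : Matrix (Fin p) (Fin m) S) (D' : Matrix (Fin p) (Fin p) S) :
    blk A B C D * blk A' B' C' D' =
      blk (A * A' + B * C') (A * B' + B * D') (C * A' + D * C') (C * B' + D * D') := by
  rw [blk, blk, blk, Matrix.submatrix_mul_equiv, Matrix.fromBlocks_multiply]

theorem blk_one : blk (1 : Matrix (Fin m) (Fin m) S) 0 0 (1 : Matrix (Fin p) (Fin p) S) = 1 := by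
  rw [blk, Matrix.fromBlocks_one, Matrix.submatrix_one_equiv]

omit [CommRing S] in
theorem blk_apply₁₁ (A : Matrix (Fin m) (Fin m) S) (B : Matrix (Fin m) (Fin p) S)
    (C : Matrix (Fin p) (Fin m) S) (D : Matrix (Fin p) (Fin p) S) (i j) :
    blk A B C D (Fin.castAdd p i) (Fin.castAdd p j) = A i j := by
  simp [blk]

omit [CommRing S] in
theorem blk_apply₁₂ (A : Matrix (Fin m) (Fin m) S) (B : Matrix (Fin m) (Fin p) S)
    (C : Matrix (Fin p) (Fin m) S) (D : Matrix (Fin p) (Fin p) S) (i j) :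
    blk A B C D (Fin.castAdd p i) (Fin.natAdd m j) = B i j := by
  simp [blk]

omit [CommRing S] in
theorem blk_apply₂₁ (A : Matrix (Fin m) (Fin m) S) (B : Matrix (Fin m) (Fin p) S)
    (C : Matrix (Fin p) (Fin m) S) (D : Matrix (Fin p) (Fin p) S) (i j) :
    blk A B C D (Fin.natAdd m i) (Fin.castAdd p j) = C i j := by
  simp [blk]

omit [CommRing S] in
theorem blk_apply₂₂ (A : Matrix (Fin m) (Fin m) S) (B : Matrix (Fin m) (Fin p) S)
    (C : Matrix (Fin p) (Fin m) S) (D : Matrix (Fin p) (Fin p) S) (i j) :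
    blk A B C D (Fin.natAdd m i) (Fin.natAdd m j) = D i j := by
  simp [blk]

theorem upT_blk {A : Matrix (Fin m) (Fin m) S} (B : Matrix (Fin m) (Fin p) S)
    {D : Matrix (Fin p) (Fin p) S} (hA : UpT A) (hD : UpT D) : UpT (blk A B 0 D) := by
  intro i j
  refine Fin.addCases (fun i => ?_) (fun i => ?_) i <;>
    refine Fin.addCases (fun j => ?_) (fun j => ?_) j
  · intro h
    rw [blk_apply₁₁]
    exact hA i j (by rwa [Fin.lt_def, Fin.val_castAdd, Fin.val_castAdd] at h)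
  · intro h
    exfalso
    rw [Fin.lt_def, Fin.val_natAdd, Fin.val_castAdd] at h
    have := i.2
    omega
  · intro _
    rw [blk_apply₂₁]
    rfl
  · intro h
    rw [blk_apply₂₂]
    exact hD i j (by simpa using h)

theorem loT_blk {A : Matrix (Fin m) (Fin m) S} (C : Matrix (Fin p) (Fin m) S)
    {D : Matrix (Fin p) (Fin p) S} (hA : LoT A) (hD : LoT D) : LoT (blk A 0 C D) := by
  intro i j
  refine Fin.addCases (fun i => ?_) (fun i => ?_) i <;>
    refine Fin.addCases (fun j => ?_) (fun j => ?_) j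
  · intro h
    rw [blk_apply₁₁]
    exact hA i j (by rwa [Fin.lt_def, Fin.val_castAdd, Fin.val_castAdd] at h)
  · intro _
    rw [blk_apply₁₂]
    rfl
  · intro h
    exfalso
    rw [Fin.lt_def, Fin.val_natAdd, Fin.val_castAdd] at h
    have := j.2
    omega
  · intro h
    rw [blk_apply₂₂]
    exact hD i j (by simpa using h)

theorem InC.blk {V : Matrix (Fin m) (Fin m) S} {H : Matrix (Fin p) (Fin p) S} (hV : InC V)
    (hH : InC H) (Y : Matrix (Fin p) (Fin m) S) : InC (blk V 0 Y H) := by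
  obtain ⟨U, L, hU, hU1, hL, hL1, rfl⟩ := hV
  obtain ⟨U', L', hU', hU1', hL', hL1', rfl⟩ := hH
  have hUu := (Matrix.isUnit_iff_isUnit_det _).1 (isUnit_of_upT hU' hU1')
  refine ⟨P002G.blk U 0 0 U', P002G.blk L 0 (U'⁻¹ * Y) L', upT_blk 0 hU hU', fun i => ?_,
    loT_blk _ hL hL', fun i => ?_, ?_⟩
  · refine Fin.addCases (fun i => ?_) (fun i => ?_) i
    · rw [blk_apply₁₁, hU1]
    · rw [blk_apply₂₂, hU1']
  · refine Fin.addCases (fun i => ?_) (fun i => ?_) i
    · rw [blk_apply₁₁]; exact hL1 i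
    · rw [blk_apply₂₂]; exact hL1' i
  · rw [blk_mul]
    simp only [Matrix.mul_zero, Matrix.zero_mul, add_zero, zero_add]
    rw [← Matrix.mul_assoc, Matrix.mul_nonsing_inv _ hUu, Matrix.one_mul]

end Vale.Agent.P002G
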