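import Vale.Agent.P002G.TotCell

/-!
# Density of integral pairs of reflections
-/

namespace Vale.Agent.P002G

open Matrix
open Vale.Agent.P002R (UpT LoT upT_one loT_one)

variable {n m p : ℕ} {S R : Type*} [CommRing S] [CommRing R]

/-- `1 + t μ` is in the cell if the products are differences of units. -/
theorem inC_one_add : ∀ {n : ℕ} (t μ : Fin n → S) (ρ : Fin (n + 1) → S) (_ : ∀ i, IsUnit (ρ i))
    (_ : ρ (Fin.last n) = 1) (_ : ∀ i, μ i * t i = ρ i.castSucc - ρ i.succ),
    InC (1 + vecMulVec t μ) ∧ μ ⬝ᵥ t = ρ 0 - 1 := by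
  intro n
  induction n with
  | zero =>
    intro t μ ρ _ h1 _
    refine ⟨⟨1, 1, upT_one, fun i => i.elim0, loT_one, fun i => i.elim0,
      Matrix.ext fun i => i.elim0⟩, ?_⟩
    rw [show (0 : Fin 1) = Fin.last 0 from rfl, h1, sub_self, dotProduct, Finset.univ_eq_empty,
      Finset.sum_empty]
  | succ n ih =>
    intro t μ ρ h0 h1 h
    obtain ⟨h2, h3⟩ := ih (fun i => t i.succ) (fun i => μ i.succ) (fun i => ρ i.succ)
      (fun i => h0 _) (by rw [Fin.succ_last]; exact h1) (fun i => by
        rw [h i.succ, Fin.succ_castSucc])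
    have h4 : μ ⬝ᵥ t = ρ 0 - 1 := by
      rw [dotProduct, Fin.sum_univ_succ, h 0]
      rw [dotProduct] at h3
      rw [h3, Fin.castSucc_zero]
      ring
    refine ⟨InC.bord ?_ ?_, h4⟩
    · convert h2 using 1
      ext i j
      rw [Matrix.submatrix_apply, Matrix.add_apply, Matrix.add_apply, Matrix.one_apply,
        Matrix.one_apply, vecMulVec_apply, vecMulVec_apply]
      simp only [Fin.succ_inj]
    · rw [Matrix.isUnit_iff_isUnit_det, Matrix.vecMulVec_eq Unit, Matrix.det_one_add_mul_comm,
        Matrix.det_unique, Matrix.add_apply, Matrix.one_apply_eq, Matrix.mul_apply]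
      have h5 : ∑ j, replicateRow Unit μ default j * replicateCol Unit t j default = μ ⬝ᵥ t := rfl
      rw [h5, h4, add_sub_cancel]
      exact h0 0

/-- The set of powers of a unit without torsion is infinite. -/
theorem infinite_powers (φ : R →+* ℂ) (u : Rˣ) (hu : ∀ k : ℕ, 0 < k → φ u ^ k ≠ 1) :
    (Set.range fun k : ℕ => φ u ^ k).Infinite := by
  apply Set.infinite_range_of_injective
  intro a b hab
  by_contra hne
  wlog h : a < b generalizing a b
  · exact this hab.symm (Ne.symm hne) (lt_of_le_of_ne (not_lt.1 h) (Ne.symm hne))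
  have hu0 : φ u ≠ 0 := (u.isUnit.map φ).ne_zero
  apply hu (b - a) (by omega)
  have h1 : φ u ^ b = φ u ^ a * φ u ^ (b - a) := by rw [← pow_add]; congr 1; omega
  beta_reduce at hab
  rw [h1] at hab
  exact (mul_left_cancel₀ (pow_ne_zero a hu0) (by rw [mul_one]; exact hab)).symm

theorem mul_one_add (t s μ : Fin n → S) (h : ∀ i, s i + t i + t i * (μ ⬝ᵥ s) = 0) :
    (1 + vecMulVec t μ) * (1 + vecMulVec s μ) = 1 := by
  have h1 : vecMulVec t μ * vecMulVec s μ = (μ ⬝ᵥ s) • vecMulVec t μ := by
    ext i j
    rw [Matrix.mul_apply, Matrix.smul_apply, smul_eq_mul, vecMulVec_apply, dotProduct,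
      Finset.sum_mul]
    refine Finset.sum_congr rfl fun k _ => ?_
    rw [vecMulVec_apply, vecMulVec_apply]
    ring
  rw [add_mul, mul_add, mul_add, h1, one_mul, one_mul, mul_one]
  ext i j
  simp only [Matrix.add_apply, vecMulVec_apply, Matrix.smul_apply, smul_eq_mul]
  have := h i
  linear_combination (μ j) * this

/-- Density of the integral reflections `1 + s μ` whose inverses are in the cell, with `μ`
divisible by `D`. -/
theorem refl_dense (φ : R →+* ℂ) (u : Rˣ) (hu : ∀ k : ℕ, 0 < k → φ u ^ k ≠ 1) (D : R)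
    (hD : ∃ M : ℕ, 0 < M ∧ D ∣ (u : R) ^ M - 1)
    (F : (Fin n → ℂ) × (Fin n → ℂ) → ℂ) (hF : IsPoly F)
    (h : ∀ s μ : Fin n → R, (∀ i, D ∣ μ i) → (∃ t, InC (1 + vecMulVec t μ) ∧
      (1 + vecMulVec t μ) * (1 + vecMulVec s μ) = 1) →
        F (fun i => φ (s i), fun i => φ (μ i)) = 0) (s μ : Fin n → ℂ) : F (s, μ) = 0 := by
  have hinf := infinite_powers φ u hu
  obtain ⟨M, hM, hDM⟩ := hD
  have hinf' := infinite_powers φ (u ^ M) (by
    intro k hk h1
    apply hu (M * k) (Nat.mul_pos hM hk)
    rw [pow_mul, ← h1, Units.val_pow_eq_pow_val, map_pow])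
  -- unit `s`
  have h1 : ∀ (k : Fin n → ℕ) (μ : Fin n → ℂ), F (fun i => φ u ^ k i, μ) = 0 := by
    intro k μ
    -- coordinates `σ`
    obtain ⟨g, hg⟩ : ∃ g : (Fin n → ℂ) → Fin n → ℂ, g = fun σ i =>
        ((Fin.cons 1 σ : Fin (n + 1) → ℂ) i.succ - (Fin.cons 1 σ : Fin (n + 1) → ℂ) i.castSucc) *
          (φ u ^ k i)⁻¹ := ⟨_, rfl⟩
    have hgp : PolyMap g := by
      rw [hg]
      apply polyMap_pi
      intro i
      apply IsPoly.polyMap
      refine IsPoly.mul (IsPoly.sub ?_ ?_) (isPoly_const _)
      · simp only [Fin.cons_succ]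
        exact isPoly_coord i
      · obtain ⟨j, hj⟩ : ∃ j, j = i.castSucc := ⟨_, rfl⟩
        rw [← hj]
        refine Fin.cases ?_ (fun j => ?_) j
        · simp only [Fin.cons_zero]
          exact isPoly_const 1
        · simp only [Fin.cons_succ]
          exact isPoly_coord j
    have h2 : ∀ σ : Fin n → ℂ, F (fun i => φ u ^ k i, g σ) = 0 := by
      apply IsPoly.eq_zero_of_pi (f := fun σ => F (fun i => φ u ^ k i, g σ))
        (((polyMap_const _).prodMk hgp).comp hF)
        (fun _ => Set.range fun k : ℕ => φ (u ^ M : Rˣ) ^ k) (fun _ => hinf')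
      intro σ hσ
      choose l hl using hσ
      beta_reduce at hl
      obtain ⟨L, hL⟩ : ∃ L : Fin (n + 1) → Rˣ, L = Fin.cons 1 (fun i => (u ^ M) ^ l i) := ⟨_, rfl⟩
      have hLφ : ∀ i, φ (L i : R) = (Fin.cons 1 σ : Fin (n + 1) → ℂ) i := by
        intro i
        rw [hL]
        refine Fin.cases ?_ (fun i => ?_) i
        · simp
        · simp only [Fin.cons_succ, ← hl, Units.val_pow_eq_pow_val, map_pow]
      have hLD : ∀ i, D ∣ (L i : R) - 1 := by
        intro i
        rw [hL]
        refine Fin.cases ?_ (fun i => ?_) i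
        · simp
        · rw [Fin.cons_succ, Units.val_pow_eq_pow_val, Units.val_pow_eq_pow_val]
          exact hDM.trans (sub_one_dvd_pow_sub_one _ _)
      have h3 := h (fun i => ((u ^ k i : Rˣ) : R))
        (fun i => ((L i.succ : R) - (L i.castSucc : R)) * ((u ^ k i)⁻¹ : Rˣ)) ?_ ?_
      · convert h3 using 3
        · ext i
          rw [Units.val_pow_eq_pow_val, map_pow]
        · ext i
          rw [hg]
          simp only [map_mul, map_sub, hLφ]
          congr 1
          have h5 : φ ((u ^ k i : Rˣ) : R) * φ (((u ^ k i)⁻¹ : Rˣ) : R) = 1 := by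
            rw [← map_mul, Units.mul_inv, map_one]
          rw [Units.val_pow_eq_pow_val, map_pow] at h5
          exact inv_eq_of_mul_eq_one_right h5
      · intro i
        apply Dvd.dvd.mul_right
        have h4 := dvd_sub (hLD i.succ) (hLD i.castSucc)
        rwa [sub_sub_sub_cancel_right] at h4
      · -- the inverse
        obtain ⟨c, hc⟩ : ∃ c : Rˣ, c = (L (Fin.last n))⁻¹ := ⟨_, rfl⟩
        have hdot : ∀ (n : ℕ) (a : Fin (n + 1) → R), ∑ i : Fin n, (a i.succ - a i.castSucc) =
            a (Fin.last n) - a 0 := by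
          intro n
          induction n with
          | zero => intro a; simp
          | succ n ih =>
            intro a
            rw [Fin.sum_univ_succ]
            have := ih fun i => a i.succ
            simp only [Fin.succ_last, Fin.succ_castSucc] at this ⊢
            rw [this, Fin.castSucc_zero]
            have h9 : a (Fin.last n.succ) = a (Fin.last (n + 1)) := rfl
            rw [h9]
            ring
        have hL0 : (L 0 : R) = 1 := by rw [hL]; simp
        have hms : (fun i => ((L i.succ : R) - (L i.castSucc : R)) * ((u ^ k i)⁻¹ : Rˣ)) ⬝ᵥ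
            (fun i => ((u ^ k i : Rˣ) : R)) = (L (Fin.last n) : R) - 1 := by
          rw [← hL0, ← hdot n (fun i => (L i : R)), dotProduct]
          refine Finset.sum_congr rfl fun i _ => ?_
          rw [mul_assoc, Units.inv_mul, mul_one]
        refine ⟨fun i => -((u ^ k i : Rˣ) : R) * c, ?_, ?_⟩
        · refine (inC_one_add _ _ (fun i => (L i : R) * c) (fun i => (L i * c).isUnit) ?_
            fun i => ?_).1
          · rw [hc, Units.mul_inv]
          · have : ((u ^ k i : Rˣ) : R) * ((u ^ k i)⁻¹ : Rˣ) = 1 := Units.mul_inv _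
            linear_combination (-((L i.succ : R) - (L i.castSucc : R)) * c) * this
        · apply mul_one_add
          intro i
          rw [hms]
          have : (c : R) * (L (Fin.last n) : R) = 1 := by rw [hc, Units.inv_mul]
          linear_combination (-((u ^ k i : Rˣ) : R)) * this
    -- every `μ` is of this form
    obtain ⟨σ, hσ⟩ : ∃ σ : Fin n → ℂ, σ = fun i => 1 + ∑ j ∈ Finset.univ.filter (· ≤ i),
        μ j * φ u ^ k j := ⟨_, rfl⟩
    have hu0 : φ u ≠ 0 := (u.isUnit.map φ).ne_zero
    have hσ1 : ∀ i : Fin n, (Fin.cons 1 σ : Fin (n + 1) → ℂ) i.castSucc =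
        1 + ∑ j ∈ Finset.univ.filter (· < i), μ j * φ u ^ k j := by
      intro i
      rcases Nat.eq_zero_or_pos (i : ℕ) with h0 | h0
      · have h3 : i.castSucc = 0 := Fin.ext h0
        rw [h3, Fin.cons_zero, Finset.sum_eq_zero, add_zero]
        intro j hj
        rw [Finset.mem_filter, Fin.lt_def] at hj
        omega
      · obtain ⟨j, hj⟩ : ∃ j : Fin n, i.castSucc = j.succ :=
          ⟨⟨i - 1, by omega⟩, Fin.ext (by simp; omega)⟩
        have hj' : (i : ℕ) = (j : ℕ) + 1 := by
          have := congrArg Fin.val hj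
          simpa using this
        rw [hj, Fin.cons_succ, hσ]
        beta_reduce
        congr 2
        ext k'
        rw [Finset.mem_filter, Finset.mem_filter, Fin.le_def, Fin.lt_def]
        simp only [Finset.mem_univ, true_and]
        omega
    have h3 := h2 σ
    have h4 : g σ = μ := by
      rw [hg]
      ext i
      beta_reduce
      rw [hσ1, Fin.cons_succ, hσ]
      beta_reduce
      have h5 : Finset.univ.filter (fun j : Fin n => j ≤ i) =
          insert i (Finset.univ.filter fun j : Fin n => j < i) := by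
        ext j
        simp [le_iff_eq_or_lt]
      rw [h5, Finset.sum_insert (by simp)]
      have := pow_ne_zero (k i) hu0
      field_simp
      ring
    rwa [h4] at h3
  -- all `s`
  have h2 : PolyMap fun s : Fin n → ℂ => (s, μ) :=
    (polyMap_linear LinearMap.id).prodMk (polyMap_const μ)
  apply IsPoly.eq_zero_of_pi (f := fun s => F (s, μ)) (h2.comp hF)
    (fun _ => Set.range fun k : ℕ => φ u ^ k) (fun _ => hinf)
  intro s hs
  choose k hk using hs
  rw [show s = fun i => φ u ^ k i from funext fun i => (hk i).symm]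
  exact h1 k μ

end Vale.Agent.P002G
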