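import Vale.Agent.P002G.TotCell2

/-!
# Density of integral pairs of rectangular matrices
-/

namespace Vale.Agent.P002G

open Matrix
open Vale.Agent.P002R (UpT LoT upT_one loT_one)

variable {n m p : ℕ} {S R : Type*} [CommRing S] [CommRing R]

/-- New first column. -/
def colC (x0 : Fin m → S) (x : Matrix (Fin m) (Fin p) S) : Matrix (Fin m) (Fin (p + 1)) S :=
  Matrix.of fun i => Fin.cons (x0 i) (x i)

/-- New first row. -/
def rowC (y0 : Fin m → S) (Y : Matrix (Fin p) (Fin m) S) : Matrix (Fin (p + 1)) (Fin m) S :=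
  Matrix.of (Fin.cons y0 Y)

theorem colC_mul_rowC (x0 y0 : Fin m → S) (x : Matrix (Fin m) (Fin p) S)
    (Y : Matrix (Fin p) (Fin m) S) : colC x0 x * rowC y0 Y = vecMulVec x0 y0 + x * Y := by
  ext i j
  rw [Matrix.mul_apply, Fin.sum_univ_succ, Matrix.add_apply, vecMulVec_apply, Matrix.mul_apply]
  rfl

theorem rowC_mul_colC_submatrix (x0 y0 : Fin m → S) (x : Matrix (Fin m) (Fin p) S)
    (Y : Matrix (Fin p) (Fin m) S) :
    (1 + rowC y0 Y * colC x0 x).submatrix Fin.succ Fin.succ = 1 + Y * x := by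
  ext i j
  rw [Matrix.submatrix_apply, Matrix.add_apply, Matrix.add_apply, Matrix.mul_apply,
    Matrix.mul_apply, Matrix.one_apply, Matrix.one_apply]
  simp only [Fin.succ_inj]
  rfl

omit [CommRing S] in
theorem colC_eta (x : Matrix (Fin m) (Fin (p + 1)) S) :
    colC (fun i => x i 0) (Matrix.of fun i j => x i j.succ) = x := by
  ext i j
  refine Fin.cases ?_ (fun j => ?_) j <;> rfl

omit [CommRing S] in
theorem rowC_eta (Y : Matrix (Fin (p + 1)) (Fin m) S) :
    rowC (Y 0) (Matrix.of fun i j => Y i.succ j) = Y := by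
  ext i j
  refine Fin.cases ?_ (fun i => ?_) i <;> rfl

theorem polyMap_colC {V : Type*} [AddCommGroup V] [Module ℂ V] {f : V → Fin m → ℂ}
    {g : V → Matrix (Fin m) (Fin p) ℂ} (hf : PolyMap f) (hg : PolyMap g) :
    PolyMap fun v => colC (f v) (g v) := by
  apply polyMap_matrix
  intro i j
  refine Fin.cases ?_ (fun j => ?_) j
  · exact hf.coord i
  · exact hg.entry i j

theorem polyMap_rowC {V : Type*} [AddCommGroup V] [Module ℂ V] {f : V → Fin m → ℂ}
    {g : V → Matrix (Fin p) (Fin m) ℂ} (hf : PolyMap f) (hg : PolyMap g) :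
    PolyMap fun v => rowC (f v) (g v) := by
  apply polyMap_matrix
  intro i j
  refine Fin.cases ?_ (fun i => ?_) i
  · exact hf.coord j
  · exact hg.entry i j

theorem vecMulVec_mul' (s μ : Fin m → S) (A : Matrix (Fin m) (Fin m) S) :
    vecMulVec s μ * A = vecMulVec s (μ ᵥ* A) := by
  ext i j
  rw [Matrix.mul_apply, vecMulVec_apply, vecMul, dotProduct, Finset.mul_sum]
  refine Finset.sum_congr rfl fun k _ => ?_
  rw [vecMulVec_apply]
  ring

theorem mul_vecMulVec' (s μ : Fin m → S) (A : Matrix (Fin m) (Fin m) S) :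
    A * vecMulVec s μ = vecMulVec (A *ᵥ s) μ := by
  ext i j
  rw [Matrix.mul_apply, vecMulVec_apply, mulVec, dotProduct, Finset.sum_mul]
  refine Finset.sum_congr rfl fun k _ => ?_
  rw [vecMulVec_apply]
  ring

/-- The integral pairs. -/
def GoodPair (D : R) (x : Matrix (Fin m) (Fin p) R) (Y : Matrix (Fin p) (Fin m) R) : Prop :=
  (∀ i j, D ∣ Y i j) ∧ InC (1 + Y * x) ∧ ∃ V, InC V ∧ V * (1 + x * Y) = 1

/-- Density of the integral pairs. -/
theorem pairs_dense (φ : R →+* ℂ) (u : Rˣ) (hu : ∀ k : ℕ, 0 < k → φ u ^ k ≠ 1) (D : R)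
    (hD : ∃ M : ℕ, 0 < M ∧ D ∣ (u : R) ^ M - 1) {m : ℕ} : ∀ {p : ℕ}
    (F : Matrix (Fin m) (Fin p) ℂ × Matrix (Fin p) (Fin m) ℂ → ℂ) (_ : IsPoly F)
    (_ : ∀ (x : Matrix (Fin m) (Fin p) R) (Y : Matrix (Fin p) (Fin m) R), GoodPair D x Y →
      F (x.map φ, Y.map φ) = 0)
    (x : Matrix (Fin m) (Fin p) ℂ) (Y : Matrix (Fin p) (Fin m) ℂ), F (x, Y) = 0 := by
  intro p
  induction p with
  | zero =>
    intro F _ h x Y
    have h1 := h (Matrix.of fun i j => j.elim0) (Matrix.of fun i j => i.elim0)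
      ⟨fun i => i.elim0, ⟨1, 1, upT_one, fun i => i.elim0, loT_one, fun i => i.elim0,
        Matrix.ext fun i => i.elim0⟩, 1, inC_one, by
          rw [one_mul]
          ext i j
          rw [Matrix.add_apply, Matrix.mul_apply, Finset.univ_eq_empty, Finset.sum_empty,
            add_zero]⟩
    convert h1 using 3
    · ext i j; exact j.elim0
    · ext i j; exact i.elim0
  | succ p ih =>
    intro F hF h x Y
    rw [← colC_eta x, ← rowC_eta Y]
    obtain ⟨x0, hx0⟩ : ∃ x0 : Fin m → ℂ, x0 = fun i => x i 0 := ⟨_, rfl⟩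
    obtain ⟨y0, hy0⟩ : ∃ y0 : Fin m → ℂ, y0 = Y 0 := ⟨_, rfl⟩
    rw [← hx0, ← hy0]
    have hlin1 : PolyMap fun z : Matrix (Fin m) (Fin p) ℂ × Matrix (Fin p) (Fin m) ℂ => z.1 :=
      polyMap_linear (LinearMap.fst ℂ (Matrix (Fin m) (Fin p) ℂ) (Matrix (Fin p) (Fin m) ℂ))
    have hlin2 : PolyMap fun z : Matrix (Fin m) (Fin p) ℂ × Matrix (Fin p) (Fin m) ℂ => z.2 :=
      polyMap_linear (LinearMap.snd ℂ (Matrix (Fin m) (Fin p) ℂ) (Matrix (Fin p) (Fin m) ℂ))
    apply ih (fun z => F (colC x0 z.1, rowC y0 z.2))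
      (((polyMap_colC (polyMap_const x0) hlin1).prodMk
        (polyMap_rowC (polyMap_const y0) hlin2)).comp hF)
    intro a B hab
    obtain ⟨hBD, hH, V, hV, hVK⟩ := hab
    obtain ⟨U, L, hU, hU1, hL, hL1, rfl⟩ := hV
    have hUu := (Matrix.isUnit_iff_isUnit_det _).1 (isUnit_of_upT hU hU1)
    have hLu := (Matrix.isUnit_iff_isUnit_det _).1 (isUnit_of_loT hL hL1)
    -- the linear change of coordinates
    have hm1 : PolyMap fun z : (Fin m → ℂ) × (Fin m → ℂ) => (L⁻¹).map φ *ᵥ z.1 :=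
      polyMap_linear ((Matrix.mulVecLin ((L⁻¹).map φ)).comp (LinearMap.fst ℂ (Fin m → ℂ) (Fin m → ℂ)))
    have hm2 : PolyMap fun z : (Fin m → ℂ) × (Fin m → ℂ) => z.2 ᵥ* (U⁻¹).map φ :=
      polyMap_linear ((Matrix.vecMulLinear ((U⁻¹).map φ)).comp
        (LinearMap.snd ℂ (Fin m → ℂ) (Fin m → ℂ)))
    have key := refl_dense φ u hu D hD
      (fun z => F (colC ((L⁻¹).map φ *ᵥ z.1) (a.map φ), rowC (z.2 ᵥ* (U⁻¹).map φ) (B.map φ)))
      (((polyMap_colC hm1 (polyMap_const _)).prodMk (polyMap_rowC hm2 (polyMap_const _))).comp hF)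
      ?_ (L.map φ *ᵥ x0) (y0 ᵥ* U.map φ)
    · beta_reduce at key
      rw [Matrix.mulVec_mulVec, Matrix.vecMul_vecMul, ← Matrix.map_mul, ← Matrix.map_mul,
        Matrix.nonsing_inv_mul _ hLu, Matrix.mul_nonsing_inv _ hUu, Matrix.map_one φ (map_zero φ)
          (map_one φ), Matrix.one_mulVec,
        Matrix.vecMul_one] at key
      exact key
    · rintro s μ hμ ⟨t, ht, hts⟩
      have h1 := h (colC (L⁻¹ *ᵥ s) a) (rowC (μ ᵥ* U⁻¹) B) ?_
      · convert h1 using 3
        · ext i j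
          refine Fin.cases ?_ (fun j => ?_) j
          · exact (RingHom.map_mulVec φ (L⁻¹) s i).symm
          · rfl
        · ext i j
          refine Fin.cases ?_ (fun i => ?_) i
          · exact (RingHom.map_vecMul φ (U⁻¹) μ j).symm
          · rfl
      · -- the new inverse
        have hK : (U * (1 + vecMulVec t μ) * L) *
            (1 + colC (L⁻¹ *ᵥ s) a * rowC (μ ᵥ* U⁻¹) B) = 1 := by
          have h2 : L⁻¹ * U⁻¹ = 1 + a * B := by
            rw [← Matrix.mul_inv_rev]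
            exact Matrix.inv_eq_right_inv hVK
          rw [colC_mul_rowC, add_comm (vecMulVec _ _), ← add_assoc, ← h2, ← vecMulVec_mul',
            ← mul_vecMulVec']
          have h3 : L * (L⁻¹ * U⁻¹ + L⁻¹ * vecMulVec s μ * U⁻¹) =
              (1 + vecMulVec s μ) * U⁻¹ := by
            rw [Matrix.mul_add, ← Matrix.mul_assoc, ← Matrix.mul_assoc, ← Matrix.mul_assoc,
              Matrix.mul_nonsing_inv _ hLu, Matrix.one_mul, Matrix.one_mul, Matrix.add_mul,
              Matrix.one_mul]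
          rw [Matrix.mul_assoc, h3, Matrix.mul_assoc, ← Matrix.mul_assoc (1 + vecMulVec t μ), hts,
            Matrix.one_mul, Matrix.mul_nonsing_inv _ hUu]
        refine ⟨?_, ?_, _, (ht.mul_up hU hU1).mul_low hL hL1, hK⟩
        · intro i j
          refine Fin.cases ?_ (fun i => ?_) i
          · change D ∣ (μ ᵥ* U⁻¹) j
            rw [vecMul, dotProduct]
            exact Finset.dvd_sum fun k _ => (hμ k).mul_right _
          · exact hBD i j
        · apply InC.bord
          · rw [rowC_mul_colC_submatrix]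
            exact hH
          · rw [Matrix.isUnit_iff_isUnit_det, Matrix.det_one_add_mul_comm,
              ← Matrix.isUnit_iff_isUnit_det]
            exact IsUnit.of_mul_eq_one_right _ hK

end Vale.Agent.P002G
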