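import Vale.Agent.P002G.TotCell3

/-!
# Linear algebra of one eigenvalue, irreducibility of orbits
-/

namespace Vale.Agent.P002G

open Matrix
open Vale.Agent.P002R (UpT LoT upT_one loT_one)

variable {n m p : ℕ} {S R : Type*} [CommRing S] [CommRing R]

/-- The orbit is irreducible. -/
theorem orbit_irred (J : Matrix (Fin n) (Fin n) ℂ) (F E : Matrix (Fin n) (Fin n) ℂ → ℂ)
    (hF : IsPoly F) (hE : IsPoly E) (d : Matrix (Fin n) (Fin n) ℂ → ℂ) (hd : IsPoly d)
    (g1 : Matrix (Fin n) (Fin n) ℂ) (hg1 : d g1 ≠ 0) (hEJ : E J ≠ 0)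
    (h : ∀ g : Matrix (Fin n) (Fin n) ℂ, IsUnit g → d g ≠ 0 → E (g * J * g⁻¹) ≠ 0 →
      F (g * J * g⁻¹) = 0)
    (g : Matrix (Fin n) (Fin n) ℂ) (hg : IsUnit g) : F (g * J * g⁻¹) = 0 := by
  have hid : PolyMap fun g : Matrix (Fin n) (Fin n) ℂ => g := polyMap_linear LinearMap.id
  have hD : IsPoly fun g : Matrix (Fin n) (Fin n) ℂ => g.det := isPoly_det hid
  have hψ : RatMap (fun g : Matrix (Fin n) (Fin n) ℂ => g.det)
      fun g : Matrix (Fin n) (Fin n) ℂ => g * J * g⁻¹ :=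
    IsRat.matrix_mul hD (IsRat.matrix_mul hD hid.ratMap (polyMap_const J).ratMap) (ratMap_inv hid)
  obtain ⟨M, G, hG, hGF⟩ := hψ.comp hD hF
  obtain ⟨M', G', hG', hGE⟩ := hψ.comp hD hE
  have h1 := ((hG.mul hD).mul hG').eq_zero_of_mul hd (fun x => by
    by_cases hx : x.det = 0
    · rw [hx]; ring
    by_cases hdx : d x = 0
    · rw [hdx]; ring
    by_cases hEx : E (x * J * x⁻¹) = 0
    · have := hGE x hx
      beta_reduce at this
      rw [this, hEx]; ring
    · have h2 := h x ((Matrix.isUnit_iff_isUnit_det _).2 (isUnit_iff_ne_zero.2 hx)) hdx hEx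
      have := hGF x hx
      beta_reduce at this
      rw [this, h2]; ring) g1 hg1
  have h2 := (hG.mul hD).eq_zero_of_mul hG' h1 1 (by
    have := hGE 1 (by
      change (1 : Matrix (Fin n) (Fin n) ℂ).det ≠ 0
      rw [Matrix.det_one]; exact one_ne_zero)
    beta_reduce at this
    rw [Matrix.det_one, one_pow, one_mul, one_mul, inv_one, mul_one] at this
    rw [this]
    exact hEJ) g
  have hx : g.det ≠ 0 := isUnit_iff_ne_zero.1 ((Matrix.isUnit_iff_isUnit_det _).1 hg)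
  have h3 := hGF g hx
  beta_reduce at h2 h3
  rw [h3] at h2
  have h4 := (mul_eq_zero.1 h2).resolve_right hx
  exact (mul_eq_zero.1 h4).resolve_left (pow_ne_zero M hx)

/-- Factorisation of linear maps. -/
theorem exists_comp_of_ker_le {V V' V'' : Type*} [AddCommGroup V] [Module ℂ V] [AddCommGroup V']
    [Module ℂ V'] [AddCommGroup V''] [Module ℂ V''] (f : V →ₗ[ℂ] V') (g : V →ₗ[ℂ] V'')
    (h : LinearMap.ker f ≤ LinearMap.ker g) : ∃ s : V' →ₗ[ℂ] V'', s.comp f = g := by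
  obtain ⟨s, hs⟩ := LinearMap.exists_extend
    (((LinearMap.ker f).liftQ g h).comp f.quotKerEquivRange.symm.toLinearMap)
  refine ⟨s, LinearMap.ext fun v => ?_⟩
  have h1 := LinearMap.congr_fun hs ⟨f v, LinearMap.mem_range_self f v⟩
  rw [LinearMap.comp_apply, LinearMap.comp_apply] at h1
  rw [LinearMap.comp_apply]
  refine h1.trans ?_
  have h2 : f.quotKerEquivRange.symm ⟨f v, LinearMap.mem_range_self f v⟩ =
      (LinearMap.ker f).mkQ v := by
    rw [LinearEquiv.symm_apply_eq]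
    rfl
  change ((LinearMap.ker f).liftQ g h) (f.quotKerEquivRange.symm ⟨f v, _⟩) = g v
  rw [h2]
  rfl

/-- Extension of isomorphisms of subspaces. -/
theorem exists_equiv_comp {K V : Type*} [AddCommGroup K] [Module ℂ K] [AddCommGroup V]
    [Module ℂ V] [FiniteDimensional ℂ V] (f g : K →ₗ[ℂ] V) (hf : Function.Injective f)
    (hg : Function.Injective g) : ∃ t : V ≃ₗ[ℂ] V, ∀ x, t (f x) = g x := by
  obtain ⟨C0, hC0⟩ := exists_isCompl (LinearMap.range f)
  obtain ⟨C1, hC1⟩ := exists_isCompl (LinearMap.range g)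
  have h1 : Module.finrank ℂ C0 = Module.finrank ℂ C1 := by
    have h2 := Submodule.finrank_add_eq_of_isCompl hC0
    have h3 := Submodule.finrank_add_eq_of_isCompl hC1
    have h4 := LinearMap.finrank_range_of_inj hf
    have h5 := LinearMap.finrank_range_of_inj hg
    omega
  have e : C0 ≃ₗ[ℂ] C1 := LinearEquiv.ofFinrankEq _ _ h1
  refine ⟨(Submodule.prodEquivOfIsCompl _ _ hC0).symm.trans
    ((((LinearEquiv.ofInjective f hf).symm.trans (LinearEquiv.ofInjective g hg)).prodCongr e).trans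
      (Submodule.prodEquivOfIsCompl _ _ hC1)), fun x => ?_⟩
  have h6 : (Submodule.prodEquivOfIsCompl _ _ hC0).symm (f x) =
      (LinearEquiv.ofInjective f hf x, 0) := by
    rw [LinearEquiv.symm_apply_eq, Submodule.coe_prodEquivOfIsCompl']
    simp
  rw [LinearEquiv.trans_apply, LinearEquiv.trans_apply, h6]
  simp

/-- Conjugacy of block matrices. -/
theorem conj_of_inj (W0 : Matrix (Fin m) (Fin m) ℂ) (Y0 Y : Matrix (Fin p) (Fin m) ℂ)
    (h0 : ∀ v, (W0 - 1) *ᵥ v = 0 → Y0 *ᵥ v = 0 → v = 0)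
    (h1 : ∀ v, (W0 - 1) *ᵥ v = 0 → Y *ᵥ v = 0 → v = 0) :
    ∃ g : Matrix (Fin (m + p)) (Fin (m + p)) ℂ, IsUnit g ∧
      g * blk W0 0 Y0 1 = blk W0 0 Y 1 * g := by
  obtain ⟨K, hK⟩ : ∃ K, K = LinearMap.ker (W0 - 1).mulVecLin := ⟨_, rfl⟩
  have hKm : ∀ v, v ∈ K ↔ (W0 - 1) *ᵥ v = 0 := fun v => by
    rw [hK, LinearMap.mem_ker, Matrix.mulVecLin_apply]
  have hinj : ∀ Y : Matrix (Fin p) (Fin m) ℂ, (∀ v, (W0 - 1) *ᵥ v = 0 → Y *ᵥ v = 0 → v = 0) →
      Function.Injective (Y.mulVecLin.domRestrict K) := by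
    intro Y h
    rw [injective_iff_map_eq_zero]
    rintro ⟨v, hv⟩ hv'
    rw [LinearMap.domRestrict_apply, Matrix.mulVecLin_apply] at hv'
    exact Subtype.ext (h v ((hKm v).1 hv) hv')
  obtain ⟨t, ht⟩ := exists_equiv_comp _ _ (hinj Y0 h0) (hinj Y h1)
  obtain ⟨T, hT⟩ : ∃ T : Matrix (Fin p) (Fin p) ℂ, T = LinearMap.toMatrix' t.toLinearMap :=
    ⟨_, rfl⟩
  have hTv : ∀ v, T *ᵥ v = t v := fun v => by
    rw [hT, ← Matrix.mulVecLin_apply, ← Matrix.toLin'_apply', Matrix.toLin'_toMatrix']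
    rfl
  have hTu : IsUnit T := by
    have h2 : LinearMap.toMatrix' t.symm.toLinearMap * T = 1 := by
      rw [hT, ← LinearMap.toMatrix'_comp, ← LinearMap.toMatrix'_one]
      congr 1
      ext v
      simp
    exact IsUnit.of_mul_eq_one_right _ h2
  obtain ⟨s, hs⟩ := exists_comp_of_ker_le (W0 - 1).mulVecLin (Y - T * Y0).mulVecLin (by
    intro v hv
    rw [← hK] at hv
    rw [LinearMap.mem_ker, Matrix.mulVecLin_apply, Matrix.sub_mulVec, ← Matrix.mulVec_mulVec, hTv]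
    have h2 := ht ⟨v, hv⟩
    rw [LinearMap.domRestrict_apply, LinearMap.domRestrict_apply, Matrix.mulVecLin_apply,
      Matrix.mulVecLin_apply] at h2
    rw [h2, sub_self])
  obtain ⟨s', hs'⟩ : ∃ s' : Matrix (Fin p) (Fin m) ℂ, s' = LinearMap.toMatrix' s := ⟨_, rfl⟩
  have hsv : ∀ v, s' *ᵥ v = s v := fun v => by
    rw [hs', ← Matrix.mulVecLin_apply, ← Matrix.toLin'_apply', Matrix.toLin'_toMatrix']
  have h3 : s' * (W0 - 1) = Y - T * Y0 := by
    apply Matrix.ext_of_mulVec_single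
    intro i
    rw [← Matrix.mulVec_mulVec, hsv]
    exact LinearMap.congr_fun hs _
  refine ⟨blk 1 0 s' T, ?_, ?_⟩
  · have hTd := (Matrix.isUnit_iff_isUnit_det _).1 hTu
    apply IsUnit.of_mul_eq_one (blk 1 0 (-(T⁻¹ * s')) T⁻¹)
    rw [blk_mul]
    simp only [Matrix.mul_zero, Matrix.zero_mul, add_zero, zero_add, Matrix.mul_one,
      Matrix.mul_neg, neg_zero]
    rw [← Matrix.mul_assoc, Matrix.mul_nonsing_inv _ hTd, Matrix.one_mul, add_neg_cancel, blk_one]
  · rw [blk_mul, blk_mul]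
    simp only [Matrix.mul_zero, Matrix.zero_mul, add_zero, zero_add, Matrix.mul_one,
      Matrix.one_mul]
    congr 1
    rw [Matrix.mul_sub, Matrix.mul_one, sub_eq_sub_iff_add_eq_add] at h3
    exact h3

/-- Adapted bases. -/
theorem adapted (A : Matrix (Fin (m + p)) (Fin (m + p)) ℂ)
    (hA : Module.finrank ℂ (LinearMap.ker A.mulVecLin) = p) :
    ∃ (g : Matrix (Fin (m + p)) (Fin (m + p)) ℂ) (W : Matrix (Fin m) (Fin m) ℂ)
      (Y : Matrix (Fin p) (Fin m) ℂ), IsUnit g ∧ A * g = g * blk W 0 Y 0 ∧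
      ∀ v, W *ᵥ v = 0 → Y *ᵥ v = 0 → v = 0 := by
  obtain ⟨C, hC⟩ := exists_isCompl (LinearMap.ker A.mulVecLin)
  have hCm : Module.finrank ℂ C = m := by
    have h2 := Submodule.finrank_add_eq_of_isCompl hC
    rw [hA, Module.finrank_fin_fun] at h2
    omega
  obtain ⟨bK, -⟩ : ∃ bK : Module.Basis (Fin p) ℂ (LinearMap.ker A.mulVecLin), True :=
    ⟨Module.finBasisOfFinrankEq _ _ hA, trivial⟩
  obtain ⟨bC, -⟩ : ∃ bC : Module.Basis (Fin m) ℂ C, True :=
    ⟨Module.finBasisOfFinrankEq _ _ hCm, trivial⟩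
  obtain ⟨b, hb⟩ : ∃ b : Module.Basis (Fin (m + p)) ℂ (Fin (m + p) → ℂ),
      b = ((bC.prod bK).map (Submodule.prodEquivOfIsCompl _ _ hC.symm)).reindex finSumFinEquiv :=
    ⟨_, rfl⟩
  have hb1 : ∀ j, b (Fin.castAdd p j) = bC j := fun j => by
    rw [hb]
    simp
  have hb2 : ∀ j, b (Fin.natAdd m j) = bK j := fun j => by
    rw [hb]
    simp
  obtain ⟨g, hg⟩ : ∃ g : Matrix (Fin (m + p)) (Fin (m + p)) ℂ, g = Matrix.of fun i j => b j i :=
    ⟨_, rfl⟩
  have hgv : ∀ v, g *ᵥ v = ∑ j, v j • b j := by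
    intro v
    ext i
    rw [Matrix.mulVec, dotProduct, Finset.sum_apply]
    refine Finset.sum_congr rfl fun j _ => ?_
    rw [hg, Matrix.of_apply, Pi.smul_apply, smul_eq_mul, mul_comm]
  have hgu : IsUnit g := by
    rw [Matrix.isUnit_iff_isUnit_det]
    have h2 : g = (Pi.basisFun ℂ (Fin (m + p))).toMatrix b := by
      rw [hg]
      ext i j
      rw [Module.Basis.toMatrix_apply, Pi.basisFun_repr, Matrix.of_apply]
    rw [h2]
    have h3 := (Pi.basisFun ℂ (Fin (m + p))).toMatrix_mul_toMatrix_flip b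
    exact (Matrix.isUnit_iff_isUnit_det _).1 (IsUnit.of_mul_eq_one _ h3)
  have hgd := (Matrix.isUnit_iff_isUnit_det _).1 hgu
  obtain ⟨B, hB⟩ : ∃ B, B = g⁻¹ * (A * g) := ⟨_, rfl⟩
  have hAg : A * g = g * B := by
    rw [hB, ← Matrix.mul_assoc, Matrix.mul_nonsing_inv _ hgd, Matrix.one_mul]
  have hB0 : ∀ i j, B i (Fin.natAdd m j) = 0 := by
    intro i j
    have h2 : (A * g) *ᵥ Pi.single (Fin.natAdd m j) 1 = 0 := by
      rw [← Matrix.mulVec_mulVec, hgv]
      have h3 : ∑ k, (Pi.single (Fin.natAdd m j) 1 : Fin (m + p) → ℂ) k • b k =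
          b (Fin.natAdd m j) := by
        rw [Finset.sum_eq_single (Fin.natAdd m j)]
        · rw [Pi.single_eq_same, one_smul]
        · intro k _ hk
          rw [Pi.single_eq_of_ne hk, zero_smul]
        · intro h
          exact absurd (Finset.mem_univ _) h
      rw [h3, hb2]
      have h4 := (bK j).2
      rw [LinearMap.mem_ker, Matrix.mulVecLin_apply] at h4
      exact h4
    have h5 : B *ᵥ Pi.single (Fin.natAdd m j) 1 = 0 := by
      rw [hB, ← Matrix.mulVec_mulVec, h2, Matrix.mulVec_zero]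
    have h6 := congrFun h5 i
    rwa [Matrix.mulVec_single_one] at h6
  have hBb : B = blk (Matrix.of fun i j => B (Fin.castAdd p i) (Fin.castAdd p j)) 0
      (Matrix.of fun i j => B (Fin.natAdd m i) (Fin.castAdd p j)) 0 := by
    ext i j
    refine Fin.addCases (fun i => ?_) (fun i => ?_) i <;>
      refine Fin.addCases (fun j => ?_) (fun j => ?_) j
    · rw [blk_apply₁₁]; rfl
    · rw [blk_apply₁₂]; exact hB0 _ _
    · rw [blk_apply₂₁]; rfl
    · rw [blk_apply₂₂]; exact hB0 _ _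
  refine ⟨g, _, _, hgu, by rw [hAg]; exact congrArg (g * ·) hBb, fun v hv1 hv2 => ?_⟩
  -- injectivity
  obtain ⟨w, hw⟩ : ∃ w : Fin (m + p) → ℂ, w = Fin.append v 0 := ⟨_, rfl⟩
  have h1 : B *ᵥ w = 0 := by
    ext i
    rw [Matrix.mulVec, dotProduct, Fin.sum_univ_add]
    have h2 : ∑ j : Fin p, B i (Fin.natAdd m j) * w (Fin.natAdd m j) = 0 :=
      Finset.sum_eq_zero fun j _ => by rw [hB0, zero_mul]
    rw [h2, add_zero]
    have h3 : ∀ j : Fin m, w (Fin.castAdd p j) = v j := fun j => by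
      rw [hw, Fin.append_left]
    simp only [h3]
    refine Fin.addCases (fun i => ?_) (fun i => ?_) i
    · exact congrFun hv1 i
    · exact congrFun hv2 i
  have h2 : g *ᵥ w ∈ LinearMap.ker A.mulVecLin := by
    rw [LinearMap.mem_ker, Matrix.mulVecLin_apply, Matrix.mulVec_mulVec, hAg,
      ← Matrix.mulVec_mulVec, h1, Matrix.mulVec_zero]
  have h3 : g *ᵥ w ∈ C := by
    rw [hgv, Fin.sum_univ_add]
    apply C.add_mem
    · apply C.sum_mem
      intro j _
      rw [hb1]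
      exact C.smul_mem _ (bC j).2
    · have h4 : ∀ j : Fin p, w (Fin.natAdd m j) = 0 := fun j => by
        rw [hw, Fin.append_right]
        rfl
      simp only [h4, zero_smul, Finset.sum_const_zero]
      exact C.zero_mem
  have h4 : g *ᵥ w = 0 := by
    have := Submodule.disjoint_def.1 hC.disjoint _ h2 h3
    exact this
  have h5 : w = 0 := by
    have : g⁻¹ *ᵥ (g *ᵥ w) = 0 := by rw [h4, Matrix.mulVec_zero]
    rwa [Matrix.mulVec_mulVec, Matrix.nonsing_inv_mul _ hgd, Matrix.one_mulVec] at this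
  ext i
  have := congrFun h5 (Fin.castAdd p i)
  rw [hw, Fin.append_left] at this
  exact this

end Vale.Agent.P002G
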