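import Vale.Agent.P002G.TotCell4

/-!
# The chart of one eigenvalue
-/

namespace Vale.Agent.P002G

open Matrix
open Vale.Agent.P002R (UpT LoT upT_one loT_one)

variable {n m p : ℕ} {S R : Type*} [CommRing S] [CommRing R]

/-- The chart. -/
def chZ (e : S) (W : Matrix (Fin m) (Fin m) S) (x : Matrix (Fin m) (Fin p) S)
    (Y : Matrix (Fin p) (Fin m) S) : Matrix (Fin (m + p)) (Fin (m + p)) S :=
  e • (blk 1 (-x) 0 1 * blk W 0 Y 1 * blk 1 x 0 1)

theorem chZ_eq (e : S) (W : Matrix (Fin m) (Fin m) S) (x : Matrix (Fin m) (Fin p) S)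
    (Y : Matrix (Fin p) (Fin m) S) :
    chZ e W x Y = e • blk (W - x * Y) ((W - x * Y) * x - x) Y (1 + Y * x) := by
  rw [chZ, blk_mul, blk_mul]
  simp only [Matrix.mul_zero, Matrix.zero_mul, add_zero, zero_add, Matrix.mul_one, Matrix.one_mul,
    Matrix.neg_mul, sub_eq_add_neg]
  rw [add_comm (Y * x) 1]

theorem upT_one_blk (B : Matrix (Fin m) (Fin p) S) : UpT (blk 1 B 0 1) :=
  upT_blk B upT_one upT_one

theorem one_blk_diag (B : Matrix (Fin m) (Fin p) S) (i : Fin (m + p)) :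
    blk (1 : Matrix (Fin m) (Fin m) S) B 0 (1 : Matrix (Fin p) (Fin p) S) i i = 1 := by
  refine Fin.addCases (fun i => ?_) (fun i => ?_) i
  · rw [blk_apply₁₁, Matrix.one_apply_eq]
  · rw [blk_apply₂₂, Matrix.one_apply_eq]

theorem chZ_inC {e : S} (he : IsUnit e) {U L : Matrix (Fin m) (Fin m) S} (hU : UpT U)
    (hU1 : ∀ i, U i i = 1) (hL : LoT L) (hL1 : ∀ i, IsUnit (L i i)) (D : S)
    (hWD : ∀ i j, j < i → D ∣ (U * L) i j) {x : Matrix (Fin m) (Fin p) S}
    {Y : Matrix (Fin p) (Fin m) S} (h : GoodPair D x Y) :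
    InC (chZ e (U * L) (L⁻¹ * x) (Y * L)) ∧
      ∀ i j, j < i → D ∣ chZ e (U * L) (L⁻¹ * x) (Y * L) i j := by
  obtain ⟨hYD, hH, M, hM, hMK⟩ := h
  have hLu := (Matrix.isUnit_iff_isUnit_det _).1 (isUnit_of_loT hL hL1)
  obtain ⟨H, hHe⟩ : ∃ H, H = 1 + Y * x := ⟨_, rfl⟩
  have hHu : IsUnit H := hHe ▸ hH.isUnit
  have hHd := (Matrix.isUnit_iff_isUnit_det _).1 hHu
  have hYx : Y * L * (L⁻¹ * x) = Y * x := by
    rw [Matrix.mul_assoc, ← Matrix.mul_assoc L, Matrix.mul_nonsing_inv _ hLu, Matrix.one_mul]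
  have hYLD : ∀ i j, D ∣ (Y * L) i j := by
    intro i j
    rw [Matrix.mul_apply]
    exact Finset.dvd_sum fun k _ => (hYD i k).mul_right _
  have hmulD : ∀ {a b c : ℕ} (A : Matrix (Fin a) (Fin b) S) (B : Matrix (Fin b) (Fin c) S),
      (∀ i j, D ∣ B i j) → ∀ i j, D ∣ (A * B) i j := by
    intro a b c A B hB i j
    rw [Matrix.mul_apply]
    exact Finset.dvd_sum fun k _ => (hB k j).mul_left _
  constructor
  · rw [chZ_eq, hYx, ← hHe]
    apply InC.smul _ he
    -- the inverse of `1 + x Y`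
    have h1 : M + x * (H⁻¹ * Y) = 1 := by
      have h2 : (M + x * (H⁻¹ * Y)) * (1 + x * Y) = 1 * (1 + x * Y) := by
        rw [Matrix.add_mul, hMK, Matrix.mul_assoc, Matrix.mul_assoc]
        have h3 : Y * (1 + x * Y) = H * Y := by
          rw [hHe, Matrix.mul_add, Matrix.add_mul, Matrix.mul_one, Matrix.one_mul,
            Matrix.mul_assoc]
        rw [h3, ← Matrix.mul_assoc H⁻¹, Matrix.nonsing_inv_mul _ hHd, Matrix.one_mul,
          Matrix.one_mul]
      have h4 : IsUnit (1 + x * Y) := IsUnit.of_mul_eq_one_right _ hMK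
      exact h4.mul_right_cancel h2
    obtain ⟨x', hx'⟩ : ∃ x', x' = L⁻¹ * x := ⟨_, rfl⟩
    have hLx : L * x' = x := by
      rw [hx', ← Matrix.mul_assoc, Matrix.mul_nonsing_inv _ hLu, Matrix.one_mul]
    rw [← hx']
    have h5 : blk (U * L - x' * (Y * L)) ((U * L - x' * (Y * L)) * x' - x') (Y * L) H =
        blk 1 (U * x * H⁻¹ - x') 0 1 * blk (U * M * L) 0 (Y * L) H := by
      rw [blk_mul]
      simp only [Matrix.mul_zero, Matrix.zero_mul, zero_add, Matrix.one_mul]
      congr 1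
      · rw [Matrix.sub_mul, ← add_sub_assoc]
        congr 1
        rw [Matrix.mul_assoc U M L, Matrix.mul_assoc (U * x), Matrix.mul_assoc U x,
          ← Matrix.mul_add]
        congr 1
        rw [← Matrix.mul_assoc H⁻¹, ← Matrix.mul_assoc x, ← Matrix.add_mul, h1, Matrix.one_mul]
      · rw [Matrix.sub_mul, Matrix.sub_mul, Matrix.mul_assoc (U * x), Matrix.nonsing_inv_mul _ hHd,
          Matrix.mul_one, Matrix.mul_assoc U L x', hLx, sub_sub]
        congr 1
        rw [hHe, Matrix.mul_add, Matrix.mul_one, Matrix.mul_assoc x', Matrix.mul_assoc Y, hLx,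
          add_comm]
    rw [h5]
    exact (InC.blk ((hM.mul_up hU hU1).mul_low hL hL1) (hHe ▸ hH) _).mul_up (upT_one_blk _)
      (one_blk_diag _)
  · rw [chZ_eq, hYx]
    intro i j hij
    rw [Matrix.smul_apply, smul_eq_mul]
    apply Dvd.dvd.mul_left
    revert hij
    refine Fin.addCases (fun i => ?_) (fun i => ?_) i <;>
      refine Fin.addCases (fun j => ?_) (fun j => ?_) j
    · intro hij
      rw [blk_apply₁₁, Matrix.sub_apply]
      refine dvd_sub (hWD i j ?_) (hmulD _ _ hYLD i j)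
      rwa [Fin.lt_def, Fin.val_castAdd, Fin.val_castAdd] at hij
    · intro hij
      exfalso
      rw [Fin.lt_def, Fin.val_natAdd, Fin.val_castAdd] at hij
      have := i.2
      omega
    · intro _
      rw [blk_apply₂₁]
      exact hYLD i j
    · intro hij
      rw [blk_apply₂₂, Matrix.add_apply]
      refine dvd_add ?_ ?_
      · rw [Matrix.one_apply_ne]
        · exact dvd_zero _
        · rintro rfl
          exact lt_irrefl _ hij
      · rw [Matrix.mul_apply]
        exact Finset.dvd_sum fun k _ => (hYD i k).mul_right _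

theorem blk_map (φ : S →+* R) (A : Matrix (Fin m) (Fin m) S) (B : Matrix (Fin m) (Fin p) S)
    (C : Matrix (Fin p) (Fin m) S) (D : Matrix (Fin p) (Fin p) S) :
    (blk A B C D).map φ = blk (A.map φ) (B.map φ) (C.map φ) (D.map φ) := by
  ext i j
  rw [Matrix.map_apply]
  refine Fin.addCases (fun i => ?_) (fun i => ?_) i <;>
    refine Fin.addCases (fun j => ?_) (fun j => ?_) j
  · rw [blk_apply₁₁, blk_apply₁₁, Matrix.map_apply]
  · rw [blk_apply₁₂, blk_apply₁₂, Matrix.map_apply]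
  · rw [blk_apply₂₁, blk_apply₂₁, Matrix.map_apply]
  · rw [blk_apply₂₂, blk_apply₂₂, Matrix.map_apply]

theorem chZ_map (φ : S →+* R) (e : S) (W : Matrix (Fin m) (Fin m) S)
    (x : Matrix (Fin m) (Fin p) S) (Y : Matrix (Fin p) (Fin m) S) :
    (chZ e W x Y).map φ = chZ (φ e) (W.map φ) (x.map φ) (Y.map φ) := by
  rw [chZ_eq, chZ_eq]
  ext i j
  rw [Matrix.map_apply, Matrix.smul_apply, Matrix.smul_apply, smul_eq_mul, smul_eq_mul, map_mul,
    ← Matrix.map_apply (f := φ), blk_map, Matrix.map_sub φ (map_sub φ), Matrix.map_sub φ (map_sub φ),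
    Matrix.map_mul, Matrix.map_mul, Matrix.map_add φ (map_add φ), Matrix.map_mul,
    Matrix.map_one φ (map_zero φ) (map_one φ), Matrix.map_sub φ (map_sub φ), Matrix.map_mul]

/-! ### Polynomial maps -/

section poly

variable {V W : Type*} [AddCommGroup V] [Module ℂ V] [AddCommGroup W] [Module ℂ W]

theorem PolyMap.lin {W' : Type*} [AddCommGroup W'] [Module ℂ W'] {f : V → W} (h : PolyMap f)
    (l : W →ₗ[ℂ] W') : PolyMap fun v => l (f v) := fun l' => h (l'.comp l)

theorem PolyMap.add {f g : V → W} (hf : PolyMap f) (hg : PolyMap g) :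
    PolyMap fun v => f v + g v := fun l =>
  ((hf l).add (hg l)).congr fun _ => (map_add l _ _).symm

theorem PolyMap.sub {f g : V → W} (hf : PolyMap f) (hg : PolyMap g) :
    PolyMap fun v => f v - g v := fun l =>
  ((hf l).sub (hg l)).congr fun _ => (map_sub l _ _).symm

theorem PolyMap.const_smul {f : V → W} (hf : PolyMap f) (c : ℂ) : PolyMap fun v => c • f v :=
  fun l => ((isPoly_const c).mul (hf l)).congr fun v => by rw [map_smul, smul_eq_mul]

theorem polyMap_blk {A : V → Matrix (Fin m) (Fin m) ℂ} {B : V → Matrix (Fin m) (Fin p) ℂ}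
    {C : V → Matrix (Fin p) (Fin m) ℂ} {D : V → Matrix (Fin p) (Fin p) ℂ} (hA : PolyMap A)
    (hB : PolyMap B) (hC : PolyMap C) (hD : PolyMap D) :
    PolyMap fun v => blk (A v) (B v) (C v) (D v) := by
  apply polyMap_matrix
  intro i j
  refine Fin.addCases (fun i => ?_) (fun i => ?_) i <;>
    refine Fin.addCases (fun j => ?_) (fun j => ?_) j
  · simp only [blk_apply₁₁]; exact hA.entry i j
  · simp only [blk_apply₁₂]; exact hB.entry i j
  · simp only [blk_apply₂₁]; exact hC.entry i j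
  · simp only [blk_apply₂₂]; exact hD.entry i j

theorem polyMap_chZ {A : V → Matrix (Fin m) (Fin m) ℂ} {x : V → Matrix (Fin m) (Fin p) ℂ}
    {Y : V → Matrix (Fin p) (Fin m) ℂ} (hA : PolyMap A) (hx : PolyMap x) (hY : PolyMap Y)
    (e : ℂ) : PolyMap fun v => chZ e (A v) (x v) (Y v) := by
  have h1 : ∀ v, e • blk (A v - x v * Y v) ((A v - x v * Y v) * x v - x v) (Y v)
      (1 + Y v * x v) = chZ e (A v) (x v) (Y v) := fun v => (chZ_eq _ _ _ _).symm
  have h2 : PolyMap fun v => e • blk (A v - x v * Y v) ((A v - x v * Y v) * x v - x v) (Y v)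
      (1 + Y v * x v) := by
    have h3 := hA.sub (IsPoly.matrix_mul hx hY)
    exact (polyMap_blk h3 ((IsPoly.matrix_mul h3 hx).sub hx) hY
      ((polyMap_const 1).add (IsPoly.matrix_mul hY hx))).const_smul e
  intro l
  exact (h2 l).congr fun v => congrArg l (h1 v)

end poly

/-! ### Determinants, decompositions -/

theorem det_blk (A : Matrix (Fin m) (Fin m) S) (C : Matrix (Fin p) (Fin m) S)
    (D : Matrix (Fin p) (Fin p) S) : (blk A 0 C D).det = A.det * D.det := by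
  rw [blk, Matrix.det_submatrix_equiv_self, Matrix.det_fromBlocks_zero₁₂]

theorem det_blk' (A : Matrix (Fin m) (Fin m) S) (B : Matrix (Fin m) (Fin p) S)
    (D : Matrix (Fin p) (Fin p) S) : (blk A B 0 D).det = A.det * D.det := by
  rw [blk, Matrix.det_submatrix_equiv_self, Matrix.det_fromBlocks_zero₂₁]

omit [CommRing S] in
theorem blk_eta (G : Matrix (Fin (m + p)) (Fin (m + p)) S) :
    G = blk (Matrix.of fun i j => G (Fin.castAdd p i) (Fin.castAdd p j))
      (Matrix.of fun i j => G (Fin.castAdd p i) (Fin.natAdd m j))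
      (Matrix.of fun i j => G (Fin.natAdd m i) (Fin.castAdd p j))
      (Matrix.of fun i j => G (Fin.natAdd m i) (Fin.natAdd m j)) := by
  ext i j
  refine Fin.addCases (fun i => ?_) (fun i => ?_) i <;>
    refine Fin.addCases (fun j => ?_) (fun j => ?_) j
  · rw [blk_apply₁₁]; rfl
  · rw [blk_apply₁₂]; rfl
  · rw [blk_apply₂₁]; rfl
  · rw [blk_apply₂₂]; rfl

/-- Block decomposition. -/
theorem exists_decomp (G : Matrix (Fin (m + p)) (Fin (m + p)) S) (hG : IsUnit G)
    (h : IsUnit (Matrix.of fun i j => G (Fin.natAdd m i) (Fin.natAdd m j) :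
      Matrix (Fin p) (Fin p) S).det) :
    ∃ (x : Matrix (Fin m) (Fin p) S) (a : Matrix (Fin m) (Fin m) S)
      (s : Matrix (Fin p) (Fin m) S) (t : Matrix (Fin p) (Fin p) S), IsUnit a ∧
      G = blk 1 (-x) 0 1 * blk a 0 s t := by
  obtain ⟨t, ht⟩ : ∃ t : Matrix (Fin p) (Fin p) S,
      t = Matrix.of fun i j => G (Fin.natAdd m i) (Fin.natAdd m j) := ⟨_, rfl⟩
  obtain ⟨s, hs⟩ : ∃ s : Matrix (Fin p) (Fin m) S,
      s = Matrix.of fun i j => G (Fin.natAdd m i) (Fin.castAdd p j) := ⟨_, rfl⟩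
  obtain ⟨b, hb⟩ : ∃ b : Matrix (Fin m) (Fin p) S,
      b = Matrix.of fun i j => G (Fin.castAdd p i) (Fin.natAdd m j) := ⟨_, rfl⟩
  obtain ⟨c, hc⟩ : ∃ c : Matrix (Fin m) (Fin m) S,
      c = Matrix.of fun i j => G (Fin.castAdd p i) (Fin.castAdd p j) := ⟨_, rfl⟩
  have hGe : G = blk c b s t := by
    rw [hc, hb, hs, ht]
    exact blk_eta G
  rw [← ht] at h
  have h1 : G = blk 1 (-(-(b * t⁻¹))) 0 1 * blk (c - b * t⁻¹ * s) 0 s t := by
    rw [hGe, blk_mul]
    simp only [Matrix.mul_zero, Matrix.zero_mul, zero_add, Matrix.one_mul, neg_neg]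
    congr 1
    · rw [sub_add_cancel]
    · rw [Matrix.mul_assoc, Matrix.nonsing_inv_mul _ h, Matrix.mul_one]
  refine ⟨_, _, _, _, ?_, h1⟩
  rw [Matrix.isUnit_iff_isUnit_det]
  have h2 := (Matrix.isUnit_iff_isUnit_det _).1 hG
  rw [h1, Matrix.det_mul, det_blk', det_blk, Matrix.det_one, Matrix.det_one, one_mul,
    one_mul] at h2
  exact isUnit_of_mul_isUnit_left h2

theorem conj_chZ (e : S) (W0 : Matrix (Fin m) (Fin m) S) (Y0 : Matrix (Fin p) (Fin m) S)
    (x : Matrix (Fin m) (Fin p) S) (a : Matrix (Fin m) (Fin m) S) (ha : IsUnit a)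
    (s : Matrix (Fin p) (Fin m) S) (t : Matrix (Fin p) (Fin p) S) :
    (blk 1 (-x) 0 1 * blk a 0 s t) * (e • blk W0 0 Y0 1) =
      chZ e (a * W0 * a⁻¹) x ((s * W0 + t * Y0 - s) * a⁻¹) * (blk 1 (-x) 0 1 * blk a 0 s t) := by
  have had := (Matrix.isUnit_iff_isUnit_det _).1 ha
  have h1 : blk (1 : Matrix (Fin m) (Fin m) S) x 0 (1 : Matrix (Fin p) (Fin p) S) *
      blk 1 (-x) 0 1 = 1 := by
    rw [blk_mul]
    simp only [Matrix.mul_zero, Matrix.zero_mul, add_zero, zero_add, Matrix.one_mul,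
      Matrix.mul_one, neg_add_cancel]
    exact blk_one
  have h2 : blk a 0 s t * blk W0 0 Y0 1 =
      blk (a * W0 * a⁻¹) 0 ((s * W0 + t * Y0 - s) * a⁻¹) 1 * blk a 0 s t := by
    rw [blk_mul, blk_mul]
    simp only [Matrix.mul_zero, Matrix.zero_mul, add_zero, zero_add, Matrix.one_mul,
      Matrix.mul_one]
    rw [Matrix.mul_assoc (a * W0), Matrix.mul_assoc _ a⁻¹ a, Matrix.nonsing_inv_mul _ had,
      Matrix.mul_one, Matrix.mul_one, sub_add_cancel]
  rw [chZ, Matrix.mul_smul, Matrix.smul_mul]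
  congr 1
  calc blk 1 (-x) 0 1 * blk a 0 s t * blk W0 0 Y0 1
      = blk 1 (-x) 0 1 * (blk a 0 s t * blk W0 0 Y0 1) := Matrix.mul_assoc _ _ _
    _ = blk 1 (-x) 0 1 * blk (a * W0 * a⁻¹) 0 ((s * W0 + t * Y0 - s) * a⁻¹) 1 * 1 *
        blk a 0 s t := by rw [h2, Matrix.mul_one]; exact (Matrix.mul_assoc _ _ _).symm
    _ = _ := by rw [← h1]; simp only [Matrix.mul_assoc]

end Vale.Agent.P002G
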