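import Vale.Agent.P002G.TotCell5

/-!
# Density of the integral points of an arbitrary conjugacy class
-/

namespace Vale.Agent.P002G

open Matrix
open Vale.Agent.P002R (UpT LoT upT_one loT_one)

variable {n m p : ℕ} {S R : Type*} [CommRing S] [CommRing R]

/-- A test for the rank. -/
theorem exists_test (A g0 : Matrix (Fin (m + p)) (Fin (m + p)) ℂ) (W' : Matrix (Fin m) (Fin m) ℂ)
    (Y' : Matrix (Fin p) (Fin m) ℂ) (hg0 : IsUnit g0) (hA : A * g0 = g0 * blk W' 0 Y' 0)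
    (hinj : ∀ v, W' *ᵥ v = 0 → Y' *ᵥ v = 0 → v = 0) :
    ∃ E : Matrix (Fin (m + p)) (Fin (m + p)) ℂ → ℂ, IsPoly E ∧ E A ≠ 0 ∧
      ∀ (g g' : Matrix (Fin (m + p)) (Fin (m + p)) ℂ) (W : Matrix (Fin m) (Fin m) ℂ)
        (Y : Matrix (Fin p) (Fin m) ℂ), E (g * blk W 0 Y 0 * g') ≠ 0 →
        ∀ v, W *ᵥ v = 0 → Y *ᵥ v = 0 → v = 0 := by
  have hgd := (Matrix.isUnit_iff_isUnit_det _).1 hg0
  obtain ⟨P, hP⟩ : ∃ P : Matrix (Fin (m + p)) (Fin m) ℂ,
      P = Matrix.of fun i j => if i = Fin.castAdd p j then 1 else 0 := ⟨_, rfl⟩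
  obtain ⟨Q, hQ⟩ : ∃ Q : Matrix (Fin m) (Fin (m + p)) ℂ,
      Q = Matrix.of fun i j => if j = Fin.castAdd p i then 1 else 0 := ⟨_, rfl⟩
  have hPm : ∀ B : Matrix (Fin (m + p)) (Fin (m + p)) ℂ, ∀ i j,
      (B * P) i j = B i (Fin.castAdd p j) := by
    intro B i j
    rw [Matrix.mul_apply, hP]
    simp
  have hBP : ∀ (W : Matrix (Fin m) (Fin m) ℂ) (Y : Matrix (Fin p) (Fin m) ℂ),
      blk W 0 Y 0 * P * Q = blk W 0 Y 0 := by
    intro W Y
    ext i j
    rw [Matrix.mul_apply]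
    simp only [hPm]
    refine Fin.addCases (fun j => ?_) (fun j => ?_) j
    · rw [Finset.sum_eq_single j]
      · rw [hQ, Matrix.of_apply, if_pos rfl, mul_one]
      · intro k _ hk
        rw [hQ, Matrix.of_apply, if_neg, mul_zero]
        exact fun h => hk (Fin.castAdd_injective m p h).symm
      · intro h; exact absurd (Finset.mem_univ _) h
    · rw [Finset.sum_eq_zero]
      · refine Fin.addCases (fun i => ?_) (fun i => ?_) i
        · rw [blk_apply₁₂]; rfl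
        · rw [blk_apply₂₂]; rfl
      · intro k _
        rw [hQ, Matrix.of_apply, if_neg, mul_zero]
        intro h
        have := congrArg Fin.val h
        rw [Fin.val_natAdd, Fin.val_castAdd] at this
        have := k.2
        omega
  have hinj' : ∀ (W : Matrix (Fin m) (Fin m) ℂ) (Y : Matrix (Fin p) (Fin m) ℂ) v,
      (blk W 0 Y 0 * P) *ᵥ v = 0 ↔ W *ᵥ v = 0 ∧ Y *ᵥ v = 0 := by
    intro W Y v
    have h1 : ∀ i, ((blk W 0 Y 0 * P) *ᵥ v) (Fin.castAdd p i) = (W *ᵥ v) i := by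
      intro i
      rw [Matrix.mulVec, Matrix.mulVec, dotProduct, dotProduct]
      refine Finset.sum_congr rfl fun j _ => ?_
      rw [hPm, blk_apply₁₁]
    have h2 : ∀ i, ((blk W 0 Y 0 * P) *ᵥ v) (Fin.natAdd m i) = (Y *ᵥ v) i := by
      intro i
      rw [Matrix.mulVec, Matrix.mulVec, dotProduct, dotProduct]
      refine Finset.sum_congr rfl fun j _ => ?_
      rw [hPm, blk_apply₂₁]
    constructor
    · intro h
      refine ⟨funext fun i => ?_, funext fun i => ?_⟩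
      · rw [← h1, h]; rfl
      · rw [← h2, h]; rfl
    · rintro ⟨h3, h4⟩
      ext i
      refine Fin.addCases (fun i => ?_) (fun i => ?_) i
      · rw [h1, h3]; rfl
      · rw [h2, h4]; rfl
  -- a left inverse
  obtain ⟨N, hN⟩ : ∃ N : Matrix (Fin m) (Fin (m + p)) ℂ, N * (blk W' 0 Y' 0 * P) = 1 := by
    obtain ⟨f, hf⟩ := LinearMap.exists_leftInverse_of_injective
      (blk W' 0 Y' 0 * P).mulVecLin (by
        rw [LinearMap.ker_eq_bot']
        intro v hv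
        rw [Matrix.mulVecLin_apply] at hv
        have := (hinj' W' Y' v).1 hv
        exact hinj v this.1 this.2)
    refine ⟨LinearMap.toMatrix' f, ?_⟩
    apply Matrix.ext_of_mulVec_single
    intro i
    rw [← Matrix.mulVec_mulVec, Matrix.one_mulVec]
    have h1 := LinearMap.congr_fun hf (Pi.single i 1)
    rw [LinearMap.comp_apply, Matrix.mulVecLin_apply] at h1
    conv_rhs => rw [← LinearMap.id_apply (R := ℂ) (Pi.single i 1 : Fin m → ℂ), ← h1]
    rw [← Matrix.toLin'_apply, Matrix.toLin'_toMatrix']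
  refine ⟨fun Z => (N * g0⁻¹ * Z * (g0 * P)).det, ?_, ?_, ?_⟩
  · have hid : PolyMap fun g : Matrix (Fin (m + p)) (Fin (m + p)) ℂ => g :=
      polyMap_linear LinearMap.id
    exact isPoly_det (IsPoly.matrix_mul (IsPoly.matrix_mul (polyMap_const _) hid)
      (polyMap_const _))
  · have h1 : N * g0⁻¹ * A * (g0 * P) = 1 := by
      rw [← hN, Matrix.mul_assoc, ← Matrix.mul_assoc A, hA, Matrix.mul_assoc N,
        Matrix.mul_assoc g0, ← Matrix.mul_assoc g0⁻¹, Matrix.nonsing_inv_mul _ hgd,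
        Matrix.one_mul]
    beta_reduce
    rw [h1, Matrix.det_one]
    exact one_ne_zero
  · intro g g' W Y h v hv1 hv2
    have h1 : N * g0⁻¹ * (g * blk W 0 Y 0 * g') * (g0 * P) =
        N * g0⁻¹ * g * (blk W 0 Y 0 * P) * (Q * g' * (g0 * P)) := by
      conv_lhs => rw [← hBP W Y]
      simp only [Matrix.mul_assoc]
    beta_reduce at h
    rw [h1, Matrix.det_mul] at h
    have h2 := left_ne_zero_of_mul h
    apply Matrix.eq_zero_of_mulVec_eq_zero h2
    rw [← Matrix.mulVec_mulVec, (hinj' W Y v).2 ⟨hv1, hv2⟩, Matrix.mulVec_zero]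

/-- Conjugate matrices. -/
def Cj (A B : Matrix (Fin n) (Fin n) ℂ) : Prop :=
  ∃ g : Matrix (Fin n) (Fin n) ℂ, IsUnit g ∧ g * A = B * g

theorem Cj.symm {A B : Matrix (Fin n) (Fin n) ℂ} (h : Cj A B) : Cj B A := by
  obtain ⟨g, hg, h⟩ := h
  have hgd := (Matrix.isUnit_iff_isUnit_det _).1 hg
  refine ⟨g⁻¹, Matrix.isUnit_nonsing_inv_iff.2 hg, ?_⟩
  calc g⁻¹ * B = g⁻¹ * (B * g) * g⁻¹ := by
        rw [Matrix.mul_assoc, Matrix.mul_assoc, Matrix.mul_nonsing_inv _ hgd, Matrix.mul_one]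
    _ = A * g⁻¹ := by rw [← h, ← Matrix.mul_assoc, Matrix.nonsing_inv_mul _ hgd, Matrix.one_mul]

theorem Cj.trans {A B C : Matrix (Fin n) (Fin n) ℂ} (h : Cj A B) (h' : Cj B C) : Cj A C := by
  obtain ⟨g, hg, h⟩ := h
  obtain ⟨g', hg', h'⟩ := h'
  refine ⟨g' * g, hg'.mul hg, ?_⟩
  rw [Matrix.mul_assoc, h, ← Matrix.mul_assoc, h', Matrix.mul_assoc]

/-- Conjugacy of the values of the chart. -/
theorem cj_chZ (ζ : ℂ) (W0 W : Matrix (Fin m) (Fin m) ℂ) (Y0 Y : Matrix (Fin p) (Fin m) ℂ)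
    (x : Matrix (Fin m) (Fin p) ℂ) (hW : Cj W0 W)
    (h0 : ∀ v, (W0 - 1) *ᵥ v = 0 → Y0 *ᵥ v = 0 → v = 0)
    (h1 : ∀ v, (W - 1) *ᵥ v = 0 → Y *ᵥ v = 0 → v = 0) :
    Cj (ζ • blk W0 0 Y0 1) (chZ ζ W x Y) := by
  obtain ⟨a, ha, haW⟩ := hW
  have had := (Matrix.isUnit_iff_isUnit_det _).1 ha
  obtain ⟨g, hg, hgW⟩ := conj_of_inj W0 Y0 (Y * a) h0 (by
    intro v hv hv'
    have h2 : a *ᵥ v = 0 := by
      apply h1
      · have h3 : (W - 1) * a = a * (W0 - 1) := by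
          rw [Matrix.sub_mul, Matrix.mul_sub, ← haW, Matrix.one_mul, Matrix.mul_one]
        rw [Matrix.mulVec_mulVec, h3, ← Matrix.mulVec_mulVec, hv, Matrix.mulVec_zero]
      · rw [Matrix.mulVec_mulVec, hv']
    have h3 : a⁻¹ *ᵥ (a *ᵥ v) = 0 := by rw [h2, Matrix.mulVec_zero]
    rwa [Matrix.mulVec_mulVec, Matrix.nonsing_inv_mul _ had, Matrix.one_mulVec] at h3)
  -- the matrix `blk 1 (-x) 0 1 * blk a 0 0 1 * g`
  have h2 : IsUnit (blk (1 : Matrix (Fin m) (Fin m) ℂ) (-x) 0 (1 : Matrix (Fin p) (Fin p) ℂ) *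
      blk a 0 0 1) := by
    rw [Matrix.isUnit_iff_isUnit_det, Matrix.det_mul, det_blk', det_blk, Matrix.det_one,
      Matrix.det_one]
    simpa using had
  refine ⟨blk 1 (-x) 0 1 * blk a 0 0 1 * g, h2.mul hg, ?_⟩
  have h3 := conj_chZ ζ W0 (Y * a) x a ha (0 : Matrix (Fin p) (Fin m) ℂ)
    (1 : Matrix (Fin p) (Fin p) ℂ)
  rw [Matrix.zero_mul, zero_add, sub_zero, Matrix.one_mul, Matrix.mul_assoc Y,
    Matrix.mul_nonsing_inv _ had, Matrix.mul_one, haW, Matrix.mul_assoc W,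
    Matrix.mul_nonsing_inv _ had, Matrix.mul_one] at h3
  rw [Matrix.mul_assoc, Matrix.mul_smul, hgW, ← Matrix.smul_mul, ← Matrix.mul_assoc, h3,
    Matrix.mul_assoc]

theorem chZ_sub (ζ : ℂ) (W : Matrix (Fin m) (Fin m) ℂ) (Y : Matrix (Fin p) (Fin m) ℂ)
    (x : Matrix (Fin m) (Fin p) ℂ) :
    chZ ζ W x Y - ζ • 1 = (ζ • blk 1 (-x) 0 1) * blk (W - 1) 0 Y 0 * blk 1 x 0 1 := by
  have h1 : blk (1 : Matrix (Fin m) (Fin m) ℂ) (-x) 0 (1 : Matrix (Fin p) (Fin p) ℂ) *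
      blk 1 x 0 1 = 1 := by
    rw [blk_mul]
    simp only [Matrix.mul_zero, Matrix.zero_mul, add_zero, zero_add, Matrix.one_mul,
      Matrix.mul_one, add_neg_cancel]
    exact blk_one
  have h2 : blk W 0 Y 1 = 1 + blk (W - 1) 0 Y 0 := by
    rw [← blk_one]
    ext i j
    rw [Matrix.add_apply]
    refine Fin.addCases (fun i => ?_) (fun i => ?_) i <;>
      refine Fin.addCases (fun j => ?_) (fun j => ?_) j
    · rw [blk_apply₁₁, blk_apply₁₁, blk_apply₁₁, Matrix.sub_apply]; ring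
    · rw [blk_apply₁₂, blk_apply₁₂, blk_apply₁₂]; simp
    · rw [blk_apply₂₁, blk_apply₂₁, blk_apply₂₁]; simp
    · rw [blk_apply₂₂, blk_apply₂₂, blk_apply₂₂]; simp
  rw [chZ, h2, Matrix.mul_add, Matrix.add_mul, Matrix.mul_one, h1, smul_add, Matrix.smul_mul,
    Matrix.smul_mul]
  abel

/-- Eigenvalues. -/
theorem isRoot_iff (A : Matrix (Fin n) (Fin n) ℂ) (z : ℂ) :
    A.charpoly.IsRoot z ↔ (A - z • 1).det = 0 := by
  rw [Polynomial.IsRoot.def, Matrix.eval_charpoly, Matrix.scalar_apply,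
    ← Matrix.smul_one_eq_diagonal, ← neg_sub,
    Matrix.det_neg, mul_eq_zero, or_iff_right (pow_ne_zero _ (neg_ne_zero.2 one_ne_zero))]

/-- **Density of the integral points of a conjugacy class** in the cell, with a modulus. -/
theorem totCell (φ : R →+* ℂ) (u : Rˣ) (hu : ∀ k : ℕ, 0 < k → φ u ^ k ≠ 1) (D : R)
    (hD : ∃ M : ℕ, 0 < M ∧ D ∣ (u : R) ^ M - 1) : ∀ (n : ℕ) (J : Matrix (Fin n) (Fin n) ℂ)
    (_ : IsUnit J) (_ : ∀ z, J.charpoly.IsRoot z → ∃ e : Rˣ, φ e = z)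
    (F : Matrix (Fin n) (Fin n) ℂ → ℂ) (_ : IsPoly F)
    (_ : ∀ Z : Matrix (Fin n) (Fin n) R, InC Z → (∀ i j, j < i → D ∣ Z i j) →
      Cj J (Z.map φ) → F (Z.map φ) = 0)
    (g : Matrix (Fin n) (Fin n) ℂ) (_ : IsUnit g), F (g * J * g⁻¹) = 0 := by
  intro n
  induction n using Nat.strong_induction_on with
  | h n ih =>
  intro J hJu hJ F hF h
  rcases Nat.eq_zero_or_pos n with h0 | h0
  · subst h0
    intro g _
    rw [Subsingleton.elim (g * J * g⁻¹) ((1 : Matrix (Fin 0) (Fin 0) R).map φ)]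
    apply h 1 inC_one (fun i => i.elim0)
    exact ⟨1, isUnit_one, Subsingleton.elim _ _⟩
  -- an eigenvalue
  obtain ⟨ζ, hζ⟩ := IsAlgClosed.exists_root J.charpoly (by
    rw [Matrix.charpoly_degree_eq_dim, Fintype.card_fin]
    exact_mod_cast h0.ne')
  obtain ⟨e, he⟩ := hJ ζ hζ
  have hζ0 : ζ ≠ 0 := by rw [← he]; exact (e.isUnit.map φ).ne_zero
  obtain ⟨p, hp⟩ : ∃ p, Module.finrank ℂ (LinearMap.ker (J - ζ • 1).mulVecLin) = p := ⟨_, rfl⟩
  have hp0 : 0 < p := by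
    rw [← hp]
    apply Module.finrank_pos_iff_exists_ne_zero.2
    obtain ⟨v, hv0, hv⟩ := Matrix.exists_mulVec_eq_zero_iff.2 ((isRoot_iff J ζ).1 hζ)
    exact ⟨⟨v, by rw [LinearMap.mem_ker, Matrix.mulVecLin_apply]; exact hv⟩,
      fun h => hv0 (congrArg Subtype.val h)⟩
  have hpn : p ≤ n := by
    rw [← hp]
    refine (Submodule.finrank_le _).trans ?_
    rw [Module.finrank_fin_fun]
  obtain ⟨m, rfl⟩ : ∃ m, n = m + p := ⟨n - p, by omega⟩
  obtain ⟨g0, W', Y', hg0, hA, hinj⟩ := adapted _ hp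
  have hg0d := (Matrix.isUnit_iff_isUnit_det _).1 hg0
  obtain ⟨E, hE, hEA, hEt⟩ := exists_test _ g0 W' Y' hg0 hA hinj
  obtain ⟨W0, hW0⟩ : ∃ W0, W0 = 1 + ζ⁻¹ • W' := ⟨_, rfl⟩
  obtain ⟨Y0, hY0⟩ : ∃ Y0, Y0 = ζ⁻¹ • Y' := ⟨_, rfl⟩
  have hB0 : ζ • blk W0 0 Y0 1 = ζ • 1 + blk W' 0 Y' 0 := by
    rw [← blk_one, hW0, hY0]
    ext i j
    rw [Matrix.smul_apply, Matrix.add_apply, Matrix.smul_apply]
    refine Fin.addCases (fun i => ?_) (fun i => ?_) i <;>
      refine Fin.addCases (fun j => ?_) (fun j => ?_) j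
    · rw [blk_apply₁₁, blk_apply₁₁, blk_apply₁₁, Matrix.add_apply, Matrix.smul_apply]
      simp only [smul_eq_mul]
      field_simp
    · rw [blk_apply₁₂, blk_apply₁₂, blk_apply₁₂]; simp
    · rw [blk_apply₂₁, blk_apply₂₁, blk_apply₂₁, Matrix.smul_apply]
      simp only [smul_eq_mul]
      field_simp
      simp
    · rw [blk_apply₂₂, blk_apply₂₂, blk_apply₂₂]; simp
  have hJg : J * g0 = g0 * (ζ • blk W0 0 Y0 1) := by
    rw [hB0, Matrix.mul_add, ← hA, Matrix.sub_mul, Matrix.mul_smul, Matrix.smul_mul,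
      Matrix.mul_one, Matrix.one_mul]
    abel
  have hinj0 : ∀ v, (W0 - 1) *ᵥ v = 0 → Y0 *ᵥ v = 0 → v = 0 := by
    intro v hv1 hv2
    rw [hW0, add_sub_cancel_left, Matrix.smul_mulVec] at hv1
    rw [hY0, Matrix.smul_mulVec] at hv2
    exact hinj v ((smul_eq_zero.1 hv1).resolve_left (inv_ne_zero hζ0))
      ((smul_eq_zero.1 hv2).resolve_left (inv_ne_zero hζ0))
  have hcjJ : Cj (ζ • blk W0 0 Y0 1) J := ⟨g0, hg0, hJg.symm⟩
  -- determinants
  have hdet : ∀ z : ℂ, (J - (ζ * z) • 1).det =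
      ζ ^ (m + p) * ((W0 - z • 1).det * ((1 : Matrix (Fin p) (Fin p) ℂ) - z • 1).det) := by
    intro z
    have h1 : (J - (ζ * z) • 1) * g0 = g0 * (ζ • blk (W0 - z • 1) 0 Y0 (1 - z • 1)) := by
      have h2 : ζ • blk (W0 - z • 1) 0 Y0 (1 - z • 1) = ζ • blk W0 0 Y0 1 - (ζ * z) • 1 := by
        rw [← blk_one]
        ext i j
        rw [Matrix.smul_apply, Matrix.sub_apply, Matrix.smul_apply, Matrix.smul_apply]
        refine Fin.addCases (fun i => ?_) (fun i => ?_) i <;>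
          refine Fin.addCases (fun j => ?_) (fun j => ?_) j
        · rw [blk_apply₁₁, blk_apply₁₁, blk_apply₁₁, Matrix.sub_apply, Matrix.smul_apply]
          simp only [smul_eq_mul]
          ring
        · rw [blk_apply₁₂, blk_apply₁₂, blk_apply₁₂]; simp
        · rw [blk_apply₂₁, blk_apply₂₁, blk_apply₂₁]; simp
        · rw [blk_apply₂₂, blk_apply₂₂, blk_apply₂₂, Matrix.sub_apply, Matrix.smul_apply]
          simp only [smul_eq_mul]
          ring
      rw [h2, Matrix.sub_mul, Matrix.mul_sub, hJg, Matrix.smul_mul, Matrix.one_mul,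
        Matrix.mul_smul, Matrix.mul_smul, Matrix.mul_one]
    have h2 := congrArg Matrix.det h1
    rw [Matrix.det_mul, Matrix.det_mul, mul_comm, Matrix.det_smul, Fintype.card_fin,
      det_blk] at h2
    exact mul_left_cancel₀ hg0d.ne_zero h2
  have hW0u : IsUnit W0 := by
    have h1 := hdet 0
    rw [mul_zero, zero_smul, zero_smul, zero_smul, sub_zero, sub_zero, sub_zero, Matrix.det_one,
      mul_one] at h1
    have h2 := ((Matrix.isUnit_iff_isUnit_det _).1 hJu).ne_zero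
    rw [h1] at h2
    rw [Matrix.isUnit_iff_isUnit_det]
    exact isUnit_iff_ne_zero.2 (right_ne_zero_of_mul h2)
  have hW0r : ∀ z, W0.charpoly.IsRoot z → ∃ e : Rˣ, φ e = z := by
    intro z hz
    have h1 := hdet z
    rw [(isRoot_iff W0 z).1 hz, zero_mul, mul_zero] at h1
    obtain ⟨e', he'⟩ := hJ _ ((isRoot_iff J _).2 h1)
    refine ⟨e⁻¹ * e', ?_⟩
    have h2 : φ ((e⁻¹ : Rˣ) : R) * φ (e : R) = 1 := by
      rw [← map_mul, Units.inv_mul, map_one]
    rw [Units.val_mul, map_mul, he', ← he, ← mul_assoc, h2, one_mul]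
  -- the polynomial
  obtain ⟨G, hG⟩ : ∃ G : Matrix (Fin (m + p)) (Fin (m + p)) ℂ → ℂ,
      G = fun Z => E (Z - ζ • 1) * F Z := ⟨_, rfl⟩
  have hE' : IsPoly fun Z : Matrix (Fin (m + p)) (Fin (m + p)) ℂ => E (Z - ζ • 1) :=
    PolyMap.comp ((polyMap_linear LinearMap.id).sub (polyMap_const _)) hE
  have hGp : IsPoly G := by
    rw [hG]
    exact hE'.mul hF
  -- integral `W`
  have step1 : ∀ W : Matrix (Fin m) (Fin m) R, InC W → (∀ i j, j < i → D ∣ W i j) →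
      Cj W0 (W.map φ) → ∀ x Y, G (chZ ζ (W.map φ) x Y) = 0 := by
    intro W hW hWD hWc x Y
    obtain ⟨U, L, hU, hU1, hL, hL1, rfl⟩ := hW
    have hLu := (Matrix.isUnit_iff_isUnit_det _).1 (isUnit_of_loT hL hL1)
    have hlin1 : PolyMap fun z : Matrix (Fin m) (Fin p) ℂ × Matrix (Fin p) (Fin m) ℂ => z.1 :=
      polyMap_linear (LinearMap.fst ℂ (Matrix (Fin m) (Fin p) ℂ) (Matrix (Fin p) (Fin m) ℂ))
    have hlin2 : PolyMap fun z : Matrix (Fin m) (Fin p) ℂ × Matrix (Fin p) (Fin m) ℂ => z.2 :=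
      polyMap_linear (LinearMap.snd ℂ (Matrix (Fin m) (Fin p) ℂ) (Matrix (Fin p) (Fin m) ℂ))
    have key := pairs_dense φ u hu D hD
      (fun z : Matrix (Fin m) (Fin p) ℂ × Matrix (Fin p) (Fin m) ℂ =>
        G (chZ ζ ((U * L).map φ) ((L⁻¹).map φ * z.1) (z.2 * L.map φ)))
      ((polyMap_chZ (polyMap_const _) (IsPoly.matrix_mul (polyMap_const _) hlin1)
        (IsPoly.matrix_mul hlin2 (polyMap_const _)) ζ).comp hGp) ?_ (L.map φ * x)
        (Y * (L⁻¹).map φ)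
    · beta_reduce at key
      rw [← Matrix.mul_assoc, Matrix.mul_assoc Y, ← Matrix.map_mul, Matrix.nonsing_inv_mul _ hLu,
        Matrix.map_one φ (map_zero φ) (map_one φ), Matrix.one_mul, Matrix.mul_one] at key
      exact key
    · intro x' Y' hxY
      obtain ⟨h1, h2⟩ := chZ_inC e.isUnit hU hU1 hL hL1 D hWD hxY
      beta_reduce
      rw [← Matrix.map_mul, ← Matrix.map_mul, ← he, ← chZ_map, hG]
      beta_reduce
      by_cases hEz : E ((chZ (e : R) (U * L) (L⁻¹ * x') (Y' * L)).map φ - ζ • 1) = 0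
      · rw [hEz, zero_mul]
      · rw [h _ h1 h2, mul_zero]
        rw [chZ_map, he] at hEz ⊢
        rw [chZ_sub] at hEz
        exact hcjJ.symm.trans (cj_chZ ζ W0 _ Y0 _ _ hWc hinj0 (hEt _ _ _ _ hEz))
  -- arbitrary `W`
  have step2 : ∀ (x : Matrix (Fin m) (Fin p) ℂ) (Y : Matrix (Fin p) (Fin m) ℂ)
      (a : Matrix (Fin m) (Fin m) ℂ), IsUnit a → G (chZ ζ (a * W0 * a⁻¹) x Y) = 0 := by
    intro x Y
    exact ih m (by omega) W0 hW0u hW0r (fun W => G (chZ ζ W x Y))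
      ((polyMap_chZ (polyMap_linear LinearMap.id) (polyMap_const _) (polyMap_const _) ζ).comp hGp)
      fun W h1 h2 h3 => step1 W h1 h2 h3 x Y
  -- the orbit
  have hlin3 : PolyMap fun g : Matrix (Fin (m + p)) (Fin (m + p)) ℂ => g * g0 :=
    IsPoly.matrix_mul (polyMap_linear LinearMap.id) (polyMap_const _)
  apply orbit_irred J F (fun Z => E (Z - ζ • 1)) hF hE'
    (fun g => (Matrix.of fun i j => (g * g0) (Fin.natAdd m i) (Fin.natAdd m j) :
      Matrix (Fin p) (Fin p) ℂ).det)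
    (isPoly_det (polyMap_matrix fun i j => hlin3.entry _ _)) g0⁻¹ ?_ hEA
  · intro g hg hgd hgE
    obtain ⟨x, a, s, t, ha, hgg⟩ := exists_decomp (g * g0) (hg.mul hg0)
      (isUnit_iff_ne_zero.2 hgd)
    have h1 := conj_chZ ζ W0 Y0 x a ha s t
    rw [← hgg, Matrix.mul_assoc, ← hJg, ← Matrix.mul_assoc, ← Matrix.mul_assoc] at h1
    have h2 := hg0.mul_right_cancel h1
    have hgd' := (Matrix.isUnit_iff_isUnit_det _).1 hg
    have h3 : g * J * g⁻¹ = chZ ζ (a * W0 * a⁻¹) x ((s * W0 + t * Y0 - s) * a⁻¹) := by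
      rw [h2, Matrix.mul_assoc, Matrix.mul_nonsing_inv _ hgd', Matrix.mul_one]
    have h4 := step2 x ((s * W0 + t * Y0 - s) * a⁻¹) a ha
    rw [← h3, hG] at h4
    exact (mul_eq_zero.1 h4).resolve_left hgE
  · beta_reduce
    rw [Matrix.nonsing_inv_mul _ hg0d]
    have h1 : (Matrix.of fun i j => (1 : Matrix (Fin (m + p)) (Fin (m + p)) ℂ) (Fin.natAdd m i)
        (Fin.natAdd m j) : Matrix (Fin p) (Fin p) ℂ) = 1 := by
      ext i j
      rw [Matrix.of_apply, Matrix.one_apply, Matrix.one_apply]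
      simp
    rw [h1, Matrix.det_one]
    exact one_ne_zero

end Vale.Agent.P002G
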