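import Vale.Agent.P002G.TotCell6
import Vale.Agent.P002G.Cell

/-!
# The density in the coordinates of the cell
-/

namespace Vale.Agent.P002G

open Matrix
open Vale.Agent.P002R (UpT LoT upT_one loT_one)

variable {n : ℕ} {R : Type*} [CommRing R]

/-- Functions of the coordinates that are rational functions of the matrix. -/
def IsQ (f : Matrix (Fin n) (Fin n) ℂ → ℂ) : Prop :=
  ∃ G N : Matrix (Fin n) (Fin n) ℂ → ℂ, IsPoly G ∧ IsPoly N ∧
    ∀ X : Matrix (Fin n) (Fin n) ℂ, (∀ i, X i i ≠ 0) → N (zZ X) ≠ 0 ∧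
      G (zZ X) = N (zZ X) * f X

theorem isQ_const (c : ℂ) : IsQ fun _ : Matrix (Fin n) (Fin n) ℂ => c :=
  ⟨fun _ => c, fun _ => 1, isPoly_const c, isPoly_const 1, fun X _ => ⟨one_ne_zero, by simp⟩⟩

theorem isQ_entry (i j : Fin n) : IsQ fun X : Matrix (Fin n) (Fin n) ℂ => zZ X i j :=
  ⟨fun Z => Z i j, fun _ => 1, (polyMap_linear LinearMap.id).entry i j, isPoly_const 1,
    fun X _ => ⟨one_ne_zero, by simp⟩⟩

theorem IsQ.add {f g : Matrix (Fin n) (Fin n) ℂ → ℂ} (hf : IsQ f) (hg : IsQ g) :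
    IsQ fun X => f X + g X := by
  obtain ⟨G, N, hG, hN, h⟩ := hf
  obtain ⟨G', N', hG', hN', h'⟩ := hg
  refine ⟨fun Z => G Z * N' Z + G' Z * N Z, fun Z => N Z * N' Z, (hG.mul hN').add (hG'.mul hN),
    hN.mul hN', fun X hX => ?_⟩
  obtain ⟨h1, h2⟩ := h X hX
  obtain ⟨h3, h4⟩ := h' X hX
  refine ⟨mul_ne_zero h1 h3, ?_⟩
  beta_reduce
  rw [h2, h4]
  ring

theorem IsQ.mul {f g : Matrix (Fin n) (Fin n) ℂ → ℂ} (hf : IsQ f) (hg : IsQ g) :
    IsQ fun X => f X * g X := by
  obtain ⟨G, N, hG, hN, h⟩ := hf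
  obtain ⟨G', N', hG', hN', h'⟩ := hg
  refine ⟨fun Z => G Z * G' Z, fun Z => N Z * N' Z, hG.mul hG', hN.mul hN', fun X hX => ?_⟩
  obtain ⟨h1, h2⟩ := h X hX
  obtain ⟨h3, h4⟩ := h' X hX
  refine ⟨mul_ne_zero h1 h3, ?_⟩
  beta_reduce
  rw [h2, h4]
  ring

theorem IsQ.sum {ι : Type*} (s : Finset ι) {f : ι → Matrix (Fin n) (Fin n) ℂ → ℂ}
    (hf : ∀ i ∈ s, IsQ (f i)) : IsQ fun X => ∑ i ∈ s, f i X := by
  classical
  induction s using Finset.induction_on with
  | empty => simpa using isQ_const (n := n) 0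
  | insert i s hi ih =>
    have h1 := (hf i (Finset.mem_insert_self i s)).add
      (ih fun j hj => hf j (Finset.mem_insert_of_mem hj))
    have h2 : (fun X => ∑ i ∈ insert i s, f i X) = fun X => f i X + ∑ i ∈ s, f i X :=
      funext fun X => Finset.sum_insert hi
    rw [h2]
    exact h1

theorem IsQ.congr {f g : Matrix (Fin n) (Fin n) ℂ → ℂ} (hf : IsQ f)
    (h : ∀ X : Matrix (Fin n) (Fin n) ℂ, (∀ i, X i i ≠ 0) → f X = g X) : IsQ g := by
  obtain ⟨G, N, hG, hN, h'⟩ := hf
  exact ⟨G, N, hG, hN, fun X hX => ⟨(h' X hX).1, by rw [(h' X hX).2, h X hX]⟩⟩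

theorem IsQ.inv {f : Matrix (Fin n) (Fin n) ℂ → ℂ} (hf : IsQ f)
    (h : ∀ X : Matrix (Fin n) (Fin n) ℂ, (∀ i, X i i ≠ 0) → f X ≠ 0) : IsQ fun X => (f X)⁻¹ := by
  obtain ⟨G, N, hG, hN, h'⟩ := hf
  refine ⟨N, G, hN, hG, fun X hX => ?_⟩
  obtain ⟨h1, h2⟩ := h' X hX
  have h3 := h X hX
  refine ⟨by rw [h2]; exact mul_ne_zero h1 h3, ?_⟩
  rw [h2, mul_assoc, mul_inv_cancel₀ h3, mul_one]

theorem zZ_apply (X : Matrix (Fin n) (Fin n) ℂ) (i j : Fin n) :
    zZ X i j = ∑ k, (if i = k then 1 else if i < k then X i k else 0) *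
      (if j ≤ k then X k j else 0) := rfl

/-- The coordinates are rational functions of the matrix. -/
theorem isQ_coord : ∀ (d : ℕ) (i j : Fin n), n ≤ max (i : ℕ) j + 1 + d →
    IsQ fun X : Matrix (Fin n) (Fin n) ℂ => X i j := by
  intro d
  induction d using Nat.strong_induction_on with
  | h d ih =>
  intro i j hd
  -- entries with larger index
  have hlarge : ∀ a b : Fin n, max (i : ℕ) j < max (a : ℕ) b →
      IsQ fun X : Matrix (Fin n) (Fin n) ℂ => X a b := by
    intro a b hab
    have ha := a.2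
    have hb := b.2
    exact ih (n - (max (a : ℕ) b + 1)) (by omega) a b (by omega)
  have hlow : ∀ a b : Fin n, b ≤ a → max (i : ℕ) j = a →
      IsQ fun X : Matrix (Fin n) (Fin n) ℂ => X a b := by
    intro a b hba hm
    have h1 : IsQ fun X : Matrix (Fin n) (Fin n) ℂ => zZ X a b +
        (-1) * ∑ k ∈ Finset.univ.filter (a < ·), X a k * X k b := by
      refine (isQ_entry a b).add ((isQ_const (-1)).mul (IsQ.sum _ fun k hk => ?_))
      rw [Finset.mem_filter, Fin.lt_def] at hk
      have hk2 := hk.2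
      exact (hlarge a k (by omega)).mul (hlarge k b (by omega))
    refine h1.congr fun X _ => ?_
    rw [zZ_apply, ← Finset.sum_filter_add_sum_filter_not Finset.univ (a < ·)]
    have h2 : ∑ k ∈ Finset.univ.filter (a < ·), (if a = k then 1 else if a < k then X a k else 0) *
        (if b ≤ k then X k b else 0) = ∑ k ∈ Finset.univ.filter (a < ·), X a k * X k b := by
      refine Finset.sum_congr rfl fun k hk => ?_
      rw [Finset.mem_filter] at hk
      rw [if_neg hk.2.ne, if_pos hk.2, if_pos (hba.trans hk.2.le)]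
    have h3 : ∑ k ∈ Finset.univ.filter (fun k => ¬ a < k),
        (if a = k then 1 else if a < k then X a k else 0) * (if b ≤ k then X k b else 0) =
        X a b := by
      rw [Finset.sum_eq_single a]
      · rw [if_pos rfl, if_pos hba, one_mul]
      · intro k hk hka
        rw [Finset.mem_filter] at hk
        rw [if_neg (Ne.symm hka), if_neg hk.2, zero_mul]
      · intro h
        exfalso
        apply h
        rw [Finset.mem_filter]
        exact ⟨Finset.mem_univ _, lt_irrefl a⟩
    rw [h2, h3]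
    ring
  rcases le_or_gt j i with hji | hij
  · exact hlow i j hji (by rw [Fin.le_def] at hji; omega)
  · -- upper entries
    have hjj : IsQ fun X : Matrix (Fin n) (Fin n) ℂ => X j j :=
      hlow j j le_rfl (by rw [Fin.lt_def] at hij; omega)
    have h1 : IsQ fun X : Matrix (Fin n) (Fin n) ℂ => (zZ X i j +
        (-1) * ∑ k ∈ Finset.univ.filter (j < ·), X i k * X k j) * (X j j)⁻¹ := by
      refine ((isQ_entry i j).add ((isQ_const (-1)).mul (IsQ.sum _ fun k hk => ?_))).mul
        (hjj.inv fun X hX => hX j)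
      rw [Finset.mem_filter, Fin.lt_def] at hk
      have hk2 := hk.2
      exact (hlarge i k (by omega)).mul (hlarge k j (by omega))
    refine h1.congr fun X hX => ?_
    rw [zZ_apply, ← Finset.sum_filter_add_sum_filter_not Finset.univ (j < ·)]
    have h2 : ∑ k ∈ Finset.univ.filter (j < ·), (if i = k then 1 else if i < k then X i k else 0) *
        (if j ≤ k then X k j else 0) = ∑ k ∈ Finset.univ.filter (j < ·), X i k * X k j := by
      refine Finset.sum_congr rfl fun k hk => ?_
      rw [Finset.mem_filter] at hk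
      have hik := hij.trans hk.2
      rw [if_neg hik.ne, if_pos hik, if_pos hk.2.le]
    have h3 : ∑ k ∈ Finset.univ.filter (fun k => ¬ j < k),
        (if i = k then 1 else if i < k then X i k else 0) * (if j ≤ k then X k j else 0) =
        X i j * X j j := by
      rw [Finset.sum_eq_single j]
      · rw [if_neg hij.ne, if_pos hij, if_pos le_rfl]
      · intro k hk hkj
        rw [Finset.mem_filter] at hk
        rw [if_neg (fun h : j ≤ k => hk.2 (lt_of_le_of_ne h (Ne.symm hkj))), mul_zero]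
      · intro h
        exfalso
        apply h
        rw [Finset.mem_filter]
        exact ⟨Finset.mem_univ _, lt_irrefl j⟩
    rw [h2, h3]
    have := hX j
    field_simp
    ring

/-- Polynomial functions of the coordinates are rational functions of the matrix. -/
theorem IsPoly.isQ {F : Matrix (Fin n) (Fin n) ℂ → ℂ} (hF : IsPoly F) : IsQ F := by
  unfold IsPoly polyAlg at hF
  induction hF using Algebra.adjoin_induction with
  | mem f hf =>
    obtain ⟨l, rfl⟩ := hf
    have h1 : IsQ fun X : Matrix (Fin n) (Fin n) ℂ =>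
        ∑ i, ∑ j, X i j * l (Matrix.single i j 1) :=
      IsQ.sum _ fun i _ => IsQ.sum _ fun j _ =>
        (isQ_coord (n := n) n i j (by omega)).mul (isQ_const _)
    refine h1.congr fun X _ => ?_
    conv_rhs => rw [Matrix.matrix_eq_sum_single X]
    rw [map_sum]
    refine Finset.sum_congr rfl fun i _ => ?_
    rw [map_sum]
    refine Finset.sum_congr rfl fun j _ => ?_
    rw [← smul_eq_mul, ← map_smul, Matrix.smul_single, smul_eq_mul, mul_one]
  | algebraMap c => exact isQ_const c
  | add f g _ _ hf hg => exact hf.add hg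
  | mul f g _ _ hf hg => exact hf.mul hg

/-- **Density in the coordinates of the cell.** -/
theorem totCoord (φ : R →+* ℂ) (u : Rˣ) (hu : ∀ k : ℕ, 0 < k → φ u ^ k ≠ 1) (D : R)
    (hD : ∃ M : ℕ, 0 < M ∧ D ∣ (u : R) ^ M - 1) {n : ℕ} (J : Matrix (Fin n) (Fin n) ℂ)
    (hJu : IsUnit J) (hJ : ∀ z, J.charpoly.IsRoot z → ∃ e : Rˣ, φ e = z)
    (F : Matrix (Fin n) (Fin n) ℂ → ℂ) (hF : IsPoly F)
    (h : ∀ X : Matrix (Fin n) (Fin n) R, (∀ i, IsUnit (X i i)) → (∀ i j, j < i → D ∣ X i j) →
      Cj J (zZ (X.map φ)) → F (X.map φ) = 0)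
    (X : Matrix (Fin n) (Fin n) ℂ) (hX : ∀ i, X i i ≠ 0) (hJX : Cj J (zZ X)) : F X = 0 := by
  obtain ⟨G, N, hG, hN, hGN⟩ := hF.isQ
  obtain ⟨g, hg, hgX⟩ := hJX
  have hgd := (Matrix.isUnit_iff_isUnit_det _).1 hg
  have h1 := totCell φ u hu D hD n J hJu hJ G hG (by
    intro Z hZ hZD hZJ
    obtain ⟨U, L, hU, hU1, hL, hL1, rfl⟩ := hZ
    obtain ⟨X, hX⟩ : ∃ X : Matrix (Fin n) (Fin n) R,
        X = Matrix.of fun i j => if i < j then U i j else L i j := ⟨_, rfl⟩
    have hXU : uU X = U := by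
      ext i j
      rw [uU, Matrix.of_apply, hX]
      rcases lt_trichotomy i j with h2 | h2 | h2
      · rw [if_neg h2.ne, if_pos h2, Matrix.of_apply, if_pos h2]
      · subst h2
        rw [if_pos rfl, hU1]
      · rw [if_neg h2.ne', if_neg h2.not_gt, hU i j h2]
    have hXL : lL X = L := by
      ext i j
      rw [lL, Matrix.of_apply, hX]
      by_cases h2 : j ≤ i
      · rw [if_pos h2, Matrix.of_apply, if_neg (not_lt.2 h2)]
      · rw [if_neg h2, hL i j (not_le.1 h2)]
    have hZX : U * L = zZ X := by rw [zZ, hXU, hXL]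
    have hXi : ∀ i, X i i = L i i := fun i => by rw [hX, Matrix.of_apply, if_neg (lt_irrefl i)]
    have hXD : ∀ i j, j < i → D ∣ X i j := by
      intro i j hij
      have hLU : L = U⁻¹ * (U * L) := by
        rw [← Matrix.mul_assoc, Matrix.nonsing_inv_mul _
          ((Matrix.isUnit_iff_isUnit_det _).1 (isUnit_of_upT hU hU1)), Matrix.one_mul]
      -- the columns of `L` below the diagonal
      have key : ∀ (d : ℕ) (i : Fin n), j < i → n ≤ i + 1 + d → D ∣ L i j := by
        intro d
        induction d using Nat.strong_induction_on with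
        | h d ih =>
        intro i hij hd
        have h2 := hZD i j hij
        rw [Matrix.mul_apply, ← Finset.add_sum_erase _ _ (Finset.mem_univ i), hU1, one_mul] at h2
        refine (dvd_add_left (Finset.dvd_sum fun k hk => ?_)).1 h2
        rcases lt_or_gt_of_ne (Finset.ne_of_mem_erase hk) with h3 | h3
        · rw [hU i k h3, zero_mul]
          exact dvd_zero D
        · apply Dvd.dvd.mul_left
          have h4 : (i : ℕ) < k := h3
          have := k.2
          exact ih (n - (k + 1)) (by omega) k (hij.trans h3) (by omega)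
      rw [hX, Matrix.of_apply, if_neg hij.not_gt]
      exact key n i hij (by omega)
    have h2 := h X (fun i => by rw [hXi]; exact hL1 i) hXD (by
      rw [← zZ_map, ← hZX]
      exact hZJ)
    have h3 := (hGN (X.map φ) (fun i => by
      rw [Matrix.map_apply, hXi]
      exact ((hL1 i).map φ).ne_zero)).2
    rw [h2, mul_zero, ← zZ_map, ← hZX] at h3
    exact h3) g hg
  have h2 : g * J * g⁻¹ = zZ X := by
    rw [hgX, Matrix.mul_assoc, Matrix.mul_nonsing_inv _ hgd, Matrix.mul_one]
  rw [h2] at h1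
  obtain ⟨h3, h4⟩ := hGN X hX
  rw [h1] at h4
  exact (mul_eq_zero.1 h4.symm).resolve_left h3

end Vale.Agent.P002G
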