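import Vale.Agent.P002G.TotCell7
import Vale.Agent.P002G.Chart1C
import Vale.Agent.P002R.ZCore

/-!
# Total density, in the forms used by the charts
-/

namespace Vale.Agent.P002G

open Matrix

variable {r : ℕ} {R : Type*} [CommRing R]

theorem cj_of_cjC {J Z : Matrix (Fin r) (Fin r) ℂ} (h : CjC J Z) : Cj J Z := by
  obtain ⟨g, rfl⟩ := h
  exact ⟨g, g.isUnit, by rw [Matrix.mul_assoc, Units.inv_mul, Matrix.mul_one]⟩

theorem cjC_of_cj {J Z : Matrix (Fin r) (Fin r) ℂ} (h : Cj J Z) : CjC J Z := by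
  obtain ⟨g, ⟨g', rfl⟩, h⟩ := h
  exact ⟨g', by rw [h, Matrix.mul_assoc, Units.mul_inv, Matrix.mul_one]⟩

/-- Total density with a modulus, genus one. -/
theorem totM (φ : R →+* ℂ) (u : Rˣ) (hu : ∀ k : ℕ, 0 < k → φ u ^ k ≠ 1)
    (hUP : ∀ D : R, D ≠ 0 → ∃ M : ℕ, 0 < M ∧ D ∣ (u : R) ^ M - 1)
    (J : Matrix (Fin r) (Fin r) ℂ) (hJu : IsUnit J)
    (hJ : ∀ z, J.charpoly.IsRoot z → ∃ e : Rˣ, φ e = z) : TotM φ J := by
  intro D hD F hF h X hX hJX
  exact totCoord φ u hu D (hUP D hD) J hJu hJ F hF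
    (fun X h1 h2 h3 => h X h1 h2 (cjC_of_cj h3)) X hX (cj_of_cjC hJX)

theorem isPoly_eval (F : MvPolynomial (Fin r × Fin r) ℂ) :
    IsPoly fun X : Matrix (Fin r) (Fin r) ℂ =>
      MvPolynomial.eval (fun p : Fin r × Fin r => X p.1 p.2) F := by
  induction F using MvPolynomial.induction_on with
  | C a => simpa using isPoly_const a
  | add p q hp hq => simpa using hp.add hq
  | mul_X p i hp =>
    simpa using hp.mul (PolyMap.entry (ψ := fun X : Matrix (Fin r) (Fin r) ℂ => X)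
      (polyMap_linear LinearMap.id) i.1 i.2)

/-- Total density, genus zero. -/
theorem totD (φ : R →+* ℂ) (u : Rˣ) (hu : ∀ k : ℕ, 0 < k → φ u ^ k ≠ 1)
    (J : Matrix (Fin r) (Fin r) ℂ) (hJu : IsUnit J)
    (hJ : ∀ z, J.charpoly.IsRoot z → ∃ e : Rˣ, φ e = z) : P002R.TotD φ J := fun F h X hX hJX =>
  totCoord φ u hu 1 ⟨1, one_pos, one_dvd _⟩ J hJu hJ _ (isPoly_eval F)
    (fun X h1 _ h3 => h X h1 (cjC_of_cj h3)) X hX (cj_of_cjC hJX)

end Vale.Agent.P002G
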