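import Vale.Agent.P002G.LemmaB

/-!
# Cyclic vectors of triangular matrices which are congruent to bidiagonal ones
-/

namespace Vale.Agent.P002G

open Matrix Polynomial

variable {n : ℕ} {S : Type*} [CommRing S]

theorem lcons_mulVec (q : S) (l : Fin n → S) (L : Matrix (Fin n) (Fin n) S) (x₀ : S)
    (y : Fin n → S) : lcons q l L *ᵥ (Fin.cons x₀ y) = Fin.cons (q * x₀) (x₀ • l + L *ᵥ y) := by
  ext i
  refine Fin.cases ?_ (fun i => ?_) i
  · simp [lcons, mulVec, dotProduct, Fin.sum_univ_succ]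
  · simp [lcons, mulVec, dotProduct, Fin.sum_univ_succ, mul_comm]

/-- Cyclic vectors of block triangular matrices. -/
theorem cyc_lcons {q : S} {l : Fin n → S} {L : Matrix (Fin n) (Fin n) S} {s : Sˣ} {x : Fin n → S}
    (h : Cyc L ((s : S) • l + L *ᵥ x - q • x)) : Cyc (lcons q l L) (Fin.cons (s : S) x) := by
  intro M hM hL
  obtain ⟨M', hM'⟩ : ∃ M' : Submodule S (Fin n → S), ∀ y, y ∈ M' ↔
      (Fin.cons 0 y : Fin (n + 1) → S) ∈ M := by
    have ha : ∀ x y : Fin n → S, (Fin.cons 0 (x + y) : Fin (n + 1) → S) =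
        Fin.cons 0 x + Fin.cons 0 y := by
      intro x y
      ext i
      refine Fin.cases ?_ (fun i => ?_) i <;> simp
    have hc : ∀ (c : S) (x : Fin n → S), (Fin.cons 0 (c • x) : Fin (n + 1) → S) =
        c • Fin.cons 0 x := by
      intro c x
      ext i
      refine Fin.cases ?_ (fun i => ?_) i <;> simp
    have h0 : (Fin.cons 0 (0 : Fin n → S) : Fin (n + 1) → S) = 0 := by
      ext i
      refine Fin.cases ?_ (fun i => ?_) i <;> simp
    exact ⟨{ carrier := {x | (Fin.cons 0 x : Fin (n + 1) → S) ∈ M}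
             add_mem' := fun {x y} hx hy => by
              rw [Set.mem_ofPred_eq, ha]; exact M.add_mem hx hy
             zero_mem' := by rw [Set.mem_ofPred_eq, h0]; exact M.zero_mem
             smul_mem' := fun c x hx => by
              rw [Set.mem_ofPred_eq, hc]; exact M.smul_mem c hx }, fun x => Iff.rfl⟩
  have h1 : M' = ⊤ := by
    apply h M'
    · rw [hM']
      have h2 := M.sub_mem (hL _ hM) (M.smul_mem q hM)
      rw [lcons_mulVec] at h2
      have h3 : (Fin.cons (q * (s : S)) ((s : S) • l + L *ᵥ x) : Fin (n + 1) → S) -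
          q • (Fin.cons (s : S) x : Fin (n + 1) → S) =
          Fin.cons 0 ((s : S) • l + L *ᵥ x - q • x) := by
        ext i
        refine Fin.cases ?_ (fun i => ?_) i <;> simp
      rwa [h3] at h2
    · intro y hy
      rw [hM'] at hy ⊢
      have h2 := hL _ hy
      rw [lcons_mulVec, mul_zero, zero_smul, zero_add] at h2
      exact h2
  rw [eq_top_iff]
  intro z _
  have hz : ∀ y : Fin n → S, (Fin.cons 0 y : Fin (n + 1) → S) ∈ M := by
    intro y
    rw [← hM', h1]
    trivial
  have h2 := M.add_mem (M.smul_mem (z 0 * ((s⁻¹ : Sˣ) : S)) hM)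
    (hz (Fin.tail z - (z 0 * ((s⁻¹ : Sˣ) : S)) • x))
  have h3 : (z 0 * ((s⁻¹ : Sˣ) : S)) • (Fin.cons (s : S) x : Fin (n + 1) → S) +
      Fin.cons 0 (Fin.tail z - (z 0 * ((s⁻¹ : Sˣ) : S)) • x) = z := by
    ext i
    refine Fin.cases ?_ (fun i => ?_) i
    · simp [mul_assoc]
    · simp [Fin.tail]
  rwa [h3] at h2

theorem Cyc.smul_unit {Z : Matrix (Fin n) (Fin n) S} {v : Fin n → S} (h : Cyc Z v) (s : Sˣ) :
    Cyc Z ((s : S) • v) := by
  intro M hM hZ
  apply h M _ hZ
  have := M.smul_mem ((s⁻¹ : Sˣ) : S) hM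
  rwa [smul_smul, Units.inv_mul, one_smul] at this

/-- A lower triangular matrix with diagonal `ν`, whose other entries are congruent to those of a
bidiagonal matrix with units below the diagonal, has a cyclic vector. -/
theorem exists_cyc_tri [IsDomain S] (Δ : S) : ∀ {n : ℕ} (ν : Fin n → S)
    (_ : ∀ j, ∏ i ∈ Finset.univ.filter (fun i => j < i), (ν i - ν j) ∣ Δ)
    (_ : ∀ i j, j < i → ν i ≠ ν j)
    (s : ℕ → Sˣ) (E : S) (L : Matrix (Fin n) (Fin n) S), (∀ i, L i i = ν i) →
    (∀ i j, i < j → L i j = 0) →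
    (∀ i j, j < i → Δ ^ n * E ∣ L i j - if (i : ℕ) = j + 1 then (s j : S) else 0) →
    ∀ t : Sˣ, ∃ v : Fin n → S, Cyc L v ∧
      ∀ i, E ∣ v i - if (i : ℕ) = 0 then (t : S) else 0 := by
  intro n
  induction n with
  | zero =>
    intro ν _ _ s E L _ _ _ t
    refine ⟨0, fun M _ _ => ?_, fun i => i.elim0⟩
    rw [eq_top_iff]
    intro x _
    rw [Subsingleton.elim x 0]
    exact M.zero_mem
  | succ n ih =>
    intro ν hν hne s E L hd hu hl t
    obtain ⟨l, hl'⟩ : ∃ l : Fin n → S, l = fun i => L i.succ 0 := ⟨_, rfl⟩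
    obtain ⟨L', hL'⟩ : ∃ L' : Matrix (Fin n) (Fin n) S, L' = Matrix.of fun i j => L i.succ j.succ :=
      ⟨_, rfl⟩
    have hLe : L = lcons (ν 0) l L' := by
      ext i j
      refine Fin.cases ?_ (fun i => ?_) i <;> refine Fin.cases ?_ (fun j => ?_) j
      · rw [hd]; rfl
      · rw [hu _ _ (Fin.succ_pos j)]; rfl
      · rw [hl']; rfl
      · rw [hL']; rfl
    obtain ⟨v', hv1, hv2⟩ := ih (fun i => ν i.succ) (by
      intro j
      have h1 := hν j.succ
      have h2 : ∏ i ∈ Finset.univ.filter (fun i : Fin (n + 1) => j.succ < i), (ν i - ν j.succ) =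
          ∏ i ∈ Finset.univ.filter (fun i : Fin n => j < i), (ν i.succ - ν j.succ) := by
        rw [Finset.prod_filter, Finset.prod_filter, Fin.prod_univ_succ,
          if_neg (Fin.not_lt_zero _), one_mul]
        refine Finset.prod_congr rfl fun i _ => ?_
        simp only [Fin.succ_lt_succ_iff]
      rw [h2] at h1
      exact h1) (fun i j hij => hne _ _ (Fin.succ_lt_succ_iff.2 hij)) (fun k => s (k + 1)) (Δ * E)
      L' (fun i => by rw [hL', Matrix.of_apply, hd]) (fun i j hij => by
        rw [hL', Matrix.of_apply]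
        exact hu _ _ (Fin.succ_lt_succ_iff.2 hij)) (fun i j hij => by
        rw [hL', Matrix.of_apply]
        have h1 := hl _ _ (Fin.succ_lt_succ_iff.2 hij)
        have h2 : Δ ^ n * (Δ * E) = Δ ^ (n + 1) * E := by ring
        rw [h2]
        simpa using h1) (s 0)
    -- the determinant
    have hdet : (L' - ν 0 • (1 : Matrix (Fin n) (Fin n) S)).det =
        ∏ i ∈ Finset.univ.filter (fun i : Fin (n + 1) => 0 < i), (ν i - ν 0) := by
      rw [Matrix.det_of_isLowerTriangular]
      · rw [Finset.prod_filter, Fin.prod_univ_succ, if_neg (lt_irrefl _), one_mul]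
        refine Finset.prod_congr rfl fun i _ => ?_
        rw [if_pos (Fin.succ_pos i)]
        simp [hL', hd]
      · intro i j hij
        have h : i < j := hij
        rw [Matrix.sub_apply, Matrix.smul_apply, Matrix.one_apply_ne h.ne, smul_zero, sub_zero, hL',
          Matrix.of_apply]
        exact hu _ _ (Fin.succ_lt_succ_iff.2 h)
    have hdvd : (L' - ν 0 • (1 : Matrix (Fin n) (Fin n) S)).det ∣ Δ := by
      rw [hdet]; exact hν 0
    obtain ⟨Δ', hΔ'⟩ := hdvd
    have hvl : ∀ i, Δ * E ∣ v' i - l i := by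
      intro i
      have h1 := hv2 i
      have h2 : Δ * E ∣ l i - if (i : ℕ) = 0 then (s 0 : S) else 0 := by
        have h3 := hl i.succ 0 (Fin.succ_pos i)
        rw [hl']
        refine (Dvd.intro (Δ ^ n) ?_).trans (by simpa using h3)
        ring
      have h3 := dvd_sub h1 h2
      rwa [sub_sub_sub_cancel_right] at h3
    choose z hz using hvl
    obtain ⟨x, hx⟩ : ∃ x : Fin n → S, x = (t * Δ' * E) •
        ((L' - ν 0 • (1 : Matrix (Fin n) (Fin n) S)).adjugate *ᵥ z) := ⟨_, rfl⟩
    refine ⟨Fin.cons (t : S) x, ?_, ?_⟩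
    · rw [hLe]
      apply cyc_lcons
      have h1 : L' *ᵥ x - ν 0 • x = (t : S) • (v' - l) := by
        have h2 : L' *ᵥ x - ν 0 • x = (L' - ν 0 • (1 : Matrix (Fin n) (Fin n) S)) *ᵥ x := by
          rw [Matrix.sub_mulVec, smul_mulVec, Matrix.one_mulVec]
        rw [h2, hx, mulVec_smul, mulVec_mulVec, Matrix.mul_adjugate, smul_mulVec,
          Matrix.one_mulVec, smul_smul]
        ext i
        rw [Pi.smul_apply, Pi.smul_apply, smul_eq_mul, smul_eq_mul, Pi.sub_apply, hz, hΔ']
        ring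
      have h2 : (t : S) • l + L' *ᵥ x - ν 0 • x = (t : S) • v' := by
        rw [add_sub_assoc, h1, smul_sub]
        abel
      rw [h2]
      exact hv1.smul_unit t
    · intro i
      refine Fin.cases ?_ (fun i => ?_) i
      · simp
      · simp only [Fin.cons_succ, Fin.val_succ, Nat.succ_ne_zero, if_false, sub_zero]
        rw [hx, Pi.smul_apply, smul_eq_mul]
        exact (Dvd.intro_left _ rfl).mul_right _

end Vale.Agent.P002G
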