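import Vale.Agent.P002G.LagGen
import Vale.Agent.P002R.ZOneCore
import Vale.Agent.P002R.ZFib

/-!
# The black boxes of the chart in genus one, for the group of all units
-/

namespace Vale.Agent.P002G

open Matrix Polynomial
open Vale.Agent.P002 (kry)
open Vale.Agent.P002R (GoodD VecV FibV LoT isPoly_entries)

variable {R : Type*} [CommRing R]

theorem goodD_top (φ : R →+* ℂ) (hφ : Function.Injective φ) (u : Rˣ)
    (hu : ∀ k : ℕ, 0 < k → φ (u : R) ^ k ≠ 1)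
    (hUP : ∀ D : R, D ≠ 0 → ∃ M : ℕ, 0 < M ∧ D ∣ (u : R) ^ M - 1) {r : ℕ}
    (ν : Fin r → Rˣ) (hν : Function.Injective ν) :
    GoodD φ ⊤ ν ((∏ j, ∏ i ∈ Finset.univ.filter (fun i => j < i), ((ν i : R) - ν j)) ^ r) := by
  have hdom : IsDomain R := hφ.isDomain φ
  intro A hA hAd hA1 hA2 G hG y
  obtain ⟨Δ, hΔ⟩ : ∃ Δ : R, Δ = ∏ j, ∏ i ∈ Finset.univ.filter (fun i => j < i),
      ((ν i : R) - ν j) := ⟨_, rfl⟩
  have hνR : Function.Injective fun i => (ν i : R) := fun i j h => hν (Units.ext h)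
  have hs : ∀ k : ℕ, ∃ s : Rˣ, ∀ i j : Fin r, (j : ℕ) = k → (i : ℕ) = k + 1 →
      Δ ^ r ∣ A i j - (s : R) := by
    intro k
    by_cases hk : k + 1 < r
    · obtain ⟨s, -, hs⟩ := hA2 ⟨k + 1, hk⟩ ⟨k, by omega⟩ rfl
      refine ⟨s, fun i j hj hi => ?_⟩
      have h1 : i = ⟨k + 1, hk⟩ := Fin.ext hi
      have h2 : j = ⟨k, by omega⟩ := Fin.ext hj
      rw [h1, h2, hΔ]
      exact hs
    · exact ⟨1, fun i j _ hi => absurd i.2 (by omega)⟩
  choose s hs using hs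
  obtain ⟨v, hv, -⟩ := exists_cyc_tri Δ (fun i => (ν i : R)) (fun j => by
      rw [hΔ]
      exact Finset.dvd_prod_of_mem _ (Finset.mem_univ j))
    (fun i j hij h => hij.ne (hνR h).symm) s 1 A hAd hA (fun i j hij => by
      rw [mul_one]
      by_cases h6 : (i : ℕ) = j + 1
      · rw [if_pos h6]
        exact hs j i j rfl h6
      · rw [if_neg h6, sub_zero, hΔ]
        refine hA1 i j ?_
        have := Fin.lt_def.1 hij
        omega) 1
  have hcp : A.charpoly = ∏ i, (Polynomial.X - C (ν i : R)) := by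
    have h1 : (Aᵀ).charpoly = ∏ i, (X - C (Aᵀ i i)) :=
      Matrix.charpoly_of_isUpperTriangular Aᵀ fun i j hij => hA j i hij
    rw [← Matrix.charpoly_transpose, h1]
    exact Finset.prod_congr rfl fun i _ => by rw [Matrix.transpose_apply, hAd]
  refine cyc_vectors_dense φ hφ u hu hUP A hνR hcp hv (isPoly_mvPoly G) ?_ y
  intro z hz
  refine hG z ?_
  have h1 : IsUnit (kry A z).det := (Matrix.isUnit_iff_isUnit_det _).1 ((cyc_iff _ _).1 hz)
  obtain ⟨w, hw⟩ := h1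
  exact ⟨w, Subgroup.mem_top w, hw⟩

/-- Density of the cyclic vectors. -/
theorem vecV_top (φ : R →+* ℂ) (hφ : Function.Injective φ) (u : Rˣ)
    (hu : ∀ k : ℕ, 0 < k → φ (u : R) ^ k ≠ 1)
    (hUP : ∀ D : R, D ≠ 0 → ∃ M : ℕ, 0 < M ∧ D ∣ (u : R) ^ M - 1) (r : ℕ) : VecV φ ⊤ r := by
  have hdom : IsDomain R := hφ.isDomain φ
  intro ν hν _
  refine ⟨_, ?_, goodD_top φ hφ u hu hUP ν hν⟩
  apply pow_ne_zero
  rw [Finset.prod_ne_zero_iff]
  intro j _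
  rw [Finset.prod_ne_zero_iff]
  intro i hi
  rw [Finset.mem_filter] at hi
  exact sub_ne_zero.2 fun h => hi.2.ne (hν (Units.ext h)).symm

/-- Fibrewise density with a modulus. -/
theorem fibV_top (φ : R →+* ℂ) (hφ : Function.Injective φ) (u : Rˣ)
    (hu : ∀ k : ℕ, 0 < k → φ (u : R) ^ k ≠ 1)
    (hUP : ∀ D : R, D ≠ 0 → ∃ M : ℕ, 0 < M ∧ D ∣ (u : R) ^ M - 1) (n : ℕ) : FibV φ ⊤ n := by
  intro D hD q χ hχ hχd F hF X hX1 hX2 hX3
  obtain ⟨F', hF'⟩ : ∃ F' : Matrix (Fin (n + 1)) (Fin (n + 1)) ℂ → ℂ, ∀ X, F' X =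
    MvPolynomial.eval (fun p => X p.1 p.2) F := ⟨_, fun _ => rfl⟩
  have hP : IsPoly F' := (isPoly_entries F).congr fun X => (hF' X).symm
  rw [← en_eq_e0] at hX3
  rw [← hF']
  refine QQ_all φ hφ u hu hUP n D hD q χ hχ hχd F' hP ?_ X hX1 hX2 hX3
  intro X' h1 h2 h3 h4
  rw [hF']
  rw [en_eq_e0] at h4
  obtain ⟨w, hw⟩ := (Matrix.isUnit_iff_isUnit_det _).1 ((cyc_iff _ _).1 h4)
  exact hF X' h1 h2 h3 ⟨w, Subgroup.mem_top w, hw⟩

end Vale.Agent.P002G
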